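import Vale.Agent.P362b.Defs

namespace Vale.Agent.P362b

open Matrix Finset

/-- dual form of the hybrid argument -/
def QB {ι : Type} [Fintype ι] (f : (ι → Bool) → Bool) (T : ℕ) : Prop :=
  ∃ β : ℕ → (ι → Bool) → ι → ℝ, (∀ t x i, 0 ≤ β t x i) ∧ (∀ t x, ∑ i, β t x i ^ 2 ≤ 1) ∧
    ∀ x y, f x ≠ f y → (1 : ℝ) / 35 ≤ ∑ t ∈ range T, ∑ i, if x i = y i then 0 else β t x i * β t y i

variable {n w : ℕ}

noncomputable def ip (ψ φ : Basis n w → ℂ) : ℝ := (star ψ ⬝ᵥ φ).re

lemma ip_unitary (U : Matrix.unitaryGroup (Basis n w) ℂ) (ψ φ : Basis n w → ℂ) :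
    ip ((U : Matrix (Basis n w) (Basis n w) ℂ) *ᵥ ψ) ((U : Matrix (Basis n w) (Basis n w) ℂ) *ᵥ φ) = ip ψ φ := by
  unfold ip
  rw [star_mulVec, dotProduct_mulVec, vecMul_vecMul]
  have : (U : Matrix (Basis n w) (Basis n w) ℂ)ᴴ * (U : Matrix (Basis n w) (Basis n w) ℂ) = 1 := by
    have := U.2.1
    simpa [star_eq_conjTranspose] using this
  rw [this, vecMul_one]

lemma oracle_mulVec (x : Fin n → Bool) (ψ : Basis n w → ℂ) (a : Basis n w) :
    (oracle x *ᵥ ψ) a = ψ (a.1, xor a.2.1 (x a.1), a.2.2) := by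
  unfold oracle
  simp only [mulVec, dotProduct]
  rw [Finset.sum_eq_single (a.1, xor a.2.1 (x a.1), a.2.2)]
  · obtain ⟨i, b, z⟩ := a
    simp
  · rintro ⟨i, b, z⟩ _ h
    rw [if_neg, zero_mul]
    rintro rfl
    simp at h
  · simp

lemma ip_eq (ψ φ : Basis n w → ℂ) :
    ip ψ φ = ∑ i, ∑ p : Bool × Fin w, ((starRingEnd ℂ) (ψ (i, p)) * φ (i, p)).re := by
  unfold ip dotProduct
  rw [Complex.re_sum, Fintype.sum_prod_type]
  rfl

lemma ip_self (ψ : Basis n w → ℂ) : ip ψ ψ = ∑ b, ‖ψ b‖ ^ 2 := by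
  unfold ip dotProduct
  rw [Complex.re_sum]
  refine Finset.sum_congr rfl fun b _ => ?_
  simp only [Pi.star_apply, RCLike.star_def]
  rw [Complex.conj_mul', ← Complex.ofReal_pow, Complex.ofReal_re]

noncomputable def blk (ψ : Basis n w → ℂ) (i : Fin n) : ℝ := √(∑ p : Bool × Fin w, ‖ψ (i, p)‖ ^ 2)

lemma re_le (a b : ℂ) : |((starRingEnd ℂ) a * b).re| ≤ ‖a‖ * ‖b‖ := by
  refine (Complex.abs_re_le_norm _).trans ?_
  simp

lemma cs {κ : Type} [Fintype κ] (u v : κ → ℂ) :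
    |∑ p, ((starRingEnd ℂ) (u p) * v p).re| ≤ √(∑ p, ‖u p‖ ^ 2) * √(∑ p, ‖v p‖ ^ 2) := by
  refine (Finset.abs_sum_le_sum_abs _ _).trans ?_
  refine (Finset.sum_le_sum fun p _ => re_le _ _).trans ?_
  exact Real.sum_mul_le_sqrt_mul_sqrt _ _ _

/-- flipping the bit register -/
def flp (c : Bool) : Bool × Fin w ≃ Bool × Fin w where
  toFun p := (xor p.1 c, p.2)
  invFun p := (xor p.1 c, p.2)
  left_inv p := by simp
  right_inv p := by simp

lemma ip_oracle (x y : Fin n → Bool) (ψ φ : Basis n w → ℂ) :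
    ip ψ φ - ip (oracle x *ᵥ ψ) (oracle y *ᵥ φ) ≤
      2 * ∑ i, if x i = y i then 0 else blk ψ i * blk φ i := by
  rw [ip_eq, ip_eq, ← Finset.sum_sub_distrib, Finset.mul_sum]
  refine Finset.sum_le_sum fun i _ => ?_
  simp only [oracle_mulVec]
  split_ifs with h
  · rw [h]
    have := (flp (w := w) (y i)).sum_comp (fun p => ((starRingEnd ℂ) (ψ (i, p)) * φ (i, p)).re)
    simp only [flp, Equiv.coe_fn_mk] at this
    rw [this]; simp
  · have h1 := cs (fun p => ψ (i, p)) (fun p => φ (i, p))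
    have h2 := cs (fun p : Bool × Fin w => ψ (i, xor p.1 (x i), p.2)) (fun p => φ (i, xor p.1 (y i), p.2))
    have e1 := (flp (w := w) (x i)).sum_comp (fun p => ‖ψ (i, p)‖ ^ 2)
    have e2 := (flp (w := w) (y i)).sum_comp (fun p => ‖φ (i, p)‖ ^ 2)
    simp only [flp, Equiv.coe_fn_mk] at e1 e2
    rw [e1, e2] at h2
    have := abs_le.1 h1
    have := abs_le.1 h2
    unfold blk
    linarith

lemma ip_oracle_self (x : Fin n → Bool) (ψ : Basis n w → ℂ) :
    ip (oracle x *ᵥ ψ) (oracle x *ᵥ ψ) = ip ψ ψ := by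
  rw [ip_eq, ip_eq]
  refine Finset.sum_congr rfl fun i _ => ?_
  simp only [oracle_mulVec]
  have := (flp (w := w) (x i)).sum_comp (fun p => ((starRingEnd ℂ) (ψ (i, p)) * ψ (i, p)).re)
  simpa only [flp, Equiv.coe_fn_mk] using this

lemma ip_single (s : Basis n w) : ip (Pi.single s 1 : Basis n w → ℂ) (Pi.single s 1) = 1 := by
  unfold ip
  simp

lemma state_norm (U : ℕ → Matrix.unitaryGroup (Basis n w) ℂ) (s : Basis n w) (x : Fin n → Bool) (t : ℕ) :
    ip (state U s x t) (state U s x t) = 1 := by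
  induction t with
  | zero => rw [state, ip_unitary, ip_single]
  | succ t ih => rw [state, ip_unitary, ip_oracle_self, ih]

lemma state_ip (U : ℕ → Matrix.unitaryGroup (Basis n w) ℂ) (s : Basis n w) (x y : Fin n → Bool) (T : ℕ) :
    1 - ip (state U s x T) (state U s y T) ≤
      2 * ∑ t ∈ range T, ∑ i, if x i = y i then 0 else blk (state U s x t) i * blk (state U s y t) i := by
  induction T with
  | zero => rw [state, state, ip_unitary, ip_single]; simp
  | succ t ih =>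
    rw [state, state, ip_unitary, Finset.sum_range_succ]
    have := ip_oracle x y (state U s x t) (state U s y t)
    linarith

lemma final_ip (ψ φ : Basis n w → ℂ) (out : Basis n w → Bool) (a b : Bool) (hab : a ≠ b)
    (h1 : ip ψ ψ = 1) (h2 : ip φ φ = 1)
    (ha : (2 : ℝ) / 3 ≤ ∑ c, if out c = a then ‖ψ c‖ ^ 2 else 0)
    (hb : (2 : ℝ) / 3 ≤ ∑ c, if out c = b then ‖φ c‖ ^ 2 else 0) : ip ψ φ ≤ 33 / 35 := by
  rw [ip_self] at h1 h2
  have key : ip ψ φ ≤ ∑ c, ((5 / 7) * ‖ψ c‖ ^ 2 + (5 / 7) * ‖φ c‖ ^ 2 -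
      (51 / 140) * (if out c = a then ‖ψ c‖ ^ 2 else 0) - (51 / 140) * (if out c = b then ‖φ c‖ ^ 2 else 0)) := by
    unfold ip dotProduct
    rw [Complex.re_sum]
    refine Finset.sum_le_sum fun c _ => ?_
    have := (abs_le.1 (re_le (ψ c) (φ c))).2
    refine le_trans (by simpa using this) ?_
    by_cases h : out c = a
    · have h' : out c ≠ b := h ▸ hab
      rw [if_pos h, if_neg h']
      nlinarith [sq_nonneg (7 * ‖ψ c‖ - 10 * ‖φ c‖)]
    · have h' : out c = b := by cases a <;> cases b <;> simp_all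
      rw [if_neg h, if_pos h']
      nlinarith [sq_nonneg (10 * ‖ψ c‖ - 7 * ‖φ c‖)]
  simp only [Finset.sum_sub_distrib, Finset.sum_add_distrib, ← Finset.mul_sum] at key
  rw [h1, h2] at key
  linarith

theorem QB_of_quant {f : (Fin n → Bool) → Bool} {T : ℕ} (h : QuantComputes f T) : QB f T := by
  obtain ⟨w, U, s, out, h⟩ := h
  refine ⟨fun t x i => blk (state U s x t) i, fun t x i => Real.sqrt_nonneg _, fun t x => ?_, fun x y hxy => ?_⟩
  · have := state_norm U s x t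
    rw [ip_self, Fintype.sum_prod_type] at this
    refine le_of_eq (Eq.trans (Finset.sum_congr rfl fun i _ => ?_) this)
    unfold blk
    rw [Real.sq_sqrt (Finset.sum_nonneg fun _ _ => sq_nonneg _)]
  · have h1 := state_ip U s x y T
    have h2 := final_ip _ _ out _ _ hxy (state_norm U s x T) (state_norm U s y T) (h x) (h y)
    linarith

end Vale.Agent.P362b
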