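import Vale.Agent.P362b.FG

namespace Vale.Agent.P362b

open Finset Matrix

noncomputable section

lemma Circ.comp {Y ι ι' : Type} [Fintype Y] [DecidableEq Y] (pos : ι → ι') :
    ∀ {q : ℕ} {F : (ι → Bool) → Matrix Y Y ℝ}, Circ q F → Circ q fun x : ι' → Bool => F fun i => x (pos i)
  | 0, _, ⟨U, hU, h⟩ => ⟨U, hU, fun x => h _⟩
  | q + 1, _, ⟨G, U, idx, hG, hU, h⟩ =>
    ⟨_, U, fun y => (idx y).map pos, hG.comp pos, hU, fun x => by
      have : ph (fun y => (idx y).map pos) x = ph idx fun i => x (pos i) := by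
        unfold ph; congr 1; ext y; beta_reduce; cases idx y <;> rfl
      simp only [h, this]⟩

lemma Samp.comp {Ω ι ι' : Type} {q : ℕ} {E : (ι → Bool) → (Ω → ℝ) → ℝ} (h : Samp q E) (pos : ι → ι') :
    Samp q fun x : ι' → Bool => E fun i => x (pos i) := by
  obtain ⟨Y, _, _, V, y0, out, hV, e⟩ := h
  exact ⟨Y, _, _, _, y0, out, hV.comp pos, fun x φ => e _ _⟩

lemma Det.comp {Ω ι ι' : Type} {q : ℕ} {g : (ι → Bool) → Ω} (h : Det q g) (pos : ι → ι') :
    Det q fun x : ι' → Bool => g fun i => x (pos i) := Samp.comp h pos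

lemma one_sub_sum_le {J : Type} (s : Finset J) {a : J → ℝ} (h0 : ∀ j, 0 ≤ a j) (h1 : ∀ j, a j ≤ 1) :
    1 - ∑ j ∈ s, a j ≤ ∏ j ∈ s, (1 - a j) := by
  classical
  induction s using Finset.induction_on with
  | empty => simp
  | insert i s hi ih =>
    rw [Finset.sum_insert hi, Finset.prod_insert hi]
    have := mul_le_mul_of_nonneg_left ih (sub_nonneg.2 (h1 i))
    nlinarith [mul_nonneg (h0 i) (Finset.sum_nonneg fun j (_ : j ∈ s) => h0 j)]

lemma prod_le_one_factor {J : Type} [Fintype J] {a : J → ℝ} (h0 : ∀ j, 0 ≤ a j) (h1 : ∀ j, a j ≤ 1) (i : J) :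
    ∏ j, a j ≤ a i := by
  classical
  rw [← Finset.mul_prod_erase _ _ (mem_univ i)]
  exact mul_le_of_le_one_right (h0 i) (Finset.prod_le_one (fun j _ => h0 j) fun j _ => h1 j)

open Classical in
/-- data with a quantumly readable, locally certifiable, classically hidden address -/
structure Gadget (D A P C : Type) [Fintype D] [DecidableEq D] [DecidableEq A] (q r d : ℕ) (η φ : ℝ) where
  ok : (D → Bool) → A → (P → Bool) → C → Bool
  det : ∀ α κ, Det r fun x : D ⊕ P → Bool => ok (fun u => x (.inl u)) α (fun u => x (.inr u)) κ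
  E : (D → Bool) → (A → ℝ) → ℝ
  samp : Samp q E
  sound : ∀ z α w, (∀ κ, ok z α w κ = true) → 3 / 4 ≤ E z fun β => if β = α then 1 else 0
  ν : A → (D → Bool) → ℝ
  ν0 : (D → Bool) → ℝ
  prob : ∀ α, Prob (ν α)
  prob0 : Prob ν0
  hide : ∀ α F, Dep d F → |∑ z, ν α z * F z - ∑ z, ν0 z * F z| ≤ η
  pf : (D → Bool) → P → Bool
  good : ∀ α, ∑ z, ν α z * (if ∀ κ, ok z α (pf z) κ = true then 0 else 1) ≤ φ

/-- bit strings -/
abbrev II (a : ℕ) : Type := Fin a → Bool

/-- input positions -/
abbrev Pos (a : ℕ) (D A P : Type) : Type := (II a × II a) ⊕ (II a × D) ⊕ (A × Option ((II a × Fin a) ⊕ P))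

variable {a : ℕ} {D A P C : Type}

def kill (x : Pos a D A P → Bool) (α : A) (c : II a) : Bool :=
  !x (.inl (c, fun t => x (.inr (.inr (α, some (.inl (c, t)))))))

lemma det_kill (α : A) (c : II a) : Det (a + 1) fun x : Pos a D A P → Bool => kill x α c :=
  ((Det.word fun t : Fin a => (.inr (.inr (α, some (.inl (c, t)))) : Pos a D A P)).bind fun ρ =>
    (Det.read (.inl (c, ρ))).map Bool.not).mono (by simp)

variable [Fintype D] [DecidableEq D] [DecidableEq A] {q r d : ℕ} {η φ : ℝ} (G : Gadget D A P C q r d η φ)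

def chk (x : Pos a D A P → Bool) (c : II a) (α : A) : Option (II a ⊕ II a ⊕ C) → Bool
  | none => x (.inr (.inr (α, none)))
  | some (.inl ρ) => x (.inl (c, ρ))
  | some (.inr (.inl c')) => decide (c' = c) || kill x α c'
  | some (.inr (.inr κ)) => G.ok (fun u => x (.inr (.inl (c, u)))) α (fun u => x (.inr (.inr (α, some (.inr u))))) κ

open Classical in
/-- the separating function -/
def fn (x : Pos a D A P → Bool) : Bool := decide (∃ c α, ∀ κ, chk G x c α κ = true)

lemma det_chk (c : II a) (α : A) (κ : Option (II a ⊕ II a ⊕ C)) :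
    Det (a + 1 + r) fun x : Pos a D A P → Bool => chk G x c α κ := by
  rcases κ with _ | ρ | c' | κ
  · exact (Det.read _).mono (by omega)
  · exact (Det.read _).mono (by omega)
  · exact ((det_kill α c').map fun b => decide (c' = c) || b).mono (by omega)
  · exact ((G.det α κ).comp (Sum.elim (fun u => (.inr (.inl (c, u)) : Pos a D A P))
      fun u => .inr (.inr (α, some (.inr u))))).mono (by omega)

theorem alg [Fintype C] {J R : ℕ} (h1 : 2 * (2 : ℝ) ^ a < 9 ^ (J + 1))
    (h2 : Fintype.card (Option (II a ⊕ II a ⊕ C)) < 9 ^ (J + 1))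
    (h3 : 2 * (2 : ℝ) ^ a * (1 - 1 / (27 * (J + 1))) ^ R ≤ 1 / 12)
    (h4 : R * (1 - 2 / (27 * (J + 1)) : ℝ) ^ R ≤ 1 / 3) :
    ∃ acc, Acc (R * (3 ^ J * (q + R * (2 * (a + 1)))) + R * (q + R * (3 ^ J * (a + 1 + r) + (a + 1 + r)))) acc ∧
      ∀ x : Pos a D A P → Bool, (fn G x = true → 2 / 3 ≤ acc x) ∧ (fn G x = false → acc x ≤ 1 / 3) := by
  classical
  have hdec : ∀ c : II a, Samp q fun x : Pos a D A P → Bool => G.E fun u => x (.inr (.inl (c, u))) :=
    fun c => G.samp.comp _
  have hbase := (Samp.unif (II a)).bind fun c => (hdec c).map fun α => (c, α)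
  set sv : (Pos a D A P → Bool) → II a × A → II a × A → Bool :=
    fun x u v => decide (u.1 ≠ v.1) && kill x u.2 v.1 && !kill x v.2 u.1 with hsv
  have hsd : ∀ u v, Det (2 * (a + 1)) fun x => sv x u v := fun u v =>
    (((det_kill u.2 v.1).pair (det_kill v.2 u.1)).map fun p => decide (u.1 ≠ v.1) && p.1 && !p.2).mono (by omega)
  obtain ⟨E', hE', hT⟩ := tour (J := J) hbase hsd (fun x u v => by
    simp only [hsv, Bool.and_eq_true, Bool.not_eq_true']
    rintro ⟨⟨⟨_, e1⟩, _⟩, _, e2⟩
    rw [e1] at e2; exact absurd e2 (by simp)) h1 R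
  have hver := fun (c : II a) (α : A) => search (J := J) (bad := fun x κ => !chk G x c α κ)
    (fun κ => (det_chk G c α κ).map Bool.not) h2 R
  choose ver hv1 hv2 using hver
  have hcol := fun c : II a => (hdec c).acc (hv1 c)
  have hlist := fun l : Fin R → II a × A => Acc.any fun j => hcol (l j).1
  refine ⟨_, (hE'.acc hlist).mono (by simp), fun x => ⟨fun hf => ?_, fun hf => ?_⟩⟩
  · obtain ⟨b, α, hb⟩ := of_decide_eq_true hf
    have hk : ∀ β, kill x β b = false := fun β => by
      have := hb (some (.inl fun t => x (.inr (.inr (β, some (.inl (b, t)))))))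
      simp only [chk] at this
      simp [kill, this]
    have hs := G.sound _ α _ fun κ => hb (some (.inr (.inr κ)))
    have t1 := hT x (fun u => decide (u = (b, α))) (fun u => decide (u.1 = b)) (fun u v hu hv => by
      obtain rfl : u = (b, α) := by simpa using hu
      have hv' : v.1 ≠ b := by simpa using hv
      have := hb (some (.inr (.inl v.1)))
      simp only [chk, hv', decide_false, Bool.false_or] at this
      simp [hsv, hk, this, hv'.symm]) (by
      have := Finset.single_le_sum (f := fun c : II a => G.E (fun u => x (.inr (.inl (c, u)))) fun β =>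
        ind (decide ((c, β) = (b, α)))) (fun c _ => ((hdec c).fd x).nonneg fun _ => ind_nonneg _) (mem_univ b)
      simp only [Prod.mk.injEq, true_and] at this
      simp only [Fintype.card_fun, Fintype.card_bool, Fintype.card_fin, Nat.cast_pow, Nat.cast_ofNat,
        Prod.mk.injEq]
      have e : (fun β => ind (decide (β = α))) = fun β => if β = α then 1 else 0 := by
        ext β; simp [ind]
      rw [e] at this
      rw [mul_div_assoc', le_div_iff₀ (by positivity)]
      nlinarith [pow_pos (two_pos (α := ℝ)) a])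
    have t2 : 3 / 4 ≤ G.E (fun u => x (.inr (.inl (b, u)))) fun β => ver b β x := by
      refine hs.trans (((hdec b).fd x).mono fun β => ?_)
      split_ifs with h
      · rw [h, (hv2 b α x).1 fun κ => by simp [hb κ]]
      · exact ((hv1 b β).range x).1
    have t3 := (hE'.fd x).mono (φ := fun l => 3 / 4 - 3 / 4 * ind (decide (∀ j, decide ((l j).1 = b) = false)))
      (ψ := fun l => 1 - ∏ j, (1 - G.E (fun u => x (.inr (.inl ((l j).1, u)))) fun β => ver (l j).1 β x)) fun l => by
      by_cases h : ∀ j, decide ((l j).1 = b) = false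
      · simp only [h, implies_true, decide_true, ind_true, mul_one, sub_self]
        exact ((hlist l).range x).1
      · rw [decide_eq_false h, ind_false, mul_zero, sub_zero]
        push Not at h
        obtain ⟨j, hj⟩ := h
        have hj' : (l j).1 = b := by simpa using hj
        have := prod_le_one_factor (fun j => ((hcol (l j).1).not.range x).1)
          (fun j => ((hcol (l j).1).not.range x).2) j
        rw [hj'] at this
        linarith
    rw [(hE'.fd x).sub, (hE'.fd x).const, (hE'.fd x).mul] at t3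
    linarith
  · have hf' : ∀ c α, ∃ κ, (!chk G x c α κ) = true := by
      intro c α
      by_contra h
      push Not at h
      have : fn G x = true := decide_eq_true ⟨c, α, fun κ => by simpa using h κ⟩
      rw [hf] at this; exact absurd this (by simp)
    refine (hE'.fd x).le_const fun l => ?_
    have t1 := one_sub_sum_le univ (fun j => ((hcol (l j).1).range x).1) fun j => ((hcol (l j).1).range x).2
    have t2 := Finset.sum_le_card_nsmul univ
      (fun j => G.E (fun u => x (.inr (.inl ((l j).1, u)))) fun β => ver (l j).1 β x) _ fun j _ =>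
      ((hdec (l j).1).fd x).le_const fun β => (hv2 _ β x).2 (hf' _ β)
    simp only [card_univ, Fintype.card_fin, nsmul_eq_mul] at t2
    linarith

end

end Vale.Agent.P362b
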