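import Vale.Agent.P362b.Upper

namespace Vale.Agent.P362b

open Finset Matrix
open scoped Kronecker

noncomputable section

section
variable {Y : Type} [Fintype Y] [DecidableEq Y]

def Orth (U : Matrix Y Y ℝ) : Prop := Uᵀ * U = 1

lemma Orth.one : Orth (1 : Matrix Y Y ℝ) := by simp [Orth]

lemma Orth.mul {U V : Matrix Y Y ℝ} (hU : Orth U) (hV : Orth V) : Orth (U * V) := by
  unfold Orth at *
  rw [transpose_mul, Matrix.mul_assoc, ← Matrix.mul_assoc Uᵀ, hU, Matrix.one_mul, hV]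

lemma Orth.transpose {U : Matrix Y Y ℝ} (hU : Orth U) : Orth Uᵀ := by
  unfold Orth at *
  rw [transpose_transpose]
  exact mul_eq_one_comm.1 hU

lemma Orth.diag {d : Y → ℝ} (h : ∀ y, d y * d y = 1) : Orth (diagonal d) := by
  unfold Orth
  rw [diagonal_transpose, diagonal_mul_diagonal]
  simp [h]

lemma Orth.col {U : Matrix Y Y ℝ} (hU : Orth U) (y0 : Y) : ∑ y, U y y0 ^ 2 = 1 := by
  have := congrFun (congrFun hU y0) y0
  simpa [mul_apply, sq] using this

lemma Orth.kron {Z : Type} [Fintype Z] [DecidableEq Z] {U : Matrix Y Y ℝ} {V : Matrix Z Z ℝ}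
    (hU : Orth U) (hV : Orth V) : Orth (U ⊗ₖ V) := by
  unfold Orth at *
  rw [← kroneckerMap_transpose, ← mul_kronecker_mul, hU, hV, one_kronecker_one]

lemma Orth.sub {Z : Type} [Fintype Z] [DecidableEq Z] {U : Matrix Y Y ℝ} (hU : Orth U) (e : Z ≃ Y) :
    Orth (U.submatrix e e) := by
  unfold Orth at *
  rw [transpose_submatrix, submatrix_mul_equiv, hU, submatrix_one_equiv]

/-- permutation matrix -/
def pm (σ : Y ≃ Y) : Matrix Y Y ℝ := Matrix.of fun a b => if a = σ b then 1 else 0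

lemma mul_pm (M : Matrix Y Y ℝ) (σ : Y ≃ Y) (a b : Y) : (M * pm σ) a b = M a (σ b) := by
  simp [mul_apply, pm]

lemma Orth.perm (σ : Y ≃ Y) : Orth (pm σ) := by
  ext a b
  rw [mul_pm]
  simp [pm, one_apply, eq_comm]

lemma exists_orth (ψ : Y → ℝ) (y0 : Y) (h1 : ∑ y, ψ y ^ 2 = 1) (h0 : 0 ≤ ψ y0) :
    ∃ U : Matrix Y Y ℝ, Orth U ∧ ∀ y, U y y0 = ψ y := by
  set u : Y → ℝ := fun y => ψ y + if y = y0 then 1 else 0 with hu
  have hc : ∑ y, u y * u y = 2 * (1 + ψ y0) := by
    have : ∀ y, u y * u y = ψ y ^ 2 + if y = y0 then 2 * ψ y0 + 1 else 0 := by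
      intro y; simp only [hu]; split_ifs with h
      · rw [h]; ring
      · ring
    simp only [this, Finset.sum_add_distrib, h1]
    simp; ring
  have hp : 0 < 1 + ψ y0 := by linarith
  refine ⟨Matrix.of fun a b => u a * u b / (1 + ψ y0) - if a = b then 1 else 0, ?_, fun y => ?_⟩
  · ext a b
    simp only [mul_apply, transpose_apply, of_apply, sub_mul, mul_sub, Finset.sum_sub_distrib, mul_ite, ite_mul,
      mul_one, mul_zero, one_mul, zero_mul, Finset.sum_ite_eq', mem_univ, if_true, one_apply]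
    have : ∑ x, u x * u a / (1 + ψ y0) * (u x * u b / (1 + ψ y0)) =
        (∑ x, u x * u x) * (u a * u b / (1 + ψ y0) ^ 2) := by
      rw [Finset.sum_mul]
      exact Finset.sum_congr rfl fun x _ => by field_simp
    rw [this, hc]
    by_cases h : a = b
    · subst h; simp; field_simp; ring
    · simp [h, Ne.symm h]; field_simp; ring
  · simp only [hu, if_true, of_apply]
    field_simp
    ring

variable {ι : Type}

/-- generalized phase query -/
def ph (idx : Y → Option ι) (x : ι → Bool) : Matrix Y Y ℝ :=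
  diagonal fun y => (idx y).elim 1 fun i => sg (x i)

lemma Orth.ph (idx : Y → Option ι) (x : ι → Bool) : Orth (ph idx x) :=
  Orth.diag fun y => by cases idx y <;> simp [sg_sq]

/-- `q`-query circuits -/
def Circ : ℕ → ((ι → Bool) → Matrix Y Y ℝ) → Prop
  | 0, F => ∃ U, Orth U ∧ ∀ x, F x = U
  | q + 1, F => ∃ G U idx, Circ q G ∧ Orth U ∧ ∀ x, F x = U * ph idx x * G x

lemma Circ.orth : ∀ {q : ℕ} {F : (ι → Bool) → Matrix Y Y ℝ}, Circ q F → ∀ x, Orth (F x)
  | 0, _, ⟨_, hU, e⟩, x => e x ▸ hU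
  | _ + 1, _, ⟨_, _, idx, hG, hU, e⟩, x => e x ▸ (hU.mul (Orth.ph idx x)).mul (hG.orth x)

lemma Circ.const {U : Matrix Y Y ℝ} (hU : Orth U) : Circ (ι := ι) 0 fun _ => U := ⟨U, hU, fun _ => rfl⟩

lemma Circ.mul {q : ℕ} {G : (ι → Bool) → Matrix Y Y ℝ} (hG : Circ q G) :
    ∀ {p : ℕ} {F : (ι → Bool) → Matrix Y Y ℝ}, Circ p F → Circ (q + p) fun x => F x * G x
  | 0, _, ⟨U, hU, e⟩ => by
    cases q with
    | zero =>
      obtain ⟨V, hV, e2⟩ := hG
      exact ⟨U * V, hU.mul hV, fun x => by simp only [e, e2]⟩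
    | succ q =>
      obtain ⟨G', V, idx, h1, hV, e2⟩ := hG
      exact ⟨G', U * V, idx, h1, hU.mul hV, fun x => by simp only [e, e2, Matrix.mul_assoc]⟩
  | p + 1, _, ⟨F', U, idx, h1, hU, e⟩ =>
    ⟨_, U, idx, hG.mul h1, hU, fun x => by simp only [e, Matrix.mul_assoc]⟩

lemma Circ.phase (idx : Y → Option ι) : Circ 1 (ph idx) :=
  ⟨_, 1, idx, Circ.const Orth.one, Orth.one, fun x => by simp⟩

lemma Circ.of_eq {p q : ℕ} {F G : (ι → Bool) → Matrix Y Y ℝ} (h : Circ p F) (e : p = q)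
    (e2 : ∀ x, G x = F x) : Circ q G := by
  subst e
  rw [funext e2]; exact h

lemma Circ.transpose : ∀ {q : ℕ} {F : (ι → Bool) → Matrix Y Y ℝ}, Circ q F → Circ q fun x => (F x)ᵀ
  | 0, _, ⟨U, hU, e⟩ => ⟨Uᵀ, hU.transpose, fun x => by simp only [e]⟩
  | q + 1, _, ⟨G, U, idx, hG, hU, e⟩ =>
    (((Circ.const hU.transpose).mul (Circ.phase idx)).mul hG.transpose).of_eq (by omega) fun x => by
      simp only [e, transpose_mul, ph, diagonal_transpose]

lemma Circ.mono {p q : ℕ} {F : (ι → Bool) → Matrix Y Y ℝ} (h : Circ p F) (hpq : p ≤ q) : Circ q F := by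
  induction hpq with
  | refl => exact h
  | step _ ih => exact ⟨F, 1, fun _ => none, ih, Orth.one, fun x => by simp [ph]⟩

lemma Circ.kron_left {Z : Type} [Fintype Z] [DecidableEq Z] :
    ∀ {q : ℕ} {F : (ι → Bool) → Matrix Y Y ℝ}, Circ q F → Circ q fun x => F x ⊗ₖ (1 : Matrix Z Z ℝ)
  | 0, _, ⟨U, hU, e⟩ => ⟨_, hU.kron Orth.one, fun x => by simp only [e]⟩
  | q + 1, _, ⟨G, U, idx, hG, hU, e⟩ =>
    ⟨_, _, fun y => idx y.1, hG.kron_left, hU.kron (Orth.one (Y := Z)), fun x => by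
      have : ph (fun y : Y × Z => idx y.1) x = ph idx x ⊗ₖ (1 : Matrix Z Z ℝ) := by
        rw [ph, ph, ← diagonal_one, diagonal_kronecker_diagonal]; simp
      simp only [e, this, ← mul_kronecker_mul, Matrix.mul_one]⟩

lemma Circ.kron_right {Z : Type} [Fintype Z] [DecidableEq Z] :
    ∀ {q : ℕ} {F : (ι → Bool) → Matrix Y Y ℝ}, Circ q F → Circ q fun x => (1 : Matrix Z Z ℝ) ⊗ₖ F x
  | 0, _, ⟨U, hU, e⟩ => ⟨_, Orth.one.kron hU, fun x => by simp only [e]⟩
  | q + 1, _, ⟨G, U, idx, hG, hU, e⟩ =>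
    ⟨_, _, fun y => idx y.2, hG.kron_right, (Orth.one (Y := Z)).kron hU, fun x => by
      have : ph (fun y : Z × Y => idx y.2) x = (1 : Matrix Z Z ℝ) ⊗ₖ ph idx x := by
        rw [ph, ph, ← diagonal_one, diagonal_kronecker_diagonal]; simp
      simp only [e, this, ← mul_kronecker_mul, Matrix.mul_one]⟩

lemma Circ.sub {Z : Type} [Fintype Z] [DecidableEq Z] (e : Z ≃ Y) :
    ∀ {q : ℕ} {F : (ι → Bool) → Matrix Y Y ℝ}, Circ q F → Circ q fun x => (F x).submatrix e e
  | 0, _, ⟨U, hU, h⟩ => ⟨_, hU.sub e, fun x => by simp only [h]⟩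
  | q + 1, _, ⟨G, U, idx, hG, hU, h⟩ =>
    ⟨_, _, fun y => idx (e y), hG.sub e, hU.sub e, fun x => by
      have : ph (fun y : Z => idx (e y)) x = (ph idx x).submatrix e e := by
        rw [ph, ph, submatrix_diagonal_equiv]; rfl
      simp only [h, this, submatrix_mul_equiv]⟩

end

variable {ι : Type}

lemma Circ.block {W : Type} [Fintype W] [DecidableEq W] {Y : W → Type} [∀ w, Fintype (Y w)]
    [∀ w, DecidableEq (Y w)] (q : ℕ) : ∀ (F : ∀ w, (ι → Bool) → Matrix (Y w) (Y w) ℝ),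
    (∀ w, Circ q (F w)) → Circ q fun x => blockDiagonal' fun w => F w x := by
  have ho : ∀ U : ∀ w, Matrix (Y w) (Y w) ℝ, (∀ w, Orth (U w)) → Orth (blockDiagonal' U) := by
    intro U hU
    unfold Orth at *
    rw [blockDiagonal'_transpose, ← blockDiagonal'_mul]
    simp only [hU]
    exact blockDiagonal'_one
  induction q with
  | zero =>
    intro F h
    choose U hU e using h
    exact ⟨_, ho U hU, fun x => by simp only [e]⟩
  | succ q ih =>
    intro F h
    choose G U idx hG hU e using h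
    refine ⟨_, _, fun y => idx y.1 y.2, ih G hG, ho U hU, fun x => ?_⟩
    have : ph (fun y : Σ w, Y w => idx y.1 y.2) x = blockDiagonal' fun w => ph (idx w) x := by
      simp only [ph, blockDiagonal'_diagonal]
    simp only [e, this, blockDiagonal'_mul]

/-- output distributions (as expectation functionals) of `q`-query algorithms -/
def Samp {Ω : Type} (q : ℕ) (E : (ι → Bool) → (Ω → ℝ) → ℝ) : Prop :=
  ∃ (Y : Type) (_ : Fintype Y) (_ : DecidableEq Y) (V : (ι → Bool) → Matrix Y Y ℝ) (y0 : Y)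
    (out : Y → Ω), Circ q V ∧ ∀ x φ, E x φ = ∑ y, V x y y0 ^ 2 * φ (out y)

variable {Ω Ω' : Type}

lemma Samp.mono {p q : ℕ} {E : (ι → Bool) → (Ω → ℝ) → ℝ} (h : Samp p E) (hpq : p ≤ q) : Samp q E := by
  obtain ⟨Y, _, _, V, y0, out, hV, e⟩ := h
  exact ⟨Y, _, _, V, y0, out, hV.mono hpq, e⟩

lemma Samp.map {q : ℕ} {E : (ι → Bool) → (Ω → ℝ) → ℝ} (h : Samp q E) (g : Ω → Ω') :
    Samp q fun x φ => E x fun ω => φ (g ω) := by
  obtain ⟨Y, _, _, V, y0, out, hV, e⟩ := h
  exact ⟨Y, _, _, V, y0, fun y => g (out y), hV, fun x φ => e _ _⟩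

lemma Samp.pure (ω : Ω) : Samp (ι := ι) 0 fun _ φ => φ ω :=
  ⟨Unit, _, _, fun _ => 1, (), fun _ => ω, Circ.const Orth.one, fun x φ => by simp⟩

lemma ctrl {Y : Type} [Fintype Y] [DecidableEq Y] (y0 : Y) {q : ℕ} (E : Y → (ι → Bool) → (Ω → ℝ) → ℝ)
    (h : ∀ y, Samp q (E y)) : ∃ (A : Type) (_ : Fintype A) (_ : DecidableEq A) (a0 : A)
    (T : (ι → Bool) → Matrix (Y × A) (Y × A) ℝ) (o : A → Ω) (τ : (ι → Bool) → Y → A → ℝ),
    Circ q T ∧ (∀ x y a y', T x (y, a) (y', a0) = if y = y' then τ x y a else 0) ∧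
    ∀ x y φ, E y x φ = ∑ a, τ x y a ^ 2 * φ (o a) := by
  choose Z i1 i2 V z0 out hV e using h
  let σ : (Y × Σ y, Z y) ≃ (Y × Σ y, Z y) :=
    { toFun := fun c => (c.1, Equiv.swap ⟨y0, z0 y0⟩ ⟨c.1, z0 c.1⟩ c.2)
      invFun := fun c => (c.1, Equiv.swap ⟨y0, z0 y0⟩ ⟨c.1, z0 c.1⟩ c.2)
      left_inv := fun c => by simp
      right_inv := fun c => by simp }
  refine ⟨Σ y, Z y, inferInstance, inferInstance, ⟨y0, z0 y0⟩,
    fun x => ((1 : Matrix Y Y ℝ) ⊗ₖ blockDiagonal' fun y => V y x) * pm σ, fun a => out a.1 a.2,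
    fun x y a => blockDiagonal' (fun y => V y x) a ⟨y, z0 y⟩,
    ((Circ.const (Orth.perm σ)).mul (Circ.block q V hV).kron_right).of_eq (by omega) fun _ => rfl,
    fun x y a y' => ?_, fun x y φ => ?_⟩
  · beta_reduce
    rw [mul_pm]
    simp only [σ, Equiv.coe_fn_mk, Equiv.swap_apply_left, kroneckerMap_apply, one_apply]
    split_ifs with h
    · rw [h, one_mul]
    · rw [zero_mul]
  · rw [e, Fintype.sum_sigma, Finset.sum_eq_single y]
    · simp
    · intro y' _ h
      refine Finset.sum_eq_zero fun z _ => ?_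
      beta_reduce
      rw [blockDiagonal'_apply_ne _ _ _ h]; simp
    · simp

lemma Samp.bind {p q : ℕ} {E : (ι → Bool) → (Ω → ℝ) → ℝ} {E' : Ω → (ι → Bool) → (Ω' → ℝ) → ℝ}
    (h : Samp p E) (h' : ∀ ω, Samp q (E' ω)) : Samp (p + q) fun x φ => E x fun ω => E' ω x φ := by
  obtain ⟨Y, _, _, V, y0, out, hV, e⟩ := h
  obtain ⟨A, _, _, a0, T, o, τ, hT, e1, e2⟩ := ctrl y0 (fun y => E' (out y)) fun y => h' _
  refine ⟨Y × A, _, _, _, (y0, a0), fun c => o c.2, (hV.kron_left (Z := A)).mul hT, fun x φ => ?_⟩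
  beta_reduce
  rw [e, Fintype.sum_prod_type]
  refine Finset.sum_congr rfl fun y _ => ?_
  rw [e2, Finset.mul_sum]
  refine Finset.sum_congr rfl fun a _ => ?_
  have : (T x * V x ⊗ₖ (1 : Matrix A A ℝ)) (y, a) (y0, a0) = τ x y a * V x y y0 := by
    simp only [mul_apply, Fintype.sum_prod_type, kroneckerMap_apply, one_apply, mul_ite, mul_one,
      mul_zero, Finset.sum_ite_eq', mem_univ, if_true, e1, ite_mul, zero_mul, Finset.sum_ite_eq]
  rw [this]; ring

/-- exactly computed functions -/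
def Det (q : ℕ) (g : (ι → Bool) → Ω) : Prop := Samp q fun x φ => φ (g x)

lemma amp1 {q r : ℕ} {E : (ι → Bool) → (Ω → ℝ) → ℝ} (h : Samp q E) {g : (ι → Bool) → Ω → Bool}
    (hg : ∀ ω, Det r fun x => g x ω) :
    Samp (3 * q + 2 * r) fun x φ =>
      E x fun ω => (2 * E x (fun ω => sg (g x ω)) - sg (g x ω)) ^ 2 * φ ω := by
  obtain ⟨Y, _, _, V, y0, out, hV, e⟩ := h
  obtain ⟨A, _, _, a0, T, o, τ, hT, e1, e2⟩ := ctrl y0 (fun y x φ => φ (g x (out y))) fun y => hg _
  have hW := hV.kron_left (Z := A)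
  have hZ : Orth (diagonal fun c : Y × A => sg (o c.2)) := Orth.diag fun c => sg_sq _
  have hR : Orth (diagonal fun c : Y × A => if c = (y0, a0) then (1 : ℝ) else -1) :=
    Orth.diag fun c => by split_ifs <;> simp
  have hC := (((((hW.mul hT).mul (Circ.const hZ)).mul hT.transpose).mul hW.transpose).mul
    (Circ.const hR)).mul hW
  refine ⟨Y × A, _, _, _, (y0, a0), fun c => out c.1, hC.of_eq (by omega) fun _ => rfl, fun x φ => ?_⟩
  set W := V x ⊗ₖ (1 : Matrix A A ℝ) with hWd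
  have hτ : ∀ y a, sg (o a) * τ x y a = sg (g x (out y)) * τ x y a := by
    intro y a
    have h0 := e2 x y fun b => if b = g x (out y) then 0 else 1
    simp only [if_true] at h0
    have := (Finset.sum_eq_zero_iff_of_nonneg (fun a _ => by positivity)).1 h0.symm a (mem_univ _)
    by_cases h : o a = g x (out y)
    · rw [h]
    · simp only [if_neg h, mul_one, pow_eq_zero_iff two_ne_zero] at this
      rw [this, mul_zero, mul_zero]
  have hw : ∀ y a, W (y, a) (y0, a0) = if a = a0 then V x y y0 else 0 := by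
    intro y a; simp [hWd, one_apply]
  set D : Matrix (Y × A) (Y × A) ℝ := diagonal fun c => sg (g x (out c.1)) with hD
  have h1 : ∀ c, ((diagonal fun c : Y × A => sg (o c.2)) * (T x * W)) c (y0, a0) =
      (T x * (D * W)) c (y0, a0) := by
    rintro ⟨y, a⟩
    simp only [diagonal_mul, hD]
    simp only [mul_apply, Fintype.sum_prod_type, hw, mul_ite, mul_zero, Finset.sum_ite_eq', mem_univ,
      if_true, e1, ite_mul, zero_mul, Finset.sum_ite_eq, diagonal_apply, Prod.mk.injEq, ite_and]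
    rw [← mul_assoc, hτ]; ring
  have hcol : ∀ (M N N' : Matrix (Y × A) (Y × A) ℝ), (∀ c, N c (y0, a0) = N' c (y0, a0)) →
      ∀ c, (M * N) c (y0, a0) = (M * N') c (y0, a0) := by
    intro M N N' h c
    simp only [mul_apply, h]
  have h2 : ∀ c, ((T x)ᵀ * ((diagonal fun c : Y × A => sg (o c.2)) * (T x * W))) c (y0, a0) =
      (D * W) c (y0, a0) := by
    intro c
    rw [hcol _ _ _ h1, ← Matrix.mul_assoc, hT.orth x, Matrix.one_mul]
  set s := E x fun ω => sg (g x ω) with hs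
  have h3 : (Wᵀ * (D * W)) (y0, a0) (y0, a0) = s := by
    rw [hs, e]
    simp only [mul_apply (M := Wᵀ), hD, diagonal_mul, transpose_apply, Fintype.sum_prod_type, hw,
      ite_mul, zero_mul, Finset.sum_ite_eq', mem_univ, if_true]
    exact Finset.sum_congr rfl fun y _ => by ring
  have h4 : ∀ c, ((diagonal fun c : Y × A => if c = (y0, a0) then (1 : ℝ) else -1) * (Wᵀ * (D * W))) c (y0, a0) =
      ((2 * s) • (1 : Matrix (Y × A) (Y × A) ℝ) - Wᵀ * (D * W)) c (y0, a0) := by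
    intro c
    rw [diagonal_mul, Matrix.sub_apply, Matrix.smul_apply, one_apply]
    split_ifs with h
    · rw [h, h3]; simp; ring
    · simp
  have hWo : W * Wᵀ = 1 := by simpa [Orth] using (hW.orth x).transpose
  have h5 : ∀ y a, (W * ((diagonal fun c : Y × A => if c = (y0, a0) then (1 : ℝ) else -1) *
      (Wᵀ * ((T x)ᵀ * ((diagonal fun c : Y × A => sg (o c.2)) * (T x * W)))))) (y, a) (y0, a0) =
      if a = a0 then (2 * s - sg (g x (out y))) * V x y y0 else 0 := by
    intro y a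
    rw [hcol _ _ _ (hcol _ _ _ (hcol _ _ _ h2)), hcol _ _ _ h4, Matrix.mul_sub, ← Matrix.mul_assoc, hWo,
      Matrix.one_mul, Matrix.mul_smul, Matrix.mul_one, Matrix.sub_apply, Matrix.smul_apply, hD,
      diagonal_mul, hw]
    split_ifs <;> simp; ring
  beta_reduce
  rw [e, Fintype.sum_prod_type]
  refine Finset.sum_congr rfl fun y _ => ?_
  simp only [h5]
  rw [Finset.sum_eq_single a0]
  · simp; ring
  · intro a _ h; simp [h]
  · simp

lemma Samp.unif (Ω : Type) [Fintype Ω] [Nonempty Ω] :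
    Samp (ι := ι) 0 fun _ (φ : Ω → ℝ) => (∑ ω, φ ω) / Fintype.card Ω := by
  classical
  have hc : (0 : ℝ) < Fintype.card Ω := by exact_mod_cast Fintype.card_pos
  have h2 : ((√(Fintype.card Ω : ℝ))⁻¹) ^ 2 = (Fintype.card Ω : ℝ)⁻¹ := by
    rw [inv_pow, Real.sq_sqrt hc.le]
  obtain ⟨U, hU, e⟩ := exists_orth (fun _ : Ω => (√(Fintype.card Ω : ℝ))⁻¹) (Classical.arbitrary Ω)
    (by simp only [h2, Finset.sum_const, card_univ, nsmul_eq_mul]; field_simp) (by positivity)
  refine ⟨Ω, _, _, fun _ => U, Classical.arbitrary Ω, id, Circ.const hU, fun x φ => ?_⟩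
  simp only [e, h2, id, ← Finset.mul_sum]
  field_simp

lemma hh : ((√2)⁻¹ : ℝ) * (√2)⁻¹ = 1 / 2 := by
  rw [← mul_inv, Real.mul_self_sqrt (by norm_num)]; norm_num

lemma Det.read (i : ι) : Det 1 fun x => x i := by
  let H : Matrix Bool Bool ℝ := Matrix.of fun a b => (√2)⁻¹ * sg (a && b)
  have hH : Orth H := by
    ext a b
    cases a <;> cases b <;> simp [H, mul_apply, hh, one_apply] <;> norm_num
  refine ⟨Bool, _, _, fun x => H * ph (fun b => if b = true then some i else none) x * H, false, id,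
    ⟨_, H, _, Circ.const hH, hH, fun _ => rfl⟩, fun x φ => ?_⟩
  have := hh
  cases hx : x i <;> simp [H, mul_apply, ph, diagonal_apply, hx, hh] <;> norm_num

/-- conversion to the standard model -/
lemma conv_aux {n w : ℕ} (e : ι → Fin n) (i0 : Fin n) (y0 : Fin w) (q : ℕ) :
    ∀ (V : (ι → Bool) → Matrix (Fin w) (Fin w) ℝ), Circ q V →
    ∀ M : Matrix (Basis n w) (Basis n w) ℝ, Orth M →
    ∃ U : ℕ → Matrix.unitaryGroup (Basis n w) ℂ, ∀ x,
      state U (i0, false, y0) x q = fun b => Complex.ofRealHom ((M * ((1 : Matrix (Fin n) (Fin n) ℝ) ⊗ₖ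
        ((1 : Matrix Bool Bool ℝ) ⊗ₖ V (fun i => x (e i))))) b (i0, false, y0)) := by
  have cU : ∀ M : Matrix (Basis n w) (Basis n w) ℝ, Orth M →
      M.map Complex.ofRealHom ∈ Matrix.unitaryGroup (Basis n w) ℂ := by
    intro M hM
    rw [Matrix.mem_unitaryGroup_iff', star_eq_conjTranspose]
    have : (M.map Complex.ofRealHom)ᴴ = Mᵀ.map Complex.ofRealHom := by
      ext a b; simp
    rw [this, ← Matrix.map_mul, hM]
    simp
  induction q with
  | zero =>
    rintro V ⟨U, hU, h⟩ M hM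
    refine ⟨fun _ => ⟨_, cU _ (hM.mul (Orth.one.kron (Orth.one.kron hU)))⟩, fun x => ?_⟩
    ext b
    simp only [state, h, mulVec_single_one, col_apply, map_apply]
  | succ q ih =>
    rintro V ⟨G, U, idx, hG, hU, h⟩ M hM
    have : ∀ z : Fin w, ∃ K : Matrix (Fin n × Bool) (Fin n × Bool) ℝ, Orth K ∧ ∀ c, K c (i0, false) =
        if c.1 = (idx z).elim i0 e then (√2)⁻¹ * (idx z).elim 1 (fun _ => sg c.2) else 0 := by
      intro z
      refine exists_orth _ _ ?_ ?_
      · rw [Fintype.sum_prod_type, Finset.sum_eq_single ((idx z).elim i0 e)]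
        · cases idx z <;> simp [sq, hh] <;> norm_num
        · intro i _ hi; simp [hi]
        · simp
      · split_ifs
        · cases idx z <;> simp
        · exact le_rfl
    choose K hK eK using this
    have hB : Orth (blockDiagonal K) := by
      unfold Orth at *
      rw [blockDiagonal_transpose, ← blockDiagonal_mul]
      simp only [hK]
      exact blockDiagonal_one
    set P := (blockDiagonal K).submatrix (Equiv.prodAssoc (Fin n) Bool (Fin w)).symm
      (Equiv.prodAssoc (Fin n) Bool (Fin w)).symm with hPd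
    have hP : Orth P := hB.sub _
    have eP : ∀ (N : Matrix (Fin w) (Fin w) ℝ) i b z, (P * ((1 : Matrix (Fin n) (Fin n) ℝ) ⊗ₖ
        ((1 : Matrix Bool Bool ℝ) ⊗ₖ N))) (i, b, z) (i0, false, y0) = K z (i, b) (i0, false) * N z y0 := by
      intro N i b z
      simp [mul_apply, Fintype.sum_prod_type, hPd, one_apply, blockDiagonal_apply]
    obtain ⟨U', hU'⟩ := ih G hG P hP
    have hN := (hM.mul (Orth.one.kron (Orth.one.kron hU))).mul hP.transpose
    refine ⟨Function.update U' (q + 1) ⟨_, cU _ hN⟩, fun x => ?_⟩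
    have hst : ∀ t, t ≤ q → state (Function.update U' (q + 1) ⟨_, cU _ hN⟩) (i0, false, y0) x t =
        state U' (i0, false, y0) x t := by
      intro t ht
      induction t with
      | zero => simp [state]
      | succ t iht => rw [state, state, iht (by omega), Function.update_of_ne (by omega)]
    rw [state, hst q le_rfl, hU', Function.update_self]
    have h1 : (oracle x *ᵥ fun b => Complex.ofRealHom ((P * ((1 : Matrix (Fin n) (Fin n) ℝ) ⊗ₖ
        ((1 : Matrix Bool Bool ℝ) ⊗ₖ G (fun i => x (e i))))) b (i0, false, y0))) =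
        fun b => Complex.ofRealHom ((P * ((1 : Matrix (Fin n) (Fin n) ℝ) ⊗ₖ ((1 : Matrix Bool Bool ℝ) ⊗ₖ
          (ph idx (fun i => x (e i)) * G (fun i => x (e i)))))) b (i0, false, y0)) := by
      ext ⟨i, b, z⟩
      rw [oracle_mulVec]
      simp only [eP, eK, ph, diagonal_mul, Complex.ofRealHom_eq_coe]
      congr 1
      split_ifs with hi
      · subst hi
        cases idx z with
        | none => simp
        | some j => cases b <;> cases hx : x (e j) <;> simp [hx]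
      · simp
    rw [h1]
    ext b
    have h2 := RingHom.map_mulVec Complex.ofRealHom (M * (1 : Matrix (Fin n) (Fin n) ℝ) ⊗ₖ
      ((1 : Matrix Bool Bool ℝ) ⊗ₖ U) * Pᵀ) (fun b => (P * ((1 : Matrix (Fin n) (Fin n) ℝ) ⊗ₖ
        ((1 : Matrix Bool Bool ℝ) ⊗ₖ (ph idx (fun i => x (e i)) * G (fun i => x (e i)))))) b (i0, false, y0)) b
    refine Eq.trans h2.symm ?_
    congr 1
    change (_ * _ : Matrix (Basis n w) (Basis n w) ℝ) b (i0, false, y0) = _
    rw [Matrix.mul_assoc, ← Matrix.mul_assoc Pᵀ, hP, Matrix.one_mul, Matrix.mul_assoc,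
      ← mul_kronecker_mul, ← mul_kronecker_mul, h]
    simp [Matrix.mul_assoc]

theorem quant_of_samp {n q : ℕ} (hn : 1 ≤ n) (e : ι → Fin n) {E : (ι → Bool) → (Bool → ℝ) → ℝ}
    (h : Samp q E) (f : (Fin n → Bool) → Bool)
    (hf : ∀ x, 2 / 3 ≤ E (fun i => x (e i)) fun b => if b = f x then 1 else 0) : QuantComputes f q := by
  obtain ⟨Y, _, _, V, y0, out, hV, he⟩ := h
  let ε := (Fintype.equivFin Y).symm
  obtain ⟨U, hU⟩ := conv_aux e ⟨0, hn⟩ (ε.symm y0) q _ (hV.sub ε) 1 Orth.one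
  refine ⟨_, U, (⟨0, hn⟩, false, ε.symm y0), fun b => out (ε b.2.2), fun x => (hf x).trans (le_of_eq ?_)⟩
  rw [he, hU, ← ε.sum_comp, Fintype.sum_prod_type, Finset.sum_eq_single (⟨0, hn⟩ : Fin n), Fintype.sum_prod_type,
    Finset.sum_eq_single false]
  · refine Finset.sum_congr rfl fun z _ => ?_
    split_ifs <;> simp
  · intro b _ hb
    simp [one_apply, hb]
  · simp
  · intro i _ hi
    simp [one_apply, hi]
  · simp

end

end Vale.Agent.P362b
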