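import Mathlib

namespace Vale.Agent.P362b

open Matrix

/-- deterministic decision trees querying bits indexed by `ι` -/
inductive DT (ι : Type) : Type
  | leaf (b : Bool) : DT ι
  | node (i : ι) (l r : DT ι) : DT ι

/-- output of a decision tree on an input -/
def DT.eval {ι : Type} : DT ι → (ι → Bool) → Bool
  | .leaf b, _ => b
  | .node i l r, x => if x i = true then r.eval x else l.eval x

/-- worst-case number of queries -/
def DT.depth {ι : Type} : DT ι → ℕ
  | .leaf _ => 0
  | .node _ l r => max l.depth r.depth + 1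

/-- a probability distribution on decision trees of depth at most `d` outputs `f x` with
probability at least `2/3` on every input `x` -/
def RandComputes {n : ℕ} (f : (Fin n → Bool) → Bool) (d : ℕ) : Prop :=
  ∃ (s : Finset (DT (Fin n))) (w : DT (Fin n) → ℝ),
    (∀ T ∈ s, 0 ≤ w T) ∧ (∑ T ∈ s, w T = 1) ∧ (∀ T ∈ s, T.depth ≤ d) ∧
    ∀ x, (2 : ℝ) / 3 ≤ ∑ T ∈ s, if T.eval x = f x then w T else 0

/-- bounded-error randomized query complexity -/
noncomputable def R {n : ℕ} (f : (Fin n → Bool) → Bool) : ℕ := sInf {d | RandComputes f d}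

/-- computational basis `|i, b, z⟩` -/
abbrev Basis (n w : ℕ) : Type := Fin n × Bool × Fin w

/-- the query unitary `|i, b, z⟩ ↦ |i, b ⊕ x i, z⟩` -/
def oracle {n w : ℕ} (x : Fin n → Bool) : Matrix (Basis n w) (Basis n w) ℂ :=
  fun a b => if a = (b.1, xor b.2.1 (x b.1), b.2.2) then 1 else 0

/-- the state `U t * O x * ... * U 1 * O x * U 0 |s⟩` after `t` queries -/
noncomputable def state {n w : ℕ} (U : ℕ → Matrix.unitaryGroup (Basis n w) ℂ) (s : Basis n w)
    (x : Fin n → Bool) : ℕ → (Basis n w → ℂ)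
  | 0 => (U 0 : Matrix (Basis n w) (Basis n w) ℂ) *ᵥ Pi.single s 1
  | t + 1 => (U (t + 1) : Matrix (Basis n w) (Basis n w) ℂ) *ᵥ (oracle x *ᵥ state U s x t)

/-- some quantum algorithm with `T` queries, measured in the computational basis, outputs `f x`
with probability at least `2/3` on every input `x` -/
def QuantComputes {n : ℕ} (f : (Fin n → Bool) → Bool) (T : ℕ) : Prop :=
  ∃ (w : ℕ) (U : ℕ → Matrix.unitaryGroup (Basis n w) ℂ) (s : Basis n w)
    (out : Basis n w → Bool),
    ∀ x, (2 : ℝ) / 3 ≤ ∑ b, if out b = f x then ‖state U s x T b‖ ^ 2 else 0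

/-- bounded-error quantum query complexity -/
noncomputable def Q {n : ℕ} (f : (Fin n → Bool) → Bool) : ℕ := sInf {T | QuantComputes f T}

/-- the exponents `α ≥ 0` with `R f ≤ C (1 + Q f) ^ α` for all total Boolean functions -/
def Exponents : Set ℝ :=
  {α | 0 ≤ α ∧ ∃ C : ℝ, ∀ n : ℕ, 1 ≤ n → ∀ f : (Fin n → Bool) → Bool,
    (R f : ℝ) ≤ C * (1 + (Q f : ℝ)) ^ α}

end Vale.Agent.P362b
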