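import Vale.Agent.P362b.Forr

namespace Vale.Agent.P362b

open Finset MeasureTheory ProbabilityTheory MvPolynomial Matrix

noncomputable section

variable {I : Type} [Fintype I] [DecidableEq I] {k : ℕ} [NeZero k] (H : Matrix I I ℝ) (l : ℝ)

/-- rounded hard distribution -/
def Dt (t : ℝ) (x : Fin k × I → Bool) : ℝ :=
  ∫ g, ∏ u, wt (fun u => tr (aeval g (Zt H l t u))) ∅ u (x u) ∂gam (Fin k × I)

lemma int_wt (t : ℝ) (x : Fin k × I → Bool) :
    Integrable (fun g => ∏ u, wt (fun u => tr (aeval g (Zt H l t u))) ∅ u (x u)) (gam (Fin k × I)) := by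
  refine Integrable.of_bound (Continuous.aestronglyMeasurable ?_) 1 (ae_of_all _ fun g => ?_)
  · refine continuous_finsetProd _ fun u _ => ?_
    have := cont_ev (Zt H l t u)
    simp only [wt, notMem_empty, if_false, tr]
    fun_prop
  · have h := Epi_prob fun u => wt_prob (fun u => aeval g (Zt H l t u)) u
    rw [Real.norm_eq_abs, abs_of_nonneg (h.1 x), ← h.2]
    exact Finset.single_le_sum (fun z _ => h.1 z) (mem_univ x)

lemma sum_Dt (t : ℝ) (F : (Fin k × I → Bool) → ℝ) : ∑ x, Dt H l t x * F x =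
    ∫ g, Epi (wt (fun u => tr (aeval g (Zt H l t u))) ∅) F ∂gam (Fin k × I) := by
  simp only [Epi]
  rw [integral_finsetSum _ fun x _ => (int_wt H l t x).mul_const _]
  simp only [Dt, integral_mul_const]

lemma Dt_prob (t : ℝ) : Prob (Dt (k := k) H l t) := by
  refine ⟨fun x => integral_nonneg fun g => (Epi_prob fun u => wt_prob (fun u => aeval g (Zt H l t u)) u).1 x, ?_⟩
  have := sum_Dt (k := k) H l t fun _ => 1
  simp only [mul_one, fun g => (Epi_fd fun u => wt_prob (fun u => aeval g (Zt (k := k) H l t u)) u).const 1] at this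
  simpa using this

lemma sum_EE (t : ℝ) (S : Finset (Fin k × I)) (F : (Fin k × I → Bool) → ℝ) : ∑ x, F x * EE (Wp H l t x S) =
    ∫ g, Epi (wt (fun u => aeval g (Zt H l t u)) S) F ∂gam (Fin k × I) := by
  simp only [Epi, ← ev_Wp]
  rw [integral_finsetSum _ fun x _ => (int_ev _).mul_const _]
  simp only [EE_apply, integral_mul_const]
  simp only [mul_comm]

lemma int_Epi (t : ℝ) (S : Finset (Fin k × I)) (F : (Fin k × I → Bool) → ℝ) :
    Integrable (fun g => Epi (wt (fun u => aeval g (Zt H l t u)) S) F) (gam (Fin k × I)) := by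
  simp only [Epi, ← ev_Wp]
  exact integrable_finsetSum _ fun x _ => (int_ev _).mul_const _

lemma Dt_close {h : ℕ} (hh : Even h) (h0 : h ≠ 0) {t : ℝ} (ht : |t| ≤ 1) {F : (Fin k × I → Bool) → ℝ}
    (hF : ∀ x, |F x| ≤ 1) :
    |∑ x, F x * EE (Wp H l t x ∅) - ∑ x, Dt H l t x * F x| ≤ EE (Pe (k := k) H l h) := by
  have hi : Integrable (fun g => Epi (wt (fun u => tr (aeval g (Zt H l t u))) ∅) F) (gam (Fin k × I)) :=
    integrable_finsetSum _ fun x _ => (int_wt H l t x).mul_const _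
  rw [sum_EE, sum_Dt, ← integral_sub (int_Epi H l t ∅ F) hi, EE_apply, ← Real.norm_eq_abs]
  refine norm_integral_le_of_norm_le (int_ev _) (ae_of_all _ fun g => ?_)
  rw [ev_Pe]
  exact wt_trunc hh h0 _ _ (Zt_le H l ht g) ∅ hF

lemma psi_mvt {j : ℕ} (hj : j + 1 = k) (F : (Fin k × I → Bool) → ℝ) : ∃ t : ℝ, |t| ≤ 1 ∧
    ∑ x, F x * EE (Wp H l 1 x ∅) - ∑ x, F x * EE (Wp H l 0 x ∅) = l ^ (2 * j) *
      ∫ g, ∑ π : Path I j, hw H π * Epi (wt (fun u => aeval g (Zt H l t u)) (PS k π)) F ∂gam (Fin k × I) := by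
  have hd : ∀ t, HasDerivAt (fun t => ∑ x, F x * EE (Wp H l t x ∅))
      (∑ x, F x * (l ^ (2 * j) * ∑ π : Path I j, hw H π * EE (Wp H l t x (PS k π)))) t := fun t =>
    HasDerivAt.fun_sum fun x _ => (deriv_Wp H l x t hj).const_mul _
  obtain ⟨t, ht, e⟩ := exists_hasDerivAt_eq_slope _ _ zero_lt_one
    (fun t _ => (hd t).continuousAt.continuousWithinAt) fun t _ => hd t
  refine ⟨t, abs_le.2 ⟨by linarith [ht.1], ht.2.le⟩, ?_⟩
  rw [sub_zero, div_one] at e
  rw [← e, integral_finsetSum _ fun π _ => (int_Epi H l t _ F).const_mul _]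
  simp only [integral_const_mul, ← sum_EE, Finset.mul_sum]
  rw [Finset.sum_comm]
  exact Finset.sum_congr rfl fun _ _ => Finset.sum_congr rfl fun _ _ => by ring

variable {H}

lemma path_bound {j : ℕ} (hj : j + 1 = k) {h0 : ℝ} (hH : ∀ a b, |H a b| ≤ h0) {p d : ℕ} (hp : Even p)
    (hp0 : p ≠ 0) (hd : 0 < d) {T B : ℝ} (hT0 : 1 ≤ T) (hT : 3 ^ p * d ≤ T ^ 2) (hB0 : 0 ≤ B)
    (hB : 3 * ((2 * T + 2) ^ p) ^ k * (Fintype.card I : ℝ) ^ k ≤ B ^ p)
    {F : (Fin k × I → Bool) → ℝ} (hF : Dep d F) {z : Fin k × I → ℝ} (hz : ∀ u, |z u| ≤ 1 / 2) (h00 : 0 ≤ h0) :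
    |∑ π : Path I j, hw H π * Epi (wt z (PS k π)) F| ≤ h0 ^ j * B := by
  classical
  have hd' : (0 : ℝ) < d := by exact_mod_cast hd
  have fg := fourier_growth hp hd' hT0 hT hz d F hF fun S => ∑ π : Path I j, if PS k π = S then hw H π else 0
  have e1 : ∑ S, (∑ π : Path I j, if PS k π = S then hw H π else 0) * Epi (wt z S) F =
      ∑ π : Path I j, hw H π * Epi (wt z (PS k π)) F := by
    simp only [Finset.sum_mul]
    rw [Finset.sum_comm]
    simp
  have e2 : ∀ S : Finset (Fin k × I), ((2 * T + 2) ^ p) ^ S.card * (∑ π : Path I j, if PS k π = S then hw H π else 0) ^ p =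
      ∑ π : Path I j, if PS k π = S then ((2 * T + 2) ^ p) ^ k * hw H π ^ p else 0 := by
    intro S
    by_cases h : ∃ π : Path I j, PS k π = S
    · obtain ⟨π, rfl⟩ := h
      have : ∀ π' : Path I j, π' ≠ π → ¬ PS k π' = PS k π := fun π' h e => h (PS_inj (by omega) _ _ e)
      rw [Finset.sum_eq_single π (fun π' _ h => if_neg (this π' h)) (by simp),
        Finset.sum_eq_single π (fun π' _ h => if_neg (this π' h)) (by simp), PS_card (by omega), hj]
      simp
    · push Not at h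
      simp [h, hp0]
  have e3 : (1 + 1 / (d : ℝ)) ^ d ≤ 3 := by
    have := Real.add_one_le_exp (1 / (d : ℝ))
    calc (1 + 1 / (d : ℝ)) ^ d ≤ Real.exp (1 / d) ^ d := pow_le_pow_left₀ (by positivity) (by linarith) d
      _ = Real.exp 1 := by rw [← Real.exp_nat_mul]; congr 1; field_simp
      _ ≤ 3 := Real.exp_one_lt_d9.le.trans (by norm_num)
  simp only [e1, e2] at fg
  rw [Finset.sum_comm] at fg
  simp only [Finset.sum_ite_eq, mem_univ, if_true, ← Finset.mul_sum] at fg
  have e4 : ∑ π : Path I j, hw H π ^ p ≤ (Fintype.card I : ℝ) ^ k * (h0 ^ j) ^ p := by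
    refine (Finset.sum_le_card_nsmul _ _ ((h0 ^ j) ^ p) fun π _ => ?_).trans ?_
    · rw [← hp.pow_abs]; exact pow_le_pow_left₀ (abs_nonneg _) (abs_hw hH π) p
    · simp [card_path, hj]
  refine le_of_pow_le_pow_left₀ hp0 (by positivity) ?_
  rw [hp.pow_abs, mul_pow]
  refine fg.trans ?_
  calc _ ≤ 3 * (((2 * T + 2) ^ p) ^ k * ((Fintype.card I : ℝ) ^ k * (h0 ^ j) ^ p)) := by
        gcongr
        exact mul_nonneg (by positivity) (Finset.sum_nonneg fun _ _ => hp.pow_nonneg _)
    _ = (h0 ^ j) ^ p * (3 * ((2 * T + 2) ^ p) ^ k * (Fintype.card I : ℝ) ^ k) := by ring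
    _ ≤ _ := by gcongr

theorem Dt_indist {j : ℕ} (hj : j + 1 = k) {h0 : ℝ} (hH : ∀ a b, |H a b| ≤ h0) {p d : ℕ} (hp : Even p)
    (hp0 : p ≠ 0) (hd : 0 < d) {T B : ℝ} (hT0 : 1 ≤ T) (hT : 3 ^ p * d ≤ T ^ 2) (hB0 : 0 ≤ B)
    (hB : 3 * ((2 * T + 2) ^ p) ^ k * (Fintype.card I : ℝ) ^ k ≤ B ^ p) (h00 : 0 ≤ h0)
    {h : ℕ} (hh : Even h) (hh0 : h ≠ 0) {ε : ℝ} (hε : EE (Pe (k := k) H l h) ≤ ε)
    {F : (Fin k × I → Bool) → ℝ} (hF : Dep d F) :
    |∑ x, Dt H l 1 x * F x - ∑ x, Dt H l 0 x * F x| ≤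
      2 * ε + l ^ (2 * j) * (h0 ^ j * (B + (Fintype.card I : ℝ) ^ k * ε)) := by
  have a1 := Dt_close H l hh hh0 (t := 1) (by simp) hF.abs_le
  have a0 := Dt_close H l hh hh0 (t := 0) (by simp) hF.abs_le
  obtain ⟨t, ht, e⟩ := psi_mvt H l hj F
  have key : |∫ g, ∑ π : Path I j, hw H π * Epi (wt (fun u => aeval g (Zt H l t u)) (PS k π)) F ∂gam (Fin k × I)| ≤
      h0 ^ j * (B + (Fintype.card I : ℝ) ^ k * ε) := by
    have hi : Integrable (fun g => h0 ^ j * (B + (Fintype.card I : ℝ) ^ k * aeval g (Pe (k := k) H l h))) (gam (Fin k × I)) :=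
      ((integrable_const _).add ((int_ev _).const_mul _)).const_mul _
    rw [← Real.norm_eq_abs]
    refine (norm_integral_le_of_norm_le hi (ae_of_all _ fun g => ?_)).trans ?_
    · have b1 := path_bound hj hH hp hp0 hd hT0 hT hB0 hB hF (fun u => abs_tr (aeval g (Zt H l t u))) h00
      have b2 : |∑ π : Path I j, hw H π * Epi (wt (fun u => aeval g (Zt H l t u)) (PS k π)) F -
          ∑ π : Path I j, hw H π * Epi (wt (fun u => tr (aeval g (Zt H l t u))) (PS k π)) F| ≤
          (Fintype.card I : ℝ) ^ k * (h0 ^ j * aeval g (Pe H l h)) := by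
        rw [← Finset.sum_sub_distrib]
        refine (Finset.abs_sum_le_sum_abs _ _).trans ((Finset.sum_le_card_nsmul _ _
          (h0 ^ j * aeval g (Pe H l h)) fun π _ => ?_).trans ?_)
        · rw [← mul_sub, abs_mul, ev_Pe]
          exact mul_le_mul (abs_hw hH π) (wt_trunc hh hh0 _ _ (Zt_le H l ht g) _ hF.abs_le) (abs_nonneg _)
            (by positivity)
        · simp [card_path, hj]
      have := abs_le.1 b1
      have := abs_le.1 b2
      rw [Real.norm_eq_abs, abs_le]
      constructor <;> linarith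
    · rw [integral_const_mul, integral_add (integrable_const _) ((int_ev _).const_mul _), integral_const_mul,
        ← EE_apply]
      simp only [integral_const, probReal_univ, smul_eq_mul, one_mul]
      gcongr
  have hl : 0 ≤ l ^ (2 * j) := by rw [pow_mul]; positivity
  have k2 := mul_le_mul_of_nonneg_left key hl
  rw [← abs_of_nonneg hl, ← abs_mul, abs_of_nonneg hl, ← e] at k2
  have := abs_le.1 a1
  have := abs_le.1 a0
  have := abs_le.1 k2
  rw [abs_le]
  constructor <;> linarith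

variable (H)

/-- the forrelation circuit -/
def Vf {ι : Type} (pos : Fin k × I → ι) (x : ι → Bool) : ℕ → Matrix I I ℝ
  | 0 => H
  | j + 1 => H * ph (fun i => some (pos (Fin.ofNat k j, i))) x * Vf pos x j

/-- the forrelation amplitude -/
def forr (o : I) (z : Fin k × I → Bool) : ℝ := Vf H id z k o o

variable {H}

lemma circ_Vf (hH : Orth H) {ι : Type} (pos : Fin k × I → ι) (j : ℕ) : Circ j fun x => Vf H pos x j := by
  induction j with
  | zero => exact Circ.const hH
  | succ j ih => exact ⟨_, H, _, ih, hH, fun _ => rfl⟩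

lemma Vf_pos {ι : Type} (pos : Fin k × I → ι) (x : ι → Bool) (j : ℕ) :
    Vf H pos x j = Vf H id (fun u => x (pos u)) j := by
  induction j with
  | zero => rfl
  | succ j ih => rw [Vf, Vf, ih]; rfl

lemma acc_forr (hH : Orth H) (o : I) {ι : Type} (pos : Fin k × I → ι) :
    Acc k fun x => forr H o (fun u => x (pos u)) ^ 2 := by
  refine ⟨fun x φ => ∑ y, Vf H pos x k y o ^ 2 * φ (decide (y = o)),
    ⟨I, _, _, _, o, fun y => decide (y = o), circ_Vf hH pos k, fun _ _ => rfl⟩, fun x => ?_⟩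
  simp only [forr, ← Vf_pos]
  simp [ind]

lemma abs_forr (hH : Orth H) (o : I) (z : Fin k × I → Bool) : |forr H o z| ≤ 1 := by
  have := ((acc_forr (k := k) hH o id).range z).2
  exact (sq_le_one_iff_abs_le_one _).1 this

lemma Vf_succ (z : Fin k × I → Bool) (j : ℕ) (b o : I) :
    Vf H id z (j + 1) b o = ∑ i, H b i * (sg (z (Fin.ofNat k j, i)) * Vf H id z j i o) := by
  rw [Vf, mul_apply]
  simp [ph, mul_assoc]

lemma Vf_path {o : I} {h0 : ℝ} (ho : ∀ i, H i o = h0) (z : Fin k × I → Bool) (j : ℕ) (hj : j < k) (b : I) :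
    Vf H id z (j + 1) b o = ∑ π : Path I j, H b (hd π) * (h0 * hw H π * chi (PS k π) z) := by
  induction j generalizing b with
  | zero =>
    rw [Vf_succ]
    refine Finset.sum_congr rfl fun i _ => ?_
    simp [Vf, ho, hw, PS, chi, hd, mul_comm]
  | succ j ih =>
    rw [Vf_succ, sum_path]
    simp only [ih (by omega), Finset.mul_sum]
    rw [Finset.sum_comm]
    refine Finset.sum_congr rfl fun π _ => Finset.sum_congr rfl fun i _ => ?_
    simp only [hd, hw, PS, chi, Finset.prod_insert (PS_not hj π i)]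
    ring

open Classical in
lemma Epi_chi {j : ℕ} (hj : j < k) (z : Fin k × I → ℝ) (π π' : Path I j) :
    Epi (wt z (PS k π)) (chi (PS k π')) = if π = π' then 1 else 0 := by
  have e : chi (PS k π') = fun x => ∏ u, (fun u b => if u ∈ PS k π' then sg b else 1) u (x u) := by
    ext x
    simp [chi, Finset.prod_ite_mem]
  rw [e, Epi_prod _ fun u b => if u ∈ PS k π' then sg b else 1]
  split_ifs with h
  · subst h
    refine Finset.prod_eq_one fun u _ => ?_
    by_cases hu : u ∈ PS k π <;> simp [wt, hu] <;> ring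
  · have : ¬ PS k π ⊆ PS k π' := fun hs => h (PS_inj hj _ _
      (Finset.eq_of_subset_of_card_le hs (by rw [PS_card hj, PS_card hj])))
    obtain ⟨u, h1, h2⟩ := not_subset.1 this
    refine Finset.prod_eq_zero (mem_univ u) ?_
    simp [wt, h1, h2]; ring

theorem Dt_mean {j : ℕ} (hj : j + 1 = k) (hH : Orth H) {o : I} {h0 : ℝ} (ho : ∀ i, H i o = h0)
    (ho' : ∀ i, H o i = h0) (hN : h0 ^ 2 * Fintype.card I = 1)
    {h : ℕ} (hh : Even h) (hh0 : h ≠ 0) {ε : ℝ} (hε : EE (Pe (k := k) H l h) ≤ ε) :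
    l ^ (2 * j) - 2 * ε ≤ ∑ x : Fin k × I → Bool, Dt H l 1 x * forr H o x - ∑ x : Fin k × I → Bool, Dt H l 0 x * forr H o x := by
  have a1 := Dt_close H l hh hh0 (t := 1) (by simp) (abs_forr (k := k) hH o)
  have a0 := Dt_close H l hh hh0 (t := 0) (by simp) (abs_forr (k := k) hH o)
  obtain ⟨t, ht, e⟩ := psi_mvt H l hj (forr H o)
  have key : ∀ z : Fin k × I → ℝ, ∑ π : Path I j, hw H π * Epi (wt z (PS k π)) (forr H o) = 1 := by
    intro z
    have e1 : forr H o = fun x : Fin k × I → Bool => ∑ π : Path I j, h0 ^ 2 * hw H π * chi (PS k π) x := by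
      ext x
      rw [forr]
      have := Vf_path ho x j (by omega) o
      rw [hj] at this
      rw [this]
      exact Finset.sum_congr rfl fun π _ => by rw [ho']; ring
    simp only [e1, Epi_sum, Epi_mul, Epi_chi (show j < k by omega), mul_ite, mul_one, mul_zero,
      Finset.sum_ite_eq, mem_univ, if_true]
    rw [← hN, ← sum_hw hH j, Finset.mul_sum]
    refine Finset.sum_congr rfl fun π _ => ?_
    rw [Finset.sum_eq_single π (fun b _ hb => if_neg (Ne.symm hb)) (by simp), if_pos rfl]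
    ring
  simp only [key, integral_const, probReal_univ, smul_eq_mul, mul_one] at e
  have := abs_le.1 a1
  have := abs_le.1 a0
  linarith

/-- the part of the circuit after the first query -/
def Mm (H : Matrix I I ℝ) (z : Fin k × I → Bool) : ℕ → Matrix I I ℝ
  | 0 => H
  | j + 1 => H * ph (fun i => some (Fin.ofNat k (j + 1), i)) z * Mm H z j

lemma Mm_orth (hH : Orth H) (z : Fin k × I → Bool) (j : ℕ) : Orth (Mm H z j) := by
  induction j with
  | zero => exact hH
  | succ j ih => exact (hH.mul (Orth.ph _ _)).mul ih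

lemma Vf_Mm (z : Fin k × I → Bool) (j : ℕ) :
    Vf H id z (j + 1) = Mm H z j * ph (fun i => some (Fin.ofNat k 0, i)) z * H := by
  induction j with
  | zero => rfl
  | succ j ih => rw [Vf, ih, Mm]; simp only [Matrix.mul_assoc]; rfl

lemma Mm_update (z : Fin k × I → Bool) (a : I) (b : Bool) (j : ℕ) (hj : j < k) :
    Mm H (Function.update z (Fin.ofNat k 0, a) b) j = Mm H z j := by
  induction j with
  | zero => rfl
  | succ j ih =>
    rw [Mm, Mm, ih (by omega)]
    congr 2
    unfold ph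
    congr 1
    ext i
    simp only [Option.elim_some]
    rw [Function.update_of_ne]
    intro e
    have e1 := congrArg (fun c : Fin k × I => (c.1 : ℕ)) e
    simp only [ofNat_val hj] at e1
    simp at e1

theorem Dt_second {j : ℕ} (hj : j + 1 = k) (hH : Orth H) {o : I} {h0 : ℝ} (ho : ∀ i, H i o = h0) :
    ∑ x : Fin k × I → Bool, Dt H l 0 x * forr H o x ^ 2 = h0 ^ 2 := by
  rw [sum_Dt]
  have key : ∀ w : Fin k × I → Bool → ℝ, (∀ u, Prob (w u)) → (∀ a b, w (Fin.ofNat k 0, a) b = 1 / 2) →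
      Epi w (fun x => forr H o x ^ 2) = h0 ^ 2 := by
    intro w hw h2
    have e1 : ∀ x : Fin k × I → Bool, forr H o x ^ 2 = ∑ a, ∑ a', h0 ^ 2 *
        (sg (x (Fin.ofNat k 0, a)) * (sg (x (Fin.ofNat k 0, a')) * (Mm H x j o a * Mm H x j o a'))) := by
      intro x
      have := Vf_Mm (H := H) x j
      rw [hj] at this
      rw [forr, this, mul_apply, sq, Finset.sum_mul_sum]
      simp only [ph, mul_diagonal, ho, Option.elim_some]
      exact Finset.sum_congr rfl fun _ _ => Finset.sum_congr rfl fun _ _ => by ring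
    have e2 : ∀ a a', a' ≠ a → Epi w (fun x => h0 ^ 2 *
        (sg (x (Fin.ofNat k 0, a)) * (sg (x (Fin.ofNat k 0, a')) * (Mm H x j o a * Mm H x j o a')))) = 0 := by
      intro a a' h
      rw [Epi_resample w (Fin.ofNat k 0, a) (hw _).2]
      simp only [Mm_update _ _ _ j (show j < k by omega), h2, Function.update_self, Fintype.sum_bool, sg_true, sg_false]
      simp only [Function.update_of_ne (show (Fin.ofNat k 0, a') ≠ (Fin.ofNat k 0, a) by simp [h])]
      refine Eq.trans ?_ ((Epi_fd hw).const 0)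
      congr 1; ext x; ring
    simp only [e1, Epi_sum]
    rw [Finset.sum_congr rfl fun a _ => Finset.sum_eq_single a (fun a' _ h => e2 a a' h) (by simp), ← Epi_sum]
    refine Eq.trans ?_ ((Epi_fd hw).const _)
    congr 1; ext x
    have := (Mm_orth hH x j).transpose.col o
    simp only [← mul_assoc (sg _), sg_sq, one_mul]
    simp only [← Finset.mul_sum, ← sq]
    simp only [transpose_apply] at this
    rw [this, mul_one]
  rw [integral_congr_ae (ae_of_all _ fun g => key _ (fun u => wt_prob _ u) fun a b => ?_)]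
  · simp
  · simp [wt, Zt, tr]

end

end Vale.Agent.P362b
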