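import Vale.Agent.P362b.Tool

namespace Vale.Agent.P362b

open Finset

noncomputable section

section
variable {J : Type} [Fintype J] [DecidableEq J] {X : Type} [Fintype X]

/-- sum against product weights -/
def Epi (w : J → X → ℝ) (G : (J → X) → ℝ) : ℝ := ∑ z, (∏ j, w j (z j)) * G z

/-- probability weights -/
def Prob (v : X → ℝ) : Prop := (∀ u, 0 ≤ v u) ∧ ∑ u, v u = 1

lemma Epi_update (w : J → X → ℝ) (i : J) (h : ∑ u, w i u = 1) (v : X → ℝ) (G : (J → X) → ℝ) :
    Epi (Function.update w i v) G = Epi w fun z => ∑ u, v u * G (Function.update z i u) := by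
  let σ : ((J → X) × X) ≃ ((J → X) × X) :=
    { toFun := fun c => (Function.update c.1 i c.2, c.1 i)
      invFun := fun c => (Function.update c.1 i c.2, c.1 i)
      left_inv := fun c => by simp
      right_inv := fun c => by simp }
  have e : Epi (Function.update w i v) G =
      ∑ c : (J → X) × X, w i c.2 * ((∏ j, Function.update w i v j (c.1 j)) * G c.1) := by
    rw [Fintype.sum_prod_type]
    simp only [← Finset.sum_mul, h, one_mul, Epi]
  rw [e, ← σ.sum_comp, Fintype.sum_prod_type]
  refine Finset.sum_congr rfl fun z _ => ?_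
  rw [Finset.mul_sum]
  refine Finset.sum_congr rfl fun u _ => ?_
  simp only [σ, Equiv.coe_fn_mk]
  rw [← Finset.mul_prod_erase _ _ (mem_univ i), ← Finset.mul_prod_erase _ (fun j => w j (z j)) (mem_univ i),
    Finset.prod_congr rfl (g := fun j => w j (z j))]
  · simp only [Function.update_self]; ring
  · intro j hj
    simp [Finset.ne_of_mem_erase hj]

lemma Epi_resample (w : J → X → ℝ) (i : J) (h : ∑ u, w i u = 1) (G : (J → X) → ℝ) :
    Epi w G = Epi w fun z => ∑ u, w i u * G (Function.update z i u) := by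
  rw [← Epi_update w i h, Function.update_eq_self]

lemma Epi_prod (w φ : J → X → ℝ) : Epi w (fun z => ∏ j, φ j (z j)) = ∏ j, ∑ u, w j u * φ j u := by
  have := Finset.prod_univ_sum (fun _ : J => (univ : Finset X)) fun j u => w j u * φ j u
  rw [Fintype.piFinset_univ] at this
  rw [this]
  simp only [Epi, Finset.prod_mul_distrib]

lemma Epi_add (w : J → X → ℝ) (F G : (J → X) → ℝ) : Epi w (fun z => F z + G z) = Epi w F + Epi w G := by
  simp only [Epi, mul_add, Finset.sum_add_distrib]

lemma Epi_sub (w : J → X → ℝ) (F G : (J → X) → ℝ) : Epi w (fun z => F z - G z) = Epi w F - Epi w G := by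
  simp only [Epi, mul_sub, Finset.sum_sub_distrib]

lemma Epi_mul (w : J → X → ℝ) (c : ℝ) (F : (J → X) → ℝ) : Epi w (fun z => c * F z) = c * Epi w F := by
  simp only [Epi, Finset.mul_sum, mul_left_comm]

lemma Epi_sum {A : Type} (s : Finset A) (w : J → X → ℝ) (F : A → (J → X) → ℝ) :
    Epi w (fun z => ∑ a ∈ s, F a z) = ∑ a ∈ s, Epi w (F a) := by
  simp only [Epi, Finset.mul_sum]
  exact Finset.sum_comm

lemma Epi_const (w : J → X → ℝ) (c : ℝ) : Epi w (fun _ => c) = c * ∏ j, ∑ u, w j u := by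
  have := Epi_prod w fun _ _ => 1
  simp only [Finset.prod_const_one, mul_one] at this
  rw [← this, ← Epi_mul]; simp

lemma Epi_fd {w : J → X → ℝ} (h : ∀ j, Prob (w j)) : IsFD (Epi w) := by
  refine ⟨J → X, inferInstance, fun z => ∏ j, w j (z j), id,
    fun z => Finset.prod_nonneg fun j _ => (h j).1 _, ?_, fun _ => rfl⟩
  have := Epi_const w 1
  simpa [Epi, fun j => (h j).2] using this

lemma Epi_prob {w : J → X → ℝ} (h : ∀ j, Prob (w j)) : Prob fun z : J → X => ∏ j, w j (z j) := by
  refine ⟨fun z => Finset.prod_nonneg fun j _ => (h j).1 _, ?_⟩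
  have := Epi_const w 1
  simpa [Epi, fun j => (h j).2] using this

lemma Prob.fd {v : X → ℝ} (h : Prob v) : IsFD fun φ : X → ℝ => ∑ u, v u * φ u :=
  ⟨X, inferInstance, v, id, h.1, h.2, fun _ => rfl⟩

lemma IsFD.abs_le {Ω : Type} {E : (Ω → ℝ) → ℝ} (h : IsFD E) {φ : Ω → ℝ} {c : ℝ} (h0 : ∀ ω, |φ ω| ≤ c) :
    |E φ| ≤ c :=
  _root_.abs_le.2 ⟨(h.const _).symm.trans_le (h.mono fun ω => (_root_.abs_le.1 (h0 ω)).1),
    h.le_const fun ω => (_root_.abs_le.1 (h0 ω)).2⟩

lemma abs_prod_sub {A : Type} (s : Finset A) (a b : A → ℝ) :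
    |∏ j ∈ s, a j - ∏ j ∈ s, b j| ≤ ∏ j ∈ s, (|b j| + |a j - b j|) - ∏ j ∈ s, |b j| := by
  classical
  induction s using Finset.induction_on with
  | empty => simp
  | insert i s hi ih =>
    simp only [Finset.prod_insert hi]
    have e : a i * ∏ j ∈ s, a j - b i * ∏ j ∈ s, b j =
        a i * (∏ j ∈ s, a j - ∏ j ∈ s, b j) + (a i - b i) * ∏ j ∈ s, b j := by ring
    have h1 : |a i| ≤ |b i| + |a i - b i| := by simpa using abs_add_le (b i) (a i - b i)
    rw [e]
    refine (abs_add_le _ _).trans ?_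
    rw [abs_mul, abs_mul, Finset.abs_prod]
    have := mul_le_mul h1 ih (abs_nonneg _) (by positivity)
    nlinarith

lemma Epi_trunc (w w' : J → X → ℝ) {G : (J → X) → ℝ} (hG : ∀ z, |G z| ≤ 1) :
    |Epi w G - Epi w' G| ≤ ∏ j, ∑ u, (|w' j u| + |w j u - w' j u|) - ∏ j, ∑ u, |w' j u| := by
  have h1 := Epi_const (fun j u => |w' j u| + |w j u - w' j u|) 1
  have h2 := Epi_const (fun j u => |w' j u|) 1
  rw [one_mul] at h1 h2
  rw [← h1, ← h2]
  simp only [Epi, mul_one, ← Finset.sum_sub_distrib, ← sub_mul]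
  refine (Finset.abs_sum_le_sum_abs _ _).trans (Finset.sum_le_sum fun z _ => ?_)
  rw [abs_mul]
  exact (mul_le_of_le_one_right (abs_nonneg _) (hG z)).trans (abs_prod_sub _ _ _)

lemma Epi_hybrid {w w' : J → X → ℝ} (h : ∀ j, Prob (w j)) (h' : ∀ j, Prob (w' j)) {G : (J → X) → ℝ} {η : ℝ}
    (hG : ∀ j z, |∑ u, w j u * G (Function.update z j u) - ∑ u, w' j u * G (Function.update z j u)| ≤ η) :
    |Epi w G - Epi w' G| ≤ Fintype.card J * η := by
  have key : ∀ s : Finset J, |Epi (s.piecewise w w') G - Epi w' G| ≤ s.card * η := by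
    intro s
    induction s using Finset.induction_on with
    | empty => simp
    | insert i s hi ih =>
      have hp : ∀ j, Prob (s.piecewise w w' j) := by
        intro j; by_cases hj : j ∈ s <;> simp [Finset.piecewise, hj, h, h']
      have h1 := Epi_resample (s.piecewise w w') i (hp i).2 G
      rw [Finset.piecewise_eq_of_notMem _ _ _ hi] at h1
      have h2 := (Epi_fd hp).abs_le (hG i)
      rw [Epi_sub, ← h1, ← Epi_update _ i (hp i).2, ← Finset.piecewise_insert] at h2
      rw [card_insert_of_notMem hi]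
      push_cast
      have := abs_sub_le (Epi ((insert i s).piecewise w w') G) (Epi (s.piecewise w w') G) (Epi w' G)
      linarith
  simpa using key univ

end

variable {K : Type}

/-- functions computed by depth-`d` trees with leaf values in `[-1,1]` -/
inductive Dep : ℕ → ((K → Bool) → ℝ) → Prop
  | leaf (d : ℕ) (c : ℝ) : |c| ≤ 1 → Dep d fun _ => c
  | node (d : ℕ) (i : K) (F0 F1 : (K → Bool) → ℝ) : Dep d F0 → Dep d F1 →
      Dep (d + 1) fun x => if x i = true then F1 x else F0 x

lemma Dep.succ {d : ℕ} {F : (K → Bool) → ℝ} (h : Dep d F) : Dep (d + 1) F := by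
  induction h with
  | leaf d c hc => exact .leaf _ c hc
  | node d i F0 F1 _ _ h0 h1 => exact .node _ i _ _ h0 h1

lemma Dep.abs_le {d : ℕ} {F : (K → Bool) → ℝ} (h : Dep d F) (x : K → Bool) : |F x| ≤ 1 := by
  induction h with
  | leaf d c hc => exact hc
  | node d i F0 F1 _ _ h0 h1 => beta_reduce; split_ifs <;> assumption

lemma Dep.subst {K' : Type} (m : K → Bool ⊕ K') {d : ℕ} {F : (K → Bool) → ℝ} (h : Dep d F) :
    Dep d fun y : K' → Bool => F fun i => (m i).elim id y := by
  induction h with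
  | leaf d c hc => exact .leaf _ c hc
  | node d i F0 F1 _ _ h0 h1 =>
    beta_reduce
    rcases m i with b | j
    · cases b
      · simpa using h0.succ
      · simpa using h1.succ
    · exact .node _ j _ _ h0 h1

variable [Fintype K] [DecidableEq K]

lemma Dep.update {d : ℕ} {F : (K → Bool) → ℝ} (h : Dep d F) (i : K) (b : Bool) :
    Dep d fun x => F (Function.update x i b) := by
  have := h.subst fun j => if j = i then Sum.inl b else Sum.inr j
  convert this using 3 with x
  ext j
  by_cases hj : j = i <;> simp [hj]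

/-- weights of the multilinear extension and of its derivatives -/
def wt (z : K → ℝ) (S : Finset K) (u : K) (b : Bool) : ℝ := if u ∈ S then sg b / 2 else (1 + sg b * z u) / 2

lemma sum_split (i : K) (g : Finset K → ℝ) :
    ∑ S, g S = ∑ S ∈ (univ.erase i).powerset, (g S + g (insert i S)) := by
  rw [Finset.sum_add_distrib, ← Finset.sum_powerset_insert (notMem_erase i univ),
    Finset.insert_erase (mem_univ i), Finset.powerset_univ]

lemma pow_taylor (p : ℕ) {y : ℝ} (hy : |y| ≤ 1) : (1 + y) ^ p ≤ 1 + p * y + 3 ^ p * y ^ 2 := by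
  have h1 := abs_le.1 hy
  induction p with
  | zero => simp; positivity
  | succ p ih =>
    have h2 : (p : ℝ) ≤ 3 ^ p := by
      have := Nat.lt_pow_self (n := p) (by norm_num : 1 < 3)
      exact_mod_cast this.le
    have h3 : (0 : ℝ) ≤ 3 ^ p * y ^ 2 := by positivity
    rw [pow_succ, pow_succ 3]
    push_cast
    have := mul_le_mul_of_nonneg_right ih (by linarith : 0 ≤ 1 + y)
    nlinarith [mul_le_mul_of_nonneg_right h2 (sq_nonneg y), mul_le_mul_of_nonneg_left h1.2 h3]

lemma two_point {p : ℕ} (hp : Even p) {d T : ℝ} (hd : 0 < d) (hT0 : 1 ≤ T) (hT : 3 ^ p * d ≤ T ^ 2)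
    {w0 w1 e0 e1 u v : ℝ} (h0 : 0 ≤ w0) (h1 : 0 ≤ w1) (hw : w0 + w1 = 1) (he : w0 * e0 + w1 * e1 = 0)
    (he0 : |e0| ≤ 2 * |v|) (he1 : |e1| ≤ 2 * |v|) :
    w0 * (u + e0) ^ p + w1 * (u + e1) ^ p ≤ (1 + 1 / d) * u ^ p + (2 * T + 2) ^ p * v ^ p := by
  have hu : 0 ≤ u ^ p := hp.pow_nonneg u
  have hv : 0 ≤ (2 * T + 2) ^ p * v ^ p := mul_nonneg (by positivity) (hp.pow_nonneg v)
  by_cases h : |u| ≤ 2 * T * |v|
  · have k : ∀ e, |e| ≤ 2 * |v| → (u + e) ^ p ≤ (2 * T + 2) ^ p * v ^ p := by
      intro e he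
      rw [← hp.pow_abs, ← hp.pow_abs v, ← mul_pow]
      exact pow_le_pow_left₀ (abs_nonneg _) ((abs_add_le _ _).trans (by linarith)) p
    have := mul_le_mul_of_nonneg_left (k _ he0) h0
    have := mul_le_mul_of_nonneg_left (k _ he1) h1
    have : 0 ≤ (1 + 1 / d) * u ^ p := by positivity
    have e : (2 * T + 2) ^ p * v ^ p = (w0 + w1) * ((2 * T + 2) ^ p * v ^ p) := by rw [hw, one_mul]
    linarith
  · push Not at h
    have hu0 : 0 < |u| := lt_of_le_of_lt (by positivity) h
    have hu1 : u ≠ 0 := abs_pos.1 hu0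
    have k : ∀ e, |e| ≤ 2 * |v| → (u + e) ^ p ≤ u ^ p * (1 + p * (e / u) + 1 / d) := by
      intro e he
      have h2 : |e / u| * T ≤ 1 := by
        rw [abs_div, div_mul_eq_mul_div, div_le_one hu0]
        nlinarith
      have h3 : |e / u| ≤ 1 := by nlinarith [abs_nonneg (e / u)]
      have h4 : 3 ^ p * (e / u) ^ 2 ≤ 1 / d := by
        rw [le_div_iff₀ hd, ← sq_abs]
        calc 3 ^ p * |e / u| ^ 2 * d = (3 ^ p * d) * |e / u| ^ 2 := by ring
          _ ≤ T ^ 2 * |e / u| ^ 2 := by gcongr
          _ = (|e / u| * T) ^ 2 := by ring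
          _ ≤ 1 := pow_le_one₀ (by positivity) h2
      rw [show u + e = u * (1 + e / u) by field_simp, mul_pow]
      exact mul_le_mul_of_nonneg_left ((pow_taylor p h3).trans (by linarith)) hu
    have a0 := mul_le_mul_of_nonneg_left (k _ he0) h0
    have a1 := mul_le_mul_of_nonneg_left (k _ he1) h1
    have e : w0 * (u ^ p * (1 + p * (e0 / u) + 1 / d)) + w1 * (u ^ p * (1 + p * (e1 / u) + 1 / d)) =
        (w0 + w1) * ((1 + 1 / d) * u ^ p) + u ^ p * p / u * (w0 * e0 + w1 * e1) := by ring
    rw [hw, he] at e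
    linarith

lemma wt_sum (z : K → ℝ) {S : Finset K} {i : K} (hi : i ∉ S) : ∑ b, wt z S i b = 1 := by
  simp [wt, hi]; ring

lemma wt_insert (z : K → ℝ) (S : Finset K) (i : K) :
    wt z (insert i S) = Function.update (wt z S) i fun b => sg b / 2 := by
  ext u b
  by_cases h : u = i
  · subst h; simp [wt]
  · simp [wt, h]

theorem fourier_growth {p : ℕ} (hp : Even p) {d T : ℝ} (hd : 0 < d) (hT0 : 1 ≤ T) (hT : 3 ^ p * d ≤ T ^ 2)
    {z : K → ℝ} (hz : ∀ u, |z u| ≤ 1 / 2) (n : ℕ) : ∀ (F : (K → Bool) → ℝ), Dep n F →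
    ∀ c : Finset K → ℝ, (∑ S, c S * Epi (wt z S) F) ^ p ≤
      (1 + 1 / d) ^ n * ∑ S, ((2 * T + 2) ^ p) ^ S.card * c S ^ p := by
  set κ := (2 * T + 2) ^ p with hκ
  have hκ0 : 0 ≤ κ := by positivity
  have hg : 1 ≤ 1 + 1 / d := by simp [hd.le]
  have leaf : ∀ n (a : ℝ), |a| ≤ 1 → ∀ c : Finset K → ℝ, (∑ S, c S * Epi (wt z S) fun _ => a) ^ p ≤
      (1 + 1 / d) ^ n * ∑ S, κ ^ S.card * c S ^ p := by
    intro n a ha c
    have h1 : ∑ S, c S * Epi (wt z S) (fun _ => a) = c ∅ * a := by
      rw [Finset.sum_eq_single ∅]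
      · rw [Epi_const, Finset.prod_eq_one fun j _ => wt_sum z (notMem_empty j), mul_one]
      · intro S _ hS
        obtain ⟨i, hi⟩ := nonempty_iff_ne_empty.2 hS
        rw [Epi_const, Finset.prod_eq_zero (mem_univ i) (by simp [wt, hi]; ring)]; simp
      · simp
    have h2 : c ∅ ^ p ≤ ∑ S, κ ^ S.card * c S ^ p := by
      have := Finset.single_le_sum (f := fun S : Finset K => κ ^ S.card * c S ^ p)
        (fun S _ => mul_nonneg (pow_nonneg hκ0 _) (hp.pow_nonneg _)) (mem_univ ∅)
      simpa using this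
    rw [h1, mul_pow, ← hp.pow_abs a]
    calc c ∅ ^ p * |a| ^ p ≤ c ∅ ^ p * 1 := mul_le_mul_of_nonneg_left (pow_le_one₀ (abs_nonneg _) ha) (hp.pow_nonneg _)
      _ ≤ 1 * ∑ S, κ ^ S.card * c S ^ p := by simpa using h2
      _ ≤ _ := mul_le_mul_of_nonneg_right (one_le_pow₀ hg) ((hp.pow_nonneg _).trans h2)
  induction n with
  | zero =>
    intro F hF c
    cases hF with
    | leaf _ a ha => exact leaf 0 a ha c
  | succ n ih =>
    intro F hF c
    cases hF with
    | leaf _ a ha => exact leaf _ a ha c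
    | node _ i F0 F1 h0 h1 =>
      have hz1 := abs_le.1 (hz i)
      set w0 := (1 + z i) / 2 with hw0
      set w1 := (1 - z i) / 2 with hw1
      have p0 : 0 < 1 + z i := by linarith
      have p1 : 0 < 1 - z i := by linarith
      set c0 : Finset K → ℝ := fun S => if i ∈ S then 0 else c S + c (insert i S) / (1 + z i) with hc0
      set c1 : Finset K → ℝ := fun S => if i ∈ S then 0 else c S + - c (insert i S) / (1 - z i) with hc1
      have e : ∑ S, c S * Epi (wt z S) (fun x => if x i = true then F1 x else F0 x) =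
          w0 * (∑ S, c0 S * Epi (wt z S) fun x => F0 (Function.update x i false)) +
          w1 * ∑ S, c1 S * Epi (wt z S) fun x => F1 (Function.update x i true) := by
        rw [sum_split i, sum_split i, sum_split i (fun S => c1 S * _), Finset.mul_sum, Finset.mul_sum,
          ← Finset.sum_add_distrib]
        refine Finset.sum_congr rfl fun S hS => ?_
        have hi : i ∉ S := fun h => by simpa using mem_powerset.1 hS h
        rw [wt_insert, Epi_update _ i (wt_sum z hi), Epi_resample _ i (wt_sum z hi)]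
        simp only [Fintype.sum_bool, Function.update_self, if_true, Bool.false_eq_true, if_false, Epi_add,
          Epi_mul, hc0, hc1, if_neg hi, mem_insert_self, zero_mul, add_zero, wt, sg_true, sg_false, hw0, hw1]
        field_simp
        ring
      have hj := (hp.convexOn_pow (𝕜 := ℝ)).2 (Set.mem_univ (∑ S, c0 S * Epi (wt z S) fun x => F0 (Function.update x i false)))
        (Set.mem_univ (∑ S, c1 S * Epi (wt z S) fun x => F1 (Function.update x i true)))
        (show 0 ≤ w0 by positivity) (show 0 ≤ w1 by positivity) (by rw [hw0, hw1]; ring)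
      simp only [smul_eq_mul] at hj
      rw [e]
      refine hj.trans ?_
      have a0 := mul_le_mul_of_nonneg_left (ih _ (h0.update i false) c0) (by positivity : 0 ≤ w0)
      have a1 := mul_le_mul_of_nonneg_left (ih _ (h1.update i true) c1) (by positivity : 0 ≤ w1)
      have key : w0 * (∑ S, κ ^ S.card * c0 S ^ p) + w1 * (∑ S, κ ^ S.card * c1 S ^ p) ≤
          (1 + 1 / d) * ∑ S, κ ^ S.card * c S ^ p := by
        rcases Nat.eq_zero_or_pos p with hp0 | hp0
        · simp only [hp0, pow_zero, mul_one, ← add_mul]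
          refine mul_le_mul_of_nonneg_right (by rw [hw0, hw1]; linarith) ?_
          exact Finset.sum_nonneg fun _ _ => pow_nonneg hκ0 _
        rw [sum_split i, sum_split i (fun S => κ ^ S.card * c1 S ^ p), sum_split i (fun S => κ ^ S.card * c S ^ p),
          Finset.mul_sum, Finset.mul_sum, Finset.mul_sum, ← Finset.sum_add_distrib]
        refine Finset.sum_le_sum fun S hS => ?_
        have hi : i ∉ S := fun h => by simpa using mem_powerset.1 hS h
        have tp := two_point hp hd hT0 hT (w0 := w0) (w1 := w1) (e0 := c (insert i S) / (1 + z i))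
          (e1 := - c (insert i S) / (1 - z i)) (u := c S) (v := c (insert i S)) (by positivity) (by positivity)
          (by rw [hw0, hw1]; ring) (by rw [hw0, hw1]; field_simp; ring)
          (by rw [abs_div, abs_of_pos p0, div_le_iff₀ p0]; nlinarith [abs_nonneg (c (insert i S))])
          (by rw [abs_div, abs_neg, abs_of_pos p1, div_le_iff₀ p1]; nlinarith [abs_nonneg (c (insert i S))])
        simp only [hc0, hc1, if_neg hi, mem_insert_self, if_true, zero_pow hp0.ne', mul_zero, add_zero,
          card_insert_of_notMem hi, pow_succ]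
        have t2 := mul_le_mul_of_nonneg_left tp (pow_nonneg hκ0 S.card)
        have t3 : 0 ≤ κ ^ S.card * κ * c (insert i S) ^ p := mul_nonneg (by positivity) (hp.pow_nonneg _)
        have t4 := mul_le_mul_of_nonneg_right hg t3
        rw [← hκ] at t2
        nlinarith
      have := mul_le_mul_of_nonneg_left key (pow_nonneg (zero_le_one.trans hg) n)
      rw [pow_succ]
      nlinarith

end

end Vale.Agent.P362b
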