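import Vale.Agent.P362b.Sep

namespace Vale.Agent.P362b

open Finset Matrix

noncomputable section

lemma cost_bound {m g k q r1 a2 R t : ℕ} (hm : 4 ≤ m) (hk : 2 ≤ k) (hq : q ≤ m ^ (6 * k + 2)) (hr : r1 ≤ m ^ (2 * k + 4))
    (ha : a2 ≤ m ^ 2) (hR : R ≤ m ^ 3) (ht : t ≤ m ^ g) :
    1 + (R * (t * (q + R * a2)) + R * (q + R * (t * r1 + r1))) ≤ m ^ (g + 6 * k + 7) := by
  have pw : ∀ {i j : ℕ}, i ≤ j → m ^ i ≤ m ^ j := fun h => Nat.pow_le_pow_right (by omega) h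
  have two : ∀ i, m ^ i + m ^ i ≤ m ^ (i + 1) := fun i => by rw [pow_succ]; nlinarith [Nat.zero_le (m ^ i)]
  have h1 : R * a2 ≤ m ^ (6 * k + 2) := (Nat.mul_le_mul hR ha).trans (by rw [← pow_add]; exact pw (by omega))
  have h2 : q + R * a2 ≤ m ^ (6 * k + 3) := (add_le_add hq h1).trans (two _)
  have h3 : R * (t * (q + R * a2)) ≤ m ^ (g + 6 * k + 6) :=
    (Nat.mul_le_mul hR (Nat.mul_le_mul ht h2)).trans (by rw [← pow_add, ← pow_add]; exact pw (by omega))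
  have h4 : t * r1 + r1 ≤ m ^ (g + (2 * k + 4) + 1) :=
    (add_le_add ((Nat.mul_le_mul ht hr).trans (by rw [← pow_add])) (hr.trans (pw (by omega)))).trans (two _)
  have h5 : q + R * (t * r1 + r1) ≤ m ^ (g + 6 * k + 2 + 1) :=
    (add_le_add (hq.trans (pw (by omega))) ((Nat.mul_le_mul hR h4).trans
      (by rw [← pow_add]; exact pw (by omega)))).trans (two _)
  have h6 : R * (q + R * (t * r1 + r1)) ≤ m ^ (g + 6 * k + 6) :=
    (Nat.mul_le_mul hR h5).trans (by rw [← pow_add]; exact pw (by omega))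
  have h7 : 1 ≤ m ^ (g + 6 * k + 6) := Nat.one_le_pow _ _ (by omega)
  rw [pow_succ]
  nlinarith

lemma low_arith {M N d n L η φ u : ℝ} (hM : 1 ≤ M) (hN : 0 < N) (hd : 0 < d) (hn0 : 0 ≤ n) (hn : 32 * n ≤ N * d)
    (hMd : M * d ≤ N) (hL : L = 32 * N * N) (hη : η ≤ 1 / 32) (hφ : φ ≤ 1 / 16) (hu : u ≤ 1 / 16)
    (h : N * (1 / 3 - 2 / 3 * (u + φ)) ≤ M / N * n + n / d + N * (n / L + η)) : False := by
  have h1 : M / N * n ≤ N / 32 := by
    rw [div_mul_eq_mul_div, div_le_div_iff₀ hN (by norm_num)]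
    nlinarith [mul_le_mul_of_nonneg_left hn (by linarith : 0 ≤ M), mul_le_mul_of_nonneg_left hMd hN.le]
  have h2 : n / d ≤ N / 32 := by
    rw [div_le_div_iff₀ hd (by norm_num)]; linarith
  have h3 : n / L ≤ 1 / 32 := by
    have : d ≤ N := by nlinarith
    rw [hL, div_le_div_iff₀ (by positivity) (by norm_num)]
    nlinarith [mul_le_mul_of_nonneg_left this hN.le]
  nlinarith [mul_le_mul_of_nonneg_left (add_le_add h3 hη) hN.le, mul_le_mul_of_nonneg_left (add_le_add hu hφ) hN.le]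

section
variable {a : ℕ} {D A P C : Type} [Fintype D] [DecidableEq D] [DecidableEq A] {q r d : ℕ} {η φ : ℝ}
  (G : Gadget D A P C q r d η φ)

lemma sepQ [Fintype C] {m k J : ℕ} (hk : 9 ≤ k) (hm : 64 ≤ m) (hN : 2 ^ a = m ^ (2 * k ^ 2)) (ha : 2 * a + 5 ≤ m)
    (hC : Fintype.card C ≤ m ^ (2 * k ^ 2 + 2 * k + 3) + 1) (hq : q ≤ m ^ (6 * k + 2)) (hr : a + 1 + r ≤ m ^ (2 * k + 4))
    (hJ1 : m ^ (2 * (k ^ 2 + k + 2)) < 9 ^ (J + 1)) (hJ3 : 3 ^ J ≤ m ^ (k ^ 2 + k + 2)) (hJ4 : J + 1 ≤ m) :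
    ∃ n acc, Acc n acc ∧ 1 + n ≤ m ^ (k ^ 2 + 7 * k + 9) ∧
      ∀ x : Pos a D A P → Bool, (fn G x = true → 2 / 3 ≤ acc x) ∧ (fn G x = false → acc x ≤ 1 / 3) := by
  have n4 : 3 ≤ 2 * k ^ 2 := by nlinarith
  have pw : ∀ {i j : ℕ}, i ≤ j → m ^ i ≤ m ^ j := fun h => Nat.pow_le_pow_right (by omega) h
  have M64 : (64 : ℝ) ≤ m := by exact_mod_cast hm
  have hNr : (2 : ℝ) ^ a = (m : ℝ) ^ (2 * k ^ 2) := by exact_mod_cast hN
  have hJr : (J : ℝ) + 1 ≤ m := by exact_mod_cast hJ4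
  have hJ0 : (0 : ℝ) ≤ J := Nat.cast_nonneg J
  have h32 : 32 * (2 : ℝ) ^ a ≤ 2 ^ m := by
    rw [show (32 : ℝ) = 2 ^ 5 by norm_num, ← pow_add]
    exact pow_le_pow_right₀ one_le_two (by omega)
  have hN0 : (0 : ℝ) < 2 ^ a := by positivity
  have h3 : m ^ (2 * k ^ 2) ≤ m ^ (2 * k ^ 2 + 2 * k + 3) := pw (by omega)
  have h4 : 1 ≤ m ^ (2 * k ^ 2 + 2 * k + 3) := Nat.one_le_pow _ _ (by omega)
  have h5 : m ^ (2 * (k ^ 2 + k + 2)) = m * m ^ (2 * k ^ 2 + 2 * k + 3) := by ring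
  have h6 := Nat.mul_le_mul_right (m ^ (2 * k ^ 2 + 2 * k + 3)) hm
  obtain ⟨acc, hacc, hcor⟩ := alg G (a := a) (J := J) (R := 27 * m * m) (by
    have : 2 * 2 ^ a < 9 ^ (J + 1) := by omega
    exact_mod_cast this) (by
    simp only [Fintype.card_option, Fintype.card_sum, Fintype.card_fun, Fintype.card_bool, Fintype.card_fin, hN]
    omega) (by
    have := one_sub_pow_half (y := 1 / (27 * (J + 1))) (by positivity)
      (by rw [div_le_one (by positivity)]; linarith) (27 * m) m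
      (by push_cast; rw [mul_one_div, one_le_div (by positivity)]; linarith)
    have h2 : (0 : ℝ) ≤ (1 - 1 / (27 * (J + 1))) ^ (27 * m * m) :=
      pow_nonneg (by rw [sub_nonneg, div_le_one (by positivity)]; linarith) _
    linarith [mul_le_mul_of_nonneg_left h32 h2]) (by
    have := one_sub_pow_half (y := 2 / (27 * (J + 1))) (by positivity)
      (by rw [div_le_one (by positivity)]; linarith) (27 * m) m
      (by push_cast; rw [mul_div_assoc', one_le_div (by positivity)]; linarith)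
    have h2 : (0 : ℝ) ≤ (1 - 2 / (27 * (J + 1))) ^ (27 * m * m) :=
      pow_nonneg (by rw [sub_nonneg, div_le_one (by positivity)]; linarith) _
    have h3 : 3 * ((27 * m * m : ℕ) : ℝ) ≤ 2 ^ m := by
      refine le_trans ?_ h32
      have : (m : ℝ) ^ 3 ≤ m ^ (2 * k ^ 2) := pow_le_pow_right₀ (by linarith) n4
      rw [hNr]; push_cast; nlinarith
    linarith [mul_le_mul_of_nonneg_left h3 h2])
  refine ⟨_, acc, hacc, ?_, hcor⟩
  exact (cost_bound (m := m) (g := k ^ 2 + k + 2) (k := k) (by omega) (by omega) hq hr (by nlinarith)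
    ((Nat.mul_le_mul_right m (Nat.mul_le_mul_right m (show 27 ≤ m by omega))).trans_eq (by ring)) hJ3).trans (pw (by omega))

lemma sepR [Fintype A] [Nonempty A] {m k e : ℕ} (hm : 64 ≤ m) (hN : 2 ^ a = m ^ (2 * k ^ 2)) (ha : 2 * a + 5 ≤ m)
    (he : e + k + 4 = k ^ 2) (hd : d = m ^ (2 * e)) (hA : Fintype.card A = 2 ^ (2 * a + 5))
    (hη : η ≤ 1 / 32) (hφ : φ ≤ 1 / 16) {N : ℕ} (ε : Pos a D A P ≃ Fin N) :
    m ^ (4 * k ^ 2) ≤ m ^ (2 * k + 9) * R fun x => fn G fun i => x (ε i) := by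
  classical
  have M64 : (64 : ℝ) ≤ m := by exact_mod_cast hm
  have hNr : (2 : ℝ) ^ a = (m : ℝ) ^ (2 * k ^ 2) := by exact_mod_cast hN
  have h32 : 32 * (2 : ℝ) ^ a ≤ 2 ^ m := by
    rw [show (32 : ℝ) = 2 ^ 5 by norm_num, ← pow_add]
    exact pow_le_pow_right₀ one_le_two (by omega)
  have hN0 : (0 : ℝ) < 2 ^ a := by positivity
  by_contra hlt
  push Not at hlt
  obtain ⟨S, w, hw0, hw1, hd', hx⟩ := rand_R fun x => fn G fun i => x (ε i)
  generalize R (fun x => fn G fun i => x (ε i)) = n at hlt hd'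
  have h1 : 32 * n ≤ m ^ (2 * k ^ 2) * m ^ (2 * e) := by
    have h2 : m ^ (4 * k ^ 2) = m ^ (2 * k + 8) * (m ^ (2 * k ^ 2) * m ^ (2 * e)) := by
      rw [← pow_add, ← pow_add]; congr 1; omega
    rw [h2, pow_succ, mul_assoc] at hlt
    have := lt_of_mul_lt_mul_left hlt (Nat.zero_le _)
    nlinarith
  have hmN : (m : ℝ) * m ^ (2 * e) ≤ 2 ^ a := by
    rw [hNr, ← pow_succ']; exact pow_le_pow_right₀ (by linarith) (by omega)
  have hd1 : (1 : ℝ) ≤ m ^ (2 * e) := one_le_pow₀ (by linarith)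
  have hp : (m : ℝ) / 2 ^ a ≤ 1 := by rw [div_le_one hN0]; nlinarith
  have H := hard G (a := a) (by rw [hd]; positivity) (p := m / 2 ^ a) (by positivity) hp S (fun T => T.map ε.symm) w hw0 hw1
    (n := n) (fun T hT => by rw [DT.depth_map]; exact hd' T hT) fun y => by
      simpa only [DT.eval_map, Equiv.symm_apply_apply] using hx fun i => y (ε.symm i)
  subst hd
  refine low_arith (by linarith) hN0 (by positivity) (Nat.cast_nonneg n) ?_ (by exact_mod_cast hmN) ?_ hη hφ ?_ H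
  · rw [hNr]; exact_mod_cast h1
  · rw [hA]; push_cast; ring
  · obtain ⟨b, hb⟩ : ∃ b, 2 * k ^ 2 = b + 1 := ⟨2 * k ^ 2 - 1, by omega⟩
    have h3 := one_sub_pow_half (y := m / 2 ^ a) (by positivity) hp (m ^ b) m
      (by rw [hNr, hb]; push_cast; rw [mul_div_assoc', ← pow_succ, div_self (by positivity)])
    rw [← pow_succ, ← hb, ← hN] at h3
    have h2 : (0 : ℝ) ≤ (1 - m / 2 ^ a) ^ 2 ^ a := pow_nonneg (by linarith) _
    linarith [mul_le_mul_of_nonneg_left h32 h2]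

end

theorem sep (k : ℕ) (hk : 9 ≤ k) (C0 : ℕ) : ∃ (m n : ℕ) (f : (Fin n → Bool) → Bool), C0 ≤ m ∧ 2 ≤ m ∧ 1 ≤ n ∧
    m ^ (4 * k ^ 2) ≤ m ^ (2 * k + 9) * R f ∧ 1 + Q f ≤ m ^ (k ^ 2 + 7 * k + 9) := by
  classical
  haveI : NeZero k := ⟨by omega⟩
  obtain ⟨e, he⟩ : ∃ e, e + k + 4 = k ^ 2 := ⟨k ^ 2 - k - 4, by
    have : k + 4 ≤ k ^ 2 := by nlinarith
    omega⟩
  obtain ⟨c, hc⟩ := gad k e hk he
  obtain ⟨s, hs⟩ := exists_pow_ge (4 * k ^ 3) (⌈c⌉₊ + C0 + 64 + k)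
  have n1 : 2 * (2 * k ^ 2 * s) ≤ 4 * k ^ 3 * s := by
    rw [← mul_assoc]; exact Nat.mul_le_mul_right _ (by nlinarith)
  have n2 : s * (2 * (k ^ 2 + k + 2)) ≤ 4 * k ^ 3 * s := by rw [mul_comm]; exact Nat.mul_le_mul_right _ (by nlinarith)
  have n3 : 2 * k ^ 2 * s * k + 2 * k ^ 2 * s * k = 4 * k ^ 3 * s := by ring
  have ha : 2 * (2 * k ^ 2 * s) + 5 ≤ 2 ^ s := le_trans (add_le_add n1 (by omega)) hs
  obtain ⟨G⟩ := hc s ((Nat.le_ceil c).trans (by exact_mod_cast (by omega : ⌈c⌉₊ ≤ 2 ^ s))) _ ha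
  have hN : 2 ^ (2 * k ^ 2 * s) = (2 ^ s) ^ (2 * k ^ 2) := by rw [← pow_mul, mul_comm s]
  have hJ1 := Nat.lt_pow_succ_log_self (by norm_num : 1 < 9) ((2 ^ s) ^ (2 * (k ^ 2 + k + 2)))
  have hJ2 := Nat.pow_log_le_self 9 (x := (2 ^ s) ^ (2 * (k ^ 2 + k + 2))) (by positivity)
  generalize Nat.log 9 ((2 ^ s) ^ (2 * (k ^ 2 + k + 2))) = J at hJ1 hJ2
  have hJ3 : 3 ^ J ≤ (2 ^ s) ^ (k ^ 2 + k + 2) := by
    refine (Nat.pow_le_pow_iff_left two_ne_zero).1 ?_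
    rw [← pow_mul, mul_comm J, pow_mul, ← pow_mul (2 ^ s), mul_comm _ 2]
    exact hJ2
  have hJ4 : J + 1 ≤ 2 ^ s := by
    have : 2 ^ J ≤ 2 ^ (s * (2 * (k ^ 2 + k + 2))) := by
      rw [pow_mul]; exact (Nat.pow_le_pow_left (by norm_num) J).trans hJ2
    have := (Nat.pow_le_pow_iff_right (by norm_num)).1 this
    omega
  have hak : 2 * k ^ 2 * s * k + 2 ≤ 2 ^ s := by omega
  have hm : 64 ≤ 2 ^ s := by omega
  have hkm : k ≤ 2 ^ s := by omega
  have hC : C0 ≤ 2 ^ s := by omega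
  have hcast : ((2 : ℝ) ^ s) = ((2 ^ s : ℕ) : ℝ) := by push_cast; rfl
  rw [hcast] at G
  clear hc hs n1 n2 n3 hcast hJ2
  generalize 2 ^ s = m at *
  generalize 2 * k ^ 2 * s = a at *
  have M64 : (64 : ℝ) ≤ m := by exact_mod_cast hm
  have hl : ((2 * a + 5 : ℕ) : ℝ) ≤ m := by exact_mod_cast ha
  obtain ⟨n, acc, hacc, hn, hcor⟩ := sepQ G hk hm hN ha (by
    simp only [Fintype.card_option, Fintype.card_prod, Fintype.card_fun, Fintype.card_bool, Fintype.card_fin, hN]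
    calc _ ≤ m * m ^ (2 * k) * (m * (m * m ^ (2 * k ^ 2))) + 1 := by gcongr; omega
      _ = _ := by ring) (by
    calc _ ≤ m * (m ^ (2 * k) * m ^ (4 * k) * m) := by gcongr
      _ = _ := by ring) (by
    have h1 : 1 ≤ m ^ (2 * k) := Nat.one_le_pow _ _ (by omega)
    have h2 : ((2 * a + 5) * m ^ (2 * k) + 3) * (a * k + 2) ≤ (m * m ^ (2 * k) + m * m ^ (2 * k)) * m := by
      gcongr; nlinarith
    have h3 : m ^ (2 * k + 4) = m * m * (m * m ^ (2 * k) * m) := by ring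
    have h4 : m ≤ m * m ^ (2 * k) * m := by nlinarith [Nat.mul_le_mul h1 (show 1 ≤ m by omega)]
    have h5 := Nat.mul_le_mul_right (m * m ^ (2 * k) * m) (show 4 ≤ m * m by nlinarith)
    rw [add_mul (m * _)] at h2
    omega) hJ1 hJ3 hJ4
  have hn1 : 1 ≤ Fintype.card (Pos a ((Fin (2 * a + 5) × Fin (m ^ (2 * k))) × (Fin k × II a)) (Fin (2 * a + 5) → Bool)
    ((Fin (2 * a + 5) × Fin (m ^ (2 * k))) × (Fin k × Fin (a + 1) × II a) × Fin (a * k + 2))) := Fintype.card_pos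
  refine ⟨m, _, _, hC, by omega, hn1, sepR G hm hN ha he rfl (by simp) ?_ ?_ (Fintype.equivFin _), ?_⟩
  · rw [mul_one_div, div_le_div_iff₀ (by positivity) (by norm_num), pow_succ, Nat.cast_pow]
    nlinarith [pow_pos (show (0 : ℝ) < m by linarith) (2 * k)]
  · rw [mul_one_div, div_le_div_iff₀ (by positivity) (by norm_num)]
    linarith
  · have hq := quant_of_acc hn1 (Fintype.equivFin _) hacc (fun x => fn G fun i => x (Fintype.equivFin _ i))
      (fun x => (hcor _).1) fun x => (hcor _).2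
    exact le_trans (Nat.add_le_add_left (Nat.sInf_le hq) 1) hn

theorem main : IsLeast Exponents 4 := by
  refine ⟨⟨by norm_num, 35 ^ 4, fun n hn f => ?_⟩, ?_⟩
  · have := R_le_of_quant (quant_Q hn f)
    rw [show (4 : ℝ) = ((4 : ℕ) : ℝ) by norm_num, Real.rpow_natCast]
    exact_mod_cast this
  · rintro α ⟨h0, C, hC⟩
    by_contra hα
    push Not at hα
    obtain ⟨k, hk⟩ := exists_nat_ge (max 9 (40 / (4 - α)))
    have hk9 : (9 : ℝ) ≤ k := (le_max_left _ _).trans hk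
    have hk2 : 40 ≤ k * (4 - α) := (div_le_iff₀ (by linarith)).1 ((le_max_right _ _).trans hk)
    obtain ⟨m, n, f, h1, h2, h3, h4, h5⟩ := sep k (by exact_mod_cast hk9) (⌈C⌉₊ + 1)
    have m1 : (1 : ℝ) < m := by exact_mod_cast h2
    have m0 : (0 : ℝ) < m := by linarith
    have hCm : C < m := (Nat.le_ceil C).trans_lt (by exact_mod_cast h1)
    have a1 : (m : ℝ) ^ (4 * k ^ 2) ≤ m ^ (2 * k + 9) * R f := by exact_mod_cast h4
    have a2 : 1 + (Q f : ℝ) ≤ m ^ (k ^ 2 + 7 * k + 9) := by exact_mod_cast h5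
    have a3 : (1 + (Q f : ℝ)) ^ α ≤ (m : ℝ) ^ (((k ^ 2 + 7 * k + 9 : ℕ) : ℝ) * α) := by
      rw [Real.rpow_natCast_mul m0.le]
      exact Real.rpow_le_rpow (by positivity) a2 h0
    have a4 : (R f : ℝ) < m * (m : ℝ) ^ (((k ^ 2 + 7 * k + 9 : ℕ) : ℝ) * α) :=
      (hC n h3 f).trans_lt ((mul_lt_mul_of_pos_right hCm (by positivity)).trans_le
        (mul_le_mul_of_nonneg_left a3 m0.le))
    have a5 := a1.trans_lt (mul_lt_mul_of_pos_left a4 (by positivity))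
    rw [← mul_assoc, ← pow_succ, ← Real.rpow_natCast, ← Real.rpow_natCast, ← Real.rpow_add m0,
      Real.rpow_lt_rpow_left_iff m1] at a5
    push_cast at a5
    nlinarith

end

end Vale.Agent.P362b
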