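import Vale.Agent.P362b.Gauss

namespace Vale.Agent.P362b

open Finset MeasureTheory ProbabilityTheory MvPolynomial Matrix

noncomputable section

/-- paths through the layers -/
def Path (I : Type) : ℕ → Type
  | 0 => I
  | j + 1 => I × Path I j

instance Path.fin (I : Type) [Fintype I] : ∀ j, Fintype (Path I j)
  | 0 => inferInstanceAs (Fintype I)
  | j + 1 => haveI := Path.fin I j; inferInstanceAs (Fintype (I × Path I j))

variable {I : Type} [Fintype I] [DecidableEq I]

lemma sum_path (j : ℕ) (f : Path I (j + 1) → ℝ) : ∑ π, f π = ∑ π : Path I j, ∑ b : I, f (b, π) :=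
  (Fintype.sum_prod_type_right (f := f))

lemma card_path (j : ℕ) : Fintype.card (Path I j) = Fintype.card I ^ (j + 1) := by
  induction j with
  | zero => exact (pow_one _).symm
  | succ j ih => rw [pow_succ', ← ih]; exact Fintype.card_prod _ _

def hd : ∀ {j : ℕ}, Path I j → I
  | 0, a => a
  | _ + 1, π => π.1

def hw (H : Matrix I I ℝ) : ∀ {j : ℕ}, Path I j → ℝ
  | 0, _ => 1
  | _ + 1, π => H π.1 (hd π.2) * hw H π.2

lemma abs_hw {H : Matrix I I ℝ} {h0 : ℝ} (hH : ∀ a b, |H a b| ≤ h0) : ∀ {j : ℕ} (π : Path I j), |hw H π| ≤ h0 ^ j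
  | 0, _ => by simp [hw]
  | j + 1, π => by
    rw [hw, abs_mul, pow_succ']
    exact mul_le_mul (hH _ _) (abs_hw hH _) (abs_nonneg _) ((abs_nonneg _).trans (hH π.1 π.1))

lemma sum_hw {H : Matrix I I ℝ} (hH : Orth H) (j : ℕ) : ∑ π : Path I j, hw H π ^ 2 = Fintype.card I := by
  induction j with
  | zero => simp [hw, Path]; rfl
  | succ j ih =>
    rw [sum_path, ← ih]
    refine Finset.sum_congr rfl fun π _ => ?_
    simp only [hw, mul_pow, ← Finset.sum_mul, hH.col, one_mul]

variable (k : ℕ) [NeZero k]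

def PS : ∀ {j : ℕ}, Path I j → Finset (Fin k × I)
  | 0, a => {(Fin.ofNat k 0, hd a)}
  | j + 1, π => insert (Fin.ofNat k (j + 1), π.1) (PS π.2)

variable {k}

lemma ofNat_val {j : ℕ} (h : j < k) : (Fin.ofNat k j : ℕ) = j := Nat.mod_eq_of_lt h

lemma PS_le : ∀ {j : ℕ} (_ : j < k) (π : Path I j), ∀ u ∈ PS k π, (u.1 : ℕ) ≤ j
  | 0, _, a, u, hu => by simp only [PS, mem_singleton] at hu; simp [hu]
  | j + 1, h, π, u, hu => by
    simp only [PS, mem_insert] at hu
    rcases hu with hu | hu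
    · rw [hu, ofNat_val h]
    · exact (PS_le (by omega) _ u hu).trans (by omega)

lemma PS_not {j : ℕ} (h : j + 1 < k) (π : Path I j) (b : I) : (Fin.ofNat k (j + 1), b) ∉ PS k π := fun hm => by
  have := PS_le (by omega) π _ hm
  rw [ofNat_val h] at this
  omega

lemma PS_hd : ∀ {j : ℕ} (π : Path I j), (Fin.ofNat k j, hd π) ∈ PS k π
  | 0, _ => by simp [PS]
  | _ + 1, _ => by simp [PS, hd]

lemma PS_card : ∀ {j : ℕ} (_ : j < k) (π : Path I j), (PS k π).card = j + 1
  | 0, _, _ => by simp [PS]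
  | j + 1, h, π => by rw [PS, card_insert_of_notMem (PS_not h _ _), PS_card (by omega)]

lemma PS_inj : ∀ {j : ℕ} (_ : j < k) (π π' : Path I j), PS k π = PS k π' → π = π'
  | 0, _, a, a', h => by
    have : hd a = hd a' := by simpa [PS] using h
    exact this
  | j + 1, h, π, π', e => by
    simp only [PS] at e
    have h1 : π.1 = π'.1 := by
      have : (Fin.ofNat k (j + 1), π.1) ∈ insert (Fin.ofNat k (j + 1), π'.1) (PS k π'.2) :=
        e ▸ mem_insert_self _ _
      rcases mem_insert.1 this with h2 | h2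
      · simpa using h2
      · exact absurd h2 (PS_not h _ _)
    rw [h1] at e
    have h2 := congrArg (fun s => Finset.erase s (Fin.ofNat k (j + 1), π'.1)) e
    simp only [erase_insert (PS_not h _ _)] at h2
    exact Prod.ext h1 (PS_inj (by omega) _ _ h2)

variable (H : Matrix I I ℝ) (l : ℝ)

def Rp (j : ℕ) (i : I) : MvPolynomial (Fin k × I) ℝ := if j + 1 < k then C l * X (Fin.ofNat k j, i) else 1

def Lp : ℕ → I → MvPolynomial (Fin k × I) ℝ
  | 0, _ => 1
  | j + 1, i => C l * ∑ a, C (H i a) * X (Fin.ofNat k j, a)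

def Zt (t : ℝ) (u : Fin k × I) : MvPolynomial (Fin k × I) ℝ :=
  (if (u.1 : ℕ) = 0 then t else 1) • (Lp H l u.1 u.2 * Rp l u.1 u.2)

def Wp (t : ℝ) (x : Fin k × I → Bool) (S : Finset (Fin k × I)) : MvPolynomial (Fin k × I) ℝ :=
  ∏ u, if u ∈ S then C (sg (x u) / 2) else C (1 / 2) + C (sg (x u) / 2) * Zt H l t u

lemma ev_Wp (t : ℝ) (x : Fin k × I → Bool) (S : Finset (Fin k × I)) (g : Fin k × I → ℝ) :
    aeval g (Wp H l t x S) = ∏ u, wt (fun u => aeval g (Zt H l t u)) S u (x u) := by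
  rw [Wp, map_prod]
  refine Finset.prod_congr rfl fun u _ => ?_
  unfold wt
  split_ifs
  · simp
  · simp only [map_add, map_mul, aeval_C, Algebra.algebraMap_self, RingHom.id_apply]; ring

lemma Wp_insert (t : ℝ) (x : Fin k × I → Bool) (S : Finset (Fin k × I)) (u : Fin k × I) :
    Wp H l t x (insert u S) = C (sg (x u) / 2) * ∏ v ∈ univ.erase u,
      if v ∈ S then C (sg (x v) / 2) else C (1 / 2) + C (sg (x v) / 2) * Zt H l t v := by
  rw [Wp, ← Finset.mul_prod_erase _ _ (mem_univ u), if_pos (mem_insert_self _ _)]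
  congr 1
  refine Finset.prod_congr rfl fun v hv => ?_
  simp only [mem_insert, Finset.ne_of_mem_erase hv, false_or]

lemma pd_Zt (t : ℝ) {j : ℕ} (hj : j + 1 < k) (a : I) (u : Fin k × I) (hu : u ≠ (Fin.ofNat k j, a)) :
    pderiv (Fin.ofNat k j, a) (Zt H l t u) =
      if u.1 = Fin.ofNat k (j + 1) then C (l * H u.2 a) * Rp l (j + 1) u.2 else 0 := by
  obtain ⟨q, i⟩ := u
  have hR : pderiv (Fin.ofNat k j, a) (Rp (k := k) l q i) = 0 := by
    unfold Rp
    split_ifs
    · rw [pderiv_C_mul, pderiv_X_of_ne (by simpa using hu), mul_zero]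
    · simp
  have hq := q.2
  simp only [Zt, Derivation.map_smul, Derivation.leibniz, hR, smul_eq_mul, mul_zero, zero_add]
  by_cases h : q = Fin.ofNat k (j + 1)
  · have e : (q : ℕ) = j + 1 := by rw [h, ofNat_val hj]
    rw [if_pos h, e, if_neg (by omega), one_smul, Lp, pderiv_C_mul, map_sum, Finset.sum_eq_single a]
    · rw [pderiv_C_mul, pderiv_X_self, C_mul]; ring
    · intro b _ hb
      rw [pderiv_C_mul, pderiv_X_of_ne (by simp [hb]), mul_zero]
    · simp
  · rw [if_neg h]
    have : pderiv (Fin.ofNat k j, a) (Lp (k := k) H l q i) = 0 := by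
      rcases hq' : (q : ℕ) with _ | m
      · simp [Lp]
      · rw [Lp, pderiv_C_mul, map_sum, Finset.sum_eq_zero, mul_zero]
        intro b _
        rw [pderiv_C_mul, pderiv_X_of_ne, mul_zero]
        intro e
        have e1 := congrArg (fun c : Fin k × I => (c.1 : ℕ)) e
        simp only [ofNat_val (show m < k by omega), ofNat_val (show j < k by omega)] at e1
        exact h (Fin.ext (by rw [ofNat_val hj]; omega))
    rw [this, mul_zero, smul_zero]

lemma ibp (t : ℝ) (x : Fin k × I → Bool) {j : ℕ} (hj : j + 1 < k) (a : I) {S : Finset (Fin k × I)}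
    (h1 : (Fin.ofNat k j, a) ∈ S) (h2 : ∀ b, (Fin.ofNat k (j + 1), b) ∉ S) :
    EE (Rp l j a * Wp H l t x S) =
      l ^ 2 * ∑ b, H b a * EE (Rp l (j + 1) b * Wp H l t x (insert (Fin.ofNat k (j + 1), b) S)) := by
  rw [Rp, if_pos hj, mul_assoc, EE_C_mul, stein, Wp, deriv_prod, map_sum, Fintype.sum_prod_type,
    Finset.sum_eq_single (Fin.ofNat k (j + 1))]
  · rw [sq, mul_assoc l l]
    congr 1
    rw [Finset.mul_sum]
    refine Finset.sum_congr rfl fun b _ => ?_
    rw [if_neg (h2 b), map_add, pderiv_C, zero_add, pderiv_C_mul, pd_Zt H l t hj a _ (by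
      rintro e; exact h2 b (e ▸ h1)), if_pos rfl, Wp_insert, ← mul_assoc l, ← EE_C_mul]
    congr 1
    ring
  · intro q _ hq
    refine Finset.sum_eq_zero fun b _ => ?_
    split_ifs with h
    · rw [pderiv_C, zero_mul, map_zero]
    · rw [map_add, pderiv_C, zero_add, pderiv_C_mul, pd_Zt H l t hj a _ (by
        rintro e; exact h (e ▸ h1)), if_neg hq, mul_zero, zero_mul, map_zero]
  · simp

lemma chain (t : ℝ) (x : Fin k × I → Bool) (j : ℕ) (hj : j < k) :
    ∑ a, EE (Rp l 0 a * Wp H l t x {(Fin.ofNat k 0, a)}) =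
      l ^ (2 * j) * ∑ π : Path I j, hw H π * EE (Rp l j (hd π) * Wp H l t x (PS k π)) := by
  induction j with
  | zero => simp only [mul_zero, pow_zero, one_mul, hw]; rfl
  | succ j ih =>
    rw [ih (by omega), sum_path, show 2 * (j + 1) = 2 * j + 2 by ring, pow_add, mul_assoc, Finset.mul_sum _ _ (l ^ 2)]
    congr 1
    refine Finset.sum_congr rfl fun π _ => ?_
    rw [ibp H l t x hj _ (PS_hd π) (PS_not hj π)]
    simp only [hw, hd, PS, Finset.mul_sum]
    exact Finset.sum_congr rfl fun b _ => by ring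

lemma deriv_Wp (x : Fin k × I → Bool) (t : ℝ) {j : ℕ} (hj : j + 1 = k) :
    HasDerivAt (fun t => EE (Wp H l t x ∅))
      (l ^ (2 * j) * ∑ π : Path I j, hw H π * EE (Wp H l t x (PS k π))) t := by
  have h := hasDeriv_prod (univ : Finset (Fin k × I))
    (fun u => if (u.1 : ℕ) = 0 then C (1 / 2) else C (1 / 2) + C (sg (x u) / 2) * Zt H l 0 u)
    (fun u => if (u.1 : ℕ) = 0 then C (sg (x u) / 2) * Rp l 0 u.2 else 0) t EE
  have e : ∀ (t : ℝ) (u : Fin k × I), (if (u.1 : ℕ) = 0 then C (1 / 2) else C (1 / 2) + C (sg (x u) / 2) * Zt H l 0 u) +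
      t • (if (u.1 : ℕ) = 0 then C (sg (x u) / 2) * Rp l 0 u.2 else 0) =
      C (1 / 2) + C (sg (x u) / 2) * Zt H l t u := by
    intro t u
    unfold Zt
    split_ifs with h
    · rw [h, Lp, one_mul, mul_smul_comm]
    · simp
  simp only [e] at h
  refine (h.congr_deriv ?_).congr_of_eventuallyEq (Filter.Eventually.of_forall fun t => by simp [Wp])
  have c := chain H l t x j (by omega)
  simp only [show ∀ i : I, Rp (k := k) l j i = 1 from fun i => if_neg (by omega), one_mul] at c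
  rw [← c, Fintype.sum_prod_type, Finset.sum_eq_single (Fin.ofNat k 0)]
  · refine Finset.sum_congr rfl fun a _ => ?_
    rw [if_pos (by simp), ← insert_empty_eq, Wp_insert]
    congr 1
    simp only [notMem_empty, if_false]
    ring
  · intro q _ hq
    refine Finset.sum_eq_zero fun b _ => ?_
    rw [if_neg (fun e => hq (Fin.ext (by simpa using e))), zero_mul, map_zero]
  · simp

/-- truncation to `[-1/2, 1/2]` -/
def tr (y : ℝ) : ℝ := max (-(1 / 2)) (min (1 / 2) y)

lemma abs_tr (y : ℝ) : |tr y| ≤ 1 / 2 := by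
  rw [abs_le]; unfold tr
  exact ⟨le_max_left _ _, max_le (by norm_num) (min_le_left _ _)⟩

lemma tr_err {h : ℕ} (hh : Even h) (h0 : h ≠ 0) (y : ℝ) : |y - tr y| ≤ (2 * y) ^ h := by
  by_cases hy : |y| ≤ 1 / 2
  · have := abs_le.1 hy
    rw [tr, min_eq_right this.2, max_eq_right this.1, sub_self, abs_zero]
    exact hh.pow_nonneg _
  · push Not at hy
    rw [← hh.pow_abs, abs_mul, abs_two]
    refine le_trans ?_ (le_self_pow₀ (by linarith) h0)
    have := abs_tr y
    have := abs_sub y (tr y)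
    linarith

lemma wt_trunc {K : Type} [Fintype K] [DecidableEq K] {h : ℕ} (hh : Even h) (h0 : h ≠ 0) (z y : K → ℝ)
    (hz : ∀ u, |z u| ≤ |y u|) (S : Finset K) {F : (K → Bool) → ℝ} (hF : ∀ x, |F x| ≤ 1) :
    |Epi (wt z S) F - Epi (wt (fun u => tr (z u)) S) F| ≤ ∏ u, (1 + (2 * y u) ^ h) - 1 := by
  have e1 : ∀ u, ∑ b, |wt (fun u => tr (z u)) S u b| = 1 := by
    intro u
    have := abs_le.1 (abs_tr (z u))
    unfold wt
    split_ifs
    · simp [abs_div]; norm_num
    · simp only [Fintype.sum_bool, sg_true, sg_false]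
      rw [abs_of_nonneg (by linarith), abs_of_nonneg (by linarith)]; ring
  refine (Epi_trunc _ _ hF).trans ?_
  simp only [Finset.sum_add_distrib, e1, Finset.prod_const_one]
  gcongr with u
  have h1 : (2 * z u) ^ h ≤ (2 * y u) ^ h := by
    rw [← hh.pow_abs, ← hh.pow_abs (2 * y u), abs_mul, abs_mul]
    exact pow_le_pow_left₀ (by positivity) (mul_le_mul_of_nonneg_left (hz u) (abs_nonneg _)) h
  refine le_trans ?_ ((tr_err hh h0 _).trans h1)
  unfold wt
  split_ifs
  · simp
  · simp only [Fintype.sum_bool, sg_true, sg_false]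
    rw [show (1 + -1 * z u) / 2 - (1 + -1 * tr (z u)) / 2 = -((z u - tr (z u)) / 2) by ring,
      show (1 + 1 * z u) / 2 - (1 + 1 * tr (z u)) / 2 = (z u - tr (z u)) / 2 by ring, abs_neg, abs_div, abs_two]
    linarith

lemma wt_prob {K : Type} [DecidableEq K] (z : K → ℝ) (u : K) : Prob (wt (fun u => tr (z u)) ∅ u) := by
  have := abs_le.1 (abs_tr (z u))
  refine ⟨fun b => ?_, by simp [wt]; ring⟩
  cases b <;> simp [wt] <;> linarith

/-- error polynomial -/
def Pe (h : ℕ) : MvPolynomial (Fin k × I) ℝ := ∏ u, (1 + (C 2 * Zt H l 1 u) ^ h) - 1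

lemma ev_Pe (h : ℕ) (g : Fin k × I → ℝ) :
    aeval g (Pe H l h) = ∏ u, (1 + (2 * aeval g (Zt H l 1 u)) ^ h) - 1 := by
  simp [Pe]

lemma Zt_le {t : ℝ} (ht : |t| ≤ 1) (g : Fin k × I → ℝ) (u : Fin k × I) :
    |aeval g (Zt H l t u)| ≤ |aeval g (Zt H l 1 u)| := by
  simp only [Zt, map_smul, smul_eq_mul, ite_self, one_mul, abs_mul]
  refine mul_le_of_le_one_left (by positivity) ?_
  split_ifs
  · exact ht
  · simp

lemma cont_ev {G : Type} (p : MvPolynomial G ℝ) : Continuous fun g : G → ℝ => aeval g p :=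
  MvPolynomial.continuous_eval p

lemma EE_Pe {h : ℕ} (hh : Even h) (hH : Orth H) (hk : 1 < k) :
    EE (Pe (k := k) H l h) ≤ (1 + 2 * (2 * l) ^ h * mo h + (2 * l) ^ (2 * h) * mo (2 * h)) ^
      Fintype.card (Fin k × I) - 1 := by
  set O : Matrix (Fin k × I) (Fin k × I) ℝ := kroneckerMap (· * ·) (pm (Equiv.addRight (1 : Fin k))) H with hO
  have hOo : Orth O := (Orth.perm _).kron hH
  set A : (Fin k × I → ℝ) → ℝ := fun g => ∏ u, (1 + (2 * l * g u) ^ h) ^ 2 with hA
  have hAi : Integrable A (gam (Fin k × I)) := by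
    have := int_ev (∏ u : Fin k × I, (1 + (C (2 * l) * X u) ^ h) ^ 2)
    simpa [hA] using this
  have hAo : Integrable (fun g => A (O *ᵥ g)) (gam (Fin k × I)) := by
    have := int_ev (∏ u : Fin k × I, (1 + (C (2 * l) * ∑ v, C (O u v) * X v) ^ h) ^ 2)
    simpa [hA, mulVec, dotProduct] using this
  have key : ∀ g, aeval g (Pe H l h) ≤ (A g + A (O *ᵥ g)) / 2 - 1 := by
    intro g
    rw [ev_Pe]
    have h1 : ∏ u, (1 + (2 * aeval g (Zt H l 1 u)) ^ h) ≤
        (∏ u, (1 + (2 * l * g u) ^ h)) * ∏ u, (1 + (2 * l * (O *ᵥ g) u) ^ h) := by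
      rw [← Finset.prod_mul_distrib]
      refine Finset.prod_le_prod (fun u _ => add_nonneg zero_le_one (hh.pow_nonneg _)) fun u _ => ?_
      obtain ⟨q, i⟩ := u
      have a0 := hh.pow_nonneg (2 * l * g (q, i))
      have b0 := hh.pow_nonneg (2 * l * (O *ᵥ g) (q, i))
      have hR : aeval g (Rp (k := k) l q i) = l * g (q, i) ∨ aeval g (Rp (k := k) l q i) = 1 ∧ ¬ (q : ℕ) + 1 < k := by
        unfold Rp
        split_ifs with h
        · left; simp
        · right; simp [h]
      have hL : aeval g (Lp (k := k) H l q i) = l * (O *ᵥ g) (q, i) ∨ aeval g (Lp (k := k) H l q i) = 1 ∧ (q : ℕ) = 0 := by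
        rcases hq : (q : ℕ) with _ | m
        · right; simp [Lp]
        · left
          have hm : m + 1 < k := hq ▸ q.2
          have e : ∀ q' : Fin k, q = q' + 1 ↔ q' = Fin.ofNat k m := by
            intro q'
            have e1 : q = Fin.ofNat k m + 1 := by
              ext
              rw [Fin.val_add, ofNat_val (by omega), Fin.val_one', Nat.add_mod_mod, Nat.mod_eq_of_lt hm, hq]
            rw [e1, add_left_inj, eq_comm]
          simp [Lp, hO, mulVec, dotProduct, Fintype.sum_prod_type, pm, e]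
      simp only [Zt, ite_self, one_smul, map_mul]
      rcases hR with hR | ⟨hR, hR2⟩ <;> rcases hL with hL | ⟨hL, hL2⟩ <;> rw [hR, hL]
      · have : (2 * (l * (O *ᵥ g) (q, i) * (l * g (q, i)))) ^ h ≤ (2 * l * g (q, i)) ^ h * (2 * l * (O *ᵥ g) (q, i)) ^ h := by
          rw [← mul_pow, ← hh.pow_abs, ← hh.pow_abs (_ * _ * _ * _)]
          refine pow_le_pow_left₀ (abs_nonneg _) ?_ h
          rw [show 2 * l * g (q, i) * (2 * l * (O *ᵥ g) (q, i)) = 2 * (2 * (l * (O *ᵥ g) (q, i) * (l * g (q, i)))) by ring,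
            abs_mul 2 (2 * _), abs_two]
          linarith [abs_nonneg (2 * (l * (O *ᵥ g) (q, i) * (l * g (q, i))))]
        nlinarith
      · rw [one_mul, ← mul_assoc]; nlinarith [mul_nonneg a0 b0]
      · rw [mul_one, ← mul_assoc]; nlinarith [mul_nonneg a0 b0]
      · omega
    simp only [hA, Finset.prod_pow]
    nlinarith [sq_nonneg ((∏ u, (1 + (2 * l * g u) ^ h)) - ∏ u, (1 + (2 * l * (O *ᵥ g) u) ^ h))]
  have hs : Integrable (fun g => (A g + A (O *ᵥ g)) / 2) (gam (Fin k × I)) := (hAi.add hAo).div_const 2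
  have h2 := integral_mono (g := fun g => (A g + A (O *ᵥ g)) / 2 - 1) (int_ev _) (hs.sub (integrable_const 1)) key
  rw [integral_sub hs (integrable_const 1), integral_div, integral_add hAi hAo,
    gam_orth hOo (φ := A) (by rw [hA]; fun_prop), hA, gauss_tail] at h2
  simpa [EE_apply] using h2

end

end Vale.Agent.P362b
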