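import Vale.Agent.P362b.Hard
import Vale.Agent.P362b.Dist

namespace Vale.Agent.P362b

open Finset Matrix

noncomputable section

/-- integer sign -/
def sz (b : Bool) : ℤ := if b = true then -1 else 1

lemma cast_sz (b : Bool) : (sz b : ℝ) = sg b := by cases b <;> simp [sz]
lemma abs_sz (b : Bool) : |sz b| = 1 := by cases b <;> simp [sz]

variable {a : ℕ}

/-- partially applied Walsh kernel -/
def kz (t : ℕ) (i y : II a) : ℤ := ∏ s : Fin a, if (s : ℕ) < t then sz (i s && y s) else if i s = y s then 1 else 0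

lemma kz_zero (i y : II a) : kz 0 i y = if i = y then 1 else 0 := by
  simp [kz, Finset.prod_ite_zero, funext_iff]

lemma kz_stage (t : Fin a) (i y : II a) : kz (t + 1) i y =
    kz t (Function.update i t false) y + sz (i t) * kz t (Function.update i t true) y := by
  have e : ∀ b, kz t (Function.update i t b) y = (if b = y t then 1 else 0) *
      ∏ s ∈ univ.erase t, if (s : ℕ) < t + 1 then sz (i s && y s) else if i s = y s then 1 else 0 := by
    intro b
    rw [kz, ← Finset.mul_prod_erase _ _ (mem_univ t), if_neg (lt_irrefl _), Function.update_self]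
    congr 1
    refine Finset.prod_congr rfl fun s hs => ?_
    have h := Finset.ne_of_mem_erase hs
    have h2 : (s : ℕ) ≠ t := fun e => h (Fin.ext e)
    rw [Function.update_of_ne h]
    simp only [show (s : ℕ) < t + 1 ↔ (s : ℕ) < t by omega]
  rw [e, e, kz, ← Finset.mul_prod_erase _ _ (mem_univ t), if_pos (Nat.lt_succ_self _)]
  cases i t <;> cases y t <;> simp [sz]

lemma abs_kz (t : ℕ) (i y : II a) : |kz t i y| ≤ 1 := by
  rw [kz, Finset.abs_prod]
  refine Finset.prod_le_one (fun _ _ => abs_nonneg _) fun s _ => ?_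
  split_ifs <;> simp [abs_sz]

/-- normalization -/
def hz (a : ℕ) : ℝ := (√(2 ^ a))⁻¹

lemma hz_pos (a : ℕ) : 0 < hz a := by unfold hz; positivity

lemma hz_sq (a : ℕ) : hz a ^ 2 * 2 ^ a = 1 := by
  rw [hz, inv_pow, Real.sq_sqrt (by positivity)]; field_simp

/-- Walsh-Hadamard matrix -/
def Hd (a : ℕ) : Matrix (II a) (II a) ℝ := Matrix.of fun i y => hz a * kz a i y

lemma cast_kz (i y : II a) : (kz a i y : ℝ) = ∏ s, sg (i s && y s) := by
  simp [kz, cast_sz]

lemma Hd_orth (a : ℕ) : Orth (Hd a) := by
  ext i j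
  have h := Finset.prod_univ_sum (fun _ : Fin a => (univ : Finset Bool)) fun s b => sg (b && i s) * sg (b && j s)
  rw [Fintype.piFinset_univ] at h
  have e : ((Hd a)ᵀ * Hd a) i j = hz a ^ 2 * ∑ y : II a, ∏ s, sg (y s && i s) * sg (y s && j s) := by
    simp only [mul_apply, transpose_apply, Hd, of_apply, cast_kz, Finset.mul_sum, Finset.prod_mul_distrib]
    exact Finset.sum_congr rfl fun _ _ => by ring
  rw [e, ← h, one_apply]
  split_ifs with hij
  · subst hij
    simp [sg_sq, one_add_one_eq_two, hz_sq]
  · obtain ⟨s, hs⟩ := Function.ne_iff.1 hij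
    rw [Finset.prod_eq_zero (mem_univ s), mul_zero]
    revert hs
    cases i s <;> cases j s <;> simp

lemma abs_Hd (i y : II a) : |Hd a i y| ≤ hz a := by
  rw [Hd, of_apply, abs_mul, abs_of_pos (hz_pos a)]
  refine mul_le_of_le_one_right (hz_pos a).le ?_
  exact_mod_cast abs_kz a i y

lemma Hd_left (i : II a) : Hd a i (fun _ => false) = hz a := by simp [Hd, cast_kz]
lemma Hd_right (i : II a) : Hd a (fun _ => false) i = hz a := by simp [Hd, cast_kz]

variable {k : ℕ} [NeZero k]

def lay (z : Fin k × II a → Bool) : ℕ → II a → ℤ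
  | 0, _ => 1
  | q + 1, i => ∑ y, kz a i y * (sz (z (Fin.ofNat k q, y)) * lay z q y)

def UU (z : Fin k × II a → Bool) (q t : ℕ) (i : II a) : ℤ := ∑ y, kz t i y * (sz (z (Fin.ofNat k q, y)) * lay z q y)

lemma lay_eq (z : Fin k × II a → Bool) (q : ℕ) (i : II a) :
    hz a ^ (q + 1) * lay z q i = Vf (Hd a) id z q i fun _ => false := by
  induction q generalizing i with
  | zero => simp [lay, Vf, Hd_left]
  | succ q ih =>
    rw [Vf_succ, lay]
    simp only [← ih]
    simp only [Hd, of_apply, Int.cast_sum, Int.cast_mul, cast_sz, Finset.mul_sum]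
    exact Finset.sum_congr rfl fun _ _ => by ring

lemma abs_step (t : ℕ) (i : II a) (s : II a → Bool) (u : II a → ℤ) {B : ℤ} (h : ∀ y, |u y| ≤ B) :
    |∑ y, kz t i y * (sz (s y) * u y)| ≤ 2 ^ a * B := by
  refine (Finset.abs_sum_le_sum_abs _ _).trans ((Finset.sum_le_card_nsmul _ _ B fun y _ => ?_).trans (by simp))
  rw [abs_mul, abs_mul, abs_sz, one_mul]
  exact (mul_le_of_le_one_left (abs_nonneg _) (abs_kz _ _ _)).trans (h y)

lemma abs_lay (z : Fin k × II a → Bool) (q : ℕ) (i : II a) : |lay z q i| ≤ (2 ^ a) ^ q := by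
  induction q generalizing i with
  | zero => simp [lay]
  | succ q ih => rw [lay, pow_succ']; exact abs_step _ _ _ _ ih

lemma abs_UU (z : Fin k × II a → Bool) (q : Fin k) (t : ℕ) (i : II a) : |UU z q t i| ≤ 2 ^ (a * k) := by
  refine (abs_step _ _ _ _ (abs_lay z q)).trans ?_
  rw [← pow_succ', ← pow_mul]
  exact pow_le_pow_right₀ one_le_two (Nat.mul_le_mul_left _ q.2)

/-- local checks of a fast Walsh transform transcript -/
def ck (z : Fin k × II a → Bool) (w : Fin k × Fin (a + 1) × II a → ℤ) (q : Fin k) (t : Fin (a + 1)) (i : II a) : Prop :=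
  Fin.cases (w (q, 0, i) = sz (z (q, i)) * if (q : ℕ) = 0 then 1 else w (Fin.ofNat k (q - 1), Fin.last a, i))
    (fun t => w (q, t.succ, i) = w (q, t.castSucc, Function.update i t false) +
      sz (i t) * w (q, t.castSucc, Function.update i t true)) t

lemma UU_zero (z : Fin k × II a → Bool) (q : ℕ) (i : II a) : UU z q 0 i = sz (z (Fin.ofNat k q, i)) * lay z q i := by
  simp [UU, kz_zero]

lemma UU_stage (z : Fin k × II a → Bool) (q : ℕ) (t : Fin a) (i : II a) : UU z q (t + 1) i =
    UU z q t (Function.update i t false) + sz (i t) * UU z q t (Function.update i t true) := by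
  simp only [UU, kz_stage, add_mul, Finset.sum_add_distrib, Finset.mul_sum, mul_assoc]

lemma ck_sound {z : Fin k × II a → Bool} {w : Fin k × Fin (a + 1) × II a → ℤ} (h : ∀ q t i, ck z w q t i)
    (q : ℕ) (hq : q < k) (i : II a) : w (Fin.ofNat k q, Fin.last a, i) = lay z (q + 1) i := by
  have key : ∀ q, q < k → (∀ i, (if q = 0 then 1 else w (Fin.ofNat k (q - 1), Fin.last a, i)) = lay z q i) →
      ∀ (t : Fin (a + 1)) i, w (Fin.ofNat k q, t, i) = UU z q t i := by
    intro q hq h0 t
    induction t using Fin.induction with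
    | zero =>
      intro i
      have := h (Fin.ofNat k q) 0 i
      simp only [ck, Fin.cases_zero, ofNat_val hq] at this
      rw [this, h0, Fin.val_zero, UU_zero]
    | succ t ih =>
      intro i
      have := h (Fin.ofNat k q) t.succ i
      simp only [ck, Fin.cases_succ] at this
      rw [this, ih, ih, Fin.val_succ, UU_stage]
      rfl
  induction q generalizing i with
  | zero => exact key 0 hq (fun _ => rfl) _ i
  | succ q ih => exact key _ hq (fun i => by simpa using ih (by omega) i) _ i

lemma ck_complete (z : Fin k × II a → Bool) (q : Fin k) (t : Fin (a + 1)) (i : II a) :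
    ck z (fun c => UU z c.1 c.2.1 c.2.2) q t i := by
  refine Fin.cases ?_ (fun t => ?_) t
  · simp only [ck, Fin.cases_zero, Fin.val_zero, UU_zero, Fin.ofNat_val_eq_self, Fin.val_last]
    congr 1
    have hq := q.2
    rcases h : (q : ℕ) with _ | m
    · rfl
    · rw [if_neg (by omega), ofNat_val (by omega)]; rfl
  · simp only [ck, Fin.cases_succ, Fin.val_succ, UU_stage, Fin.val_castSucc]

lemma exists_code (n : ℕ) : ∃ (enc : ℤ → Fin (n + 2) → Bool) (dec : (Fin (n + 2) → Bool) → ℤ),
    ∀ v, |v| ≤ 2 ^ n → dec (enc v) = v := by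
  classical
  have hc : Fintype.card (Finset.Icc (-(2 : ℤ) ^ n) (2 ^ n)) ≤ Fintype.card (Fin (n + 2) → Bool) := by
    simp only [Fintype.card_coe, Int.card_Icc, Fintype.card_fun, Fintype.card_bool, Fintype.card_fin]
    rw [Int.toNat_le]
    push_cast
    have : (0 : ℤ) < 2 ^ n := by positivity
    rw [pow_add]; omega
  obtain ⟨e⟩ := Function.Embedding.nonempty_of_card_le hc
  haveI : Nonempty (Finset.Icc (-(2 : ℤ) ^ n) (2 ^ n)) := ⟨⟨0, by simp⟩⟩
  refine ⟨fun v => if h : v ∈ Finset.Icc (-(2 : ℤ) ^ n) (2 ^ n) then e ⟨v, h⟩ else fun _ => false,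
    fun s => (Function.invFun e s).1, fun v hv => ?_⟩
  have h : v ∈ Finset.Icc (-(2 : ℤ) ^ n) (2 ^ n) := mem_Icc.2 (abs_le.1 hv)
  simp only [dif_pos h, Function.leftInverse_invFun e.injective _]

lemma Det.of_eq {ι Ω : Type} {q : ℕ} {g g' : (ι → Bool) → Ω} (h : Det q g) (e : ∀ x, g' x = g x) : Det q g' := by
  rw [funext e]; exact h

lemma sum_curry {J K : Type} [Fintype J] [DecidableEq J] [Fintype K] [DecidableEq K]
    (w : J → (K → Bool) → ℝ) (F : (J × K → Bool) → ℝ) :
    ∑ z : J × K → Bool, (∏ n, w n fun u => z (n, u)) * F z = Epi w fun y => F fun p => y p.1 p.2 :=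
  Fintype.sum_equiv (Equiv.curry J K Bool) _ _ fun _ => rfl

lemma Epi_coord {J X : Type} [Fintype J] [DecidableEq J] [Fintype X] {w : J → X → ℝ} (h : ∀ j, Prob (w j))
    (n : J) (g : X → ℝ) : Epi w (fun y => g (y n)) = ∑ u, w n u * g u := by
  rw [Epi_resample w n (h n).2]
  simp only [Function.update_self]
  exact (Epi_fd h).const _

theorem exists_gadget (l r s d : ℕ) {D0 D1 : (Fin k × II a → Bool) → ℝ} (p0 : Prob D0) (p1 : Prob D1)
    {η m δ e φ : ℝ} (hη : 0 ≤ η) (hind : ∀ F, Dep d F → |∑ z, D1 z * F z - ∑ z, D0 z * F z| ≤ η)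
    (hm0 : 0 ≤ m) (hm : m ≤ ∑ z, D1 z * forr (Hd a) (fun _ => false) z)
    (hs : ∑ z, D0 z * forr (Hd a) (fun _ => false) z ^ 2 ≤ hz a ^ 2) (hδ : 0 < δ)
    (he1 : (1 - (m / 2) ^ 2) ^ s ≤ e) (he2 : r * s * δ ≤ e) (he : l * e ≤ 1 / 4)
    (hφ1 : (1 - m / 2) ^ r ≤ φ) (hφ2 : r * (hz a ^ 2 / δ) ≤ φ) :
    Nonempty (Gadget ((Fin l × Fin r) × (Fin k × II a)) (Fin l → Bool)
      ((Fin l × Fin r) × (Fin k × Fin (a + 1) × II a) × Fin (a * k + 2))
      (Option ((Fin l × Fin r) × (Fin k × Fin (a + 1) × II a)))
      (l * (r * s * k)) ((l * r + 3) * (a * k + 2) + 1) d (l * r * η) (l * φ)) := by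
  classical
  obtain ⟨enc, dec, hcode⟩ := exists_code (a * k)
  have hk : k - 1 < k := Nat.sub_one_lt (NeZero.ne k)
  have hk1 : k - 1 + 1 = k := Nat.sub_add_cancel (Nat.pos_of_ne_zero (NeZero.ne k))
  set fin : Fin k × Fin (a + 1) × II a := (Fin.ofNat k (k - 1), Fin.last a, fun _ => false) with hfin
  let fi : (Fin l → Bool) → (Fin l × Fin r → ℝ) → Prop := fun α v =>
    ∀ j, if α j = true then ∃ i, (m / 2) ^ 2 ≤ v (j, i) ^ 2 else ∀ i, v (j, i) ^ 2 ≤ δ
  let ok : ((Fin l × Fin r) × (Fin k × II a) → Bool) → (Fin l → Bool) →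
      ((Fin l × Fin r) × (Fin k × Fin (a + 1) × II a) × Fin (a * k + 2) → Bool) →
      Option ((Fin l × Fin r) × (Fin k × Fin (a + 1) × II a)) → Bool := fun z α w κ =>
    match κ with
    | none => decide (fi α fun n => hz a ^ (k + 1) * dec fun b => w (n, fin, b))
    | some (n, q, t, i) => decide (ck (fun u => z (n, u)) (fun c => dec fun b => w (n, c, b)) q t i)
  have hacc := fun j : Fin l => Acc.any fun c : Fin r × Fin s =>
    acc_forr (k := k) (Hd_orth a) (fun _ => false) fun u => (((j, c.1), u) : (Fin l × Fin r) × (Fin k × II a))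
  obtain ⟨E, hE, eE⟩ := Acc.bits hacc
  have fr : ∀ z : Fin k × II a → Bool, 0 ≤ forr (Hd a) (fun _ => false) z ^ 2 ∧ forr (Hd a) (fun _ => false) z ^ 2 ≤ 1 :=
    (acc_forr (k := k) (Hd_orth a) (fun _ => false) id).range
  have hfv : ∀ z : Fin k × II a → Bool, hz a ^ (k + 1) * lay z k (fun _ => false) = forr (Hd a) (fun _ => false) z :=
    fun z => lay_eq z k _
  have pw : ∀ (α : Fin l → Bool) (n : Fin l × Fin r), Prob (if α n.1 = true then D1 else D0) := by
    intro α n; split_ifs <;> assumption
  refine ⟨{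
    ok := ok
    det := fun α κ => ?_
    E := E
    samp := hE.mono (by simp)
    sound := fun z α w h => ?_
    ν := fun α z => ∏ n, (if α n.1 = true then D1 else D0) fun u => z (n, u)
    ν0 := fun z => ∏ n : Fin l × Fin r, D0 fun u => z (n, u)
    prob := fun α => ⟨fun z => Finset.prod_nonneg fun n _ => (pw α n).1 _, ?_⟩
    prob0 := ⟨fun z => Finset.prod_nonneg fun n _ => p0.1 _, ?_⟩
    hide := fun α F hF => ?_
    pf := fun z p => enc (UU (fun u => z (p.1, u)) p.2.1.1 p.2.1.2.1 p.2.1.2.2) p.2.2
    good := fun α => ?_ }⟩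
  · rcases κ with _ | ⟨n, q, t, i⟩
    · exact ((Det.word fun p : (Fin l × Fin r) × Fin (a * k + 2) => Sum.inr (p.1, fin, p.2)).map fun s =>
        decide (fi α fun n => hz a ^ (k + 1) * dec fun b => s (n, b))).mono (by simp; nlinarith)
    · have hw := fun c : Fin k × Fin (a + 1) × II a =>
        Det.word (ι := ((Fin l × Fin r) × (Fin k × II a)) ⊕ ((Fin l × Fin r) × (Fin k × Fin (a + 1) × II a) × Fin (a * k + 2)))
          fun b : Fin (a * k + 2) => Sum.inr (n, c, b)
      refine Fin.cases ?_ (fun t => ?_) t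
      · refine ((((hw (q, 0, i)).pair (hw (Fin.ofNat k (q - 1), Fin.last a, i))).pair
          (Det.read (Sum.inl (n, q, i)))).map fun p =>
          decide (dec p.1.1 = sz p.2 * if (q : ℕ) = 0 then 1 else dec p.1.2)).mono (by simp only [Fintype.card_fin, add_mul (l * r)]; omega) |>.of_eq ?_
        intro x; simp only [ok, ck, Fin.cases_zero]
      · refine ((((hw (q, t.succ, i)).pair (hw (q, t.castSucc, Function.update i t false))).pair
          (hw (q, t.castSucc, Function.update i t true))).map fun p =>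
          decide (dec p.1.1 = dec p.1.2 + sz (i t) * dec p.2)).mono (by simp only [Fintype.card_fin, add_mul (l * r)]; omega) |>.of_eq ?_
        intro x; simp only [ok, ck, Fin.cases_succ]
  · have h1 : ∀ n, hz a ^ (k + 1) * (dec fun b => w (n, fin, b)) = forr (Hd a) (fun _ => false) fun u => z (n, u) := by
      intro n
      have := ck_sound (z := fun u => z (n, u)) (w := fun c => dec fun b => w (n, c, b))
        (fun q t i => of_decide_eq_true (h (some (n, q, t, i)))) (k - 1) hk fun _ => false
      rw [hk1] at this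
      rw [← hfv, ← this]
    have h2 : fi α fun n => hz a ^ (k + 1) * dec fun b => w (n, fin, b) := of_decide_eq_true (h none)
    simp only [h1] at h2
    refine le_trans ?_ (le_of_eq (Eq.trans (eE z α).symm (by congr!)))
    set b : Fin l → ℝ := fun j => 1 - ∏ c : Fin r × Fin s, (1 - forr (Hd a) (fun _ => false) (fun u => z ((j, c.1), u)) ^ 2)
      with hb
    have hbr : ∀ j, 0 ≤ b j ∧ b j ≤ 1 := fun j => (hacc j).range z
    have h3 := one_sub_sum_le univ (a := fun j => if α j = true then 1 - b j else b j)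
      (fun j => by split_ifs <;> linarith [hbr j]) fun j => by split_ifs <;> linarith [hbr j]
    have h4 := Finset.sum_le_card_nsmul univ (fun j => if α j = true then 1 - b j else b j) e fun j _ => by
      have h5 := h2 j
      split_ifs at h5 ⊢
      · obtain ⟨i, hi⟩ := h5
        simp only [hb, sub_sub_cancel, Fintype.prod_prod_type, Finset.prod_const, card_univ, Fintype.card_fin]
        refine (prod_le_one_factor (fun i => pow_nonneg (sub_nonneg.2 (fr _).2) s)
          (fun i => pow_le_one₀ (sub_nonneg.2 (fr _).2) (sub_le_self _ (fr _).1)) i).trans (le_trans ?_ he1)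
        exact pow_le_pow_left₀ (sub_nonneg.2 (fr _).2) (by linarith) s
      · have h6 := one_sub_sum_le univ (a := fun c : Fin r × Fin s =>
          forr (Hd a) (fun _ => false) (fun u => z ((j, c.1), u)) ^ 2) (fun _ => (fr _).1) fun _ => (fr _).2
        have h7 := Finset.sum_le_card_nsmul univ (fun c : Fin r × Fin s =>
          forr (Hd a) (fun _ => false) (fun u => z ((j, c.1), u)) ^ 2) δ fun c _ => h5 c.1
        simp only [card_univ, Fintype.card_prod, Fintype.card_fin, nsmul_eq_mul, Nat.cast_mul] at h7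
        simp only [hb]
        linarith
    simp only [card_univ, Fintype.card_fin, nsmul_eq_mul] at h4
    refine le_trans (by linarith) (h3.trans (le_of_eq (Finset.prod_congr rfl fun j _ => ?_)))
    split_ifs <;> simp [hb]
  · simpa [(Epi_fd (pw α)).const] using sum_curry (fun n : Fin l × Fin r => if α n.1 = true then D1 else D0) fun _ => 1
  · simpa [(Epi_fd fun _ : Fin l × Fin r => p0).const] using sum_curry (fun _ : Fin l × Fin r => D0) fun _ => 1
  · rw [sum_curry (fun n : Fin l × Fin r => if α n.1 = true then D1 else D0), sum_curry (fun _ : Fin l × Fin r => D0)]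
    refine (Epi_hybrid (pw α) (fun _ => p0) (η := η) fun n y => ?_).trans (by simp)
    split_ifs
    · have := hF.subst fun p => if p.1 = n then Sum.inr p.2 else Sum.inl (y p.1 p.2)
      convert hind _ this using 6 with u _ u <;> ext p <;> by_cases h : p.1 = n <;> simp [h]
    · simpa using hη
  · rw [sum_curry (fun n : Fin l × Fin r => if α n.1 = true then D1 else D0)]
    have hφ : ∀ j, Epi (fun n : Fin l × Fin r => if α n.1 = true then D1 else D0) (fun y => if α j = true then
        ∏ n : Fin l × Fin r, (if n.1 = j then if (m / 2) ^ 2 ≤ forr (Hd a) (fun _ => false) (y n) ^ 2 then 0 else 1 else 1)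
        else ∑ i, forr (Hd a) (fun _ => false) (y (j, i)) ^ 2 / δ) ≤ φ := by
      intro j
      split_ifs with hj
      · rw [Epi_prod _ fun (n : Fin l × Fin r) u =>
          if n.1 = j then if (m / 2) ^ 2 ≤ forr (Hd a) (fun _ => false) u ^ 2 then 0 else 1 else 1,
          Fintype.prod_prod_type, Finset.prod_eq_single j (fun j' _ h => by
            simp only [if_neg h, mul_one]; exact Finset.prod_eq_one fun i _ => (pw α (j', i)).2) (by simp)]
        simp only [hj, if_true, Finset.prod_const, card_univ, Fintype.card_fin]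
        refine le_trans (pow_le_pow_left₀ (p1.fd.nonneg fun u => by positivity) ?_ r) hφ1
        have := p1.fd.mono (φ := fun u => forr (Hd a) (fun _ => false) u) (ψ := fun u => (1 + m / 2) -
          if (m / 2) ^ 2 ≤ forr (Hd a) (fun _ => false) u ^ 2 then 0 else 1) fun u => by
          split_ifs with h
          · linarith [(abs_le.1 (abs_forr (Hd_orth a) (fun _ => false) u)).2]
          · have := abs_lt_of_sq_lt_sq' (not_le.1 h) (by linarith)
            linarith [this.2]
        have h2 := p1.fd.sub (fun _ => 1 + m / 2) fun u =>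
          if (m / 2) ^ 2 ≤ forr (Hd a) (fun _ => false) u ^ 2 then 0 else 1
        have h3 := p1.fd.const (1 + m / 2)
        beta_reduce at this h2 h3
        linarith
      · rw [Epi_sum]
        refine le_trans ((Finset.sum_le_card_nsmul _ _ (hz a ^ 2 / δ) fun i _ => ?_).trans (by simp)) hφ2
        rw [Epi_coord (pw α) (j, i) fun u => forr (Hd a) (fun _ => false) u ^ 2 / δ]
        simp only [if_neg hj, ← mul_div_assoc, ← Finset.sum_div]
        gcongr
    refine le_trans ((Epi_fd (pw α)).mono fun y => ?_) ((le_of_eq (Epi_sum univ _ _)).trans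
      ((Finset.sum_le_card_nsmul _ _ φ fun j _ => hφ j).trans (by simp)))
    have n1 : ∀ j, (0 : ℝ) ≤ if α j = true then
        ∏ n : Fin l × Fin r, (if n.1 = j then if (m / 2) ^ 2 ≤ forr (Hd a) (fun _ => false) (y n) ^ 2 then 0 else 1 else 1)
        else ∑ i, forr (Hd a) (fun _ => false) (y (j, i)) ^ 2 / δ := fun j => by positivity
    split_ifs with h
    · exact Finset.sum_nonneg fun j _ => n1 j
    · have h1 : ¬ fi α fun n => forr (Hd a) (fun _ => false) (y n) := by
        intro h2
        refine h fun κ => ?_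
        rcases κ with _ | ⟨n, q, t, i⟩
        · refine decide_eq_true ?_
          simp only [hcode _ (abs_UU _ _ _ _)]
          have e3 : ∀ n, hz a ^ (k + 1) * (UU (fun u => y n u) fin.1 fin.2.1 fin.2.2 : ℝ) =
              forr (Hd a) (fun _ => false) (y n) := by
            intro n
            have e4 : lay (y n) (k - 1 + 1) (fun _ => false) = UU (y n) (k - 1) a fun _ => false := rfl
            rw [hk1] at e4
            rw [← hfv, e4]
            simp only [hfin, ofNat_val hk, Fin.val_last]
          simp only [e3]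
          exact h2
        · refine decide_eq_true ?_
          simp only [hcode _ (abs_UU _ _ _ _)]
          exact ck_complete _ q t i
      simp only [fi, not_forall] at h1
      obtain ⟨j, hj⟩ := h1
      refine le_trans ?_ (Finset.single_le_sum (fun j _ => n1 j) (mem_univ j))
      split_ifs at hj ⊢
      · push Not at hj
        refine le_of_eq (Finset.prod_eq_one fun n _ => ?_).symm
        split_ifs with h3 h4
        · have := hj n.2
          rw [← h3] at this
          exact absurd h4 (not_le.2 this)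
        · rfl
        · rfl
      · push Not at hj
        obtain ⟨i, hi⟩ := hj
        refine le_trans ?_ (Finset.single_le_sum (f := fun i => forr (Hd a) (fun _ => false) (y (j, i)) ^ 2 / δ)
          (fun _ _ => by positivity) (mem_univ i))
        rw [one_le_div hδ]; exact hi.le

end

end Vale.Agent.P362b
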