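import Vale.Agent.P362b.FG

namespace Vale.Agent.P362b

open Finset MeasureTheory ProbabilityTheory MvPolynomial Matrix

noncomputable section

/-- standard Gaussian measure -/
abbrev gam (G : Type) [Fintype G] : Measure (G → ℝ) := Measure.pi fun _ => gaussianReal 0 1

/-- Gaussian moments -/
def mo (n : ℕ) : ℝ := ∫ x, x ^ n ∂gaussianReal 0 1

lemma mo_succ (n : ℕ) : mo (n + 1) = n * mo (n - 1) := by
  have h : ∀ n, mo n = iteratedDeriv n (fun t : ℝ => Real.exp (t ^ 2 / 2)) 0 := fun n => by
    have := iteratedDeriv_mgf_zero (X := id) (μ := gaussianReal 0 1) (by simp) n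
    rw [mgf_id_gaussianReal] at this
    simpa [mo] using this.symm
  have h1 : deriv (fun t : ℝ => Real.exp (t ^ 2 / 2)) = fun t => t * Real.exp (t ^ 2 / 2) := by
    ext t
    rw [(((hasDerivAt_pow 2 t).div_const 2).exp).deriv]
    simp [mul_comm]
  rw [h, h, iteratedDeriv_succ', h1, iteratedDeriv_fun_mul (by fun_prop) (by fun_prop)]
  simp only [iteratedDeriv_fun_id_zero, mul_ite, ite_mul, mul_zero, zero_mul, mul_one,
    Finset.sum_ite_eq', Finset.mem_range, Nat.choose_one_right]
  cases n <;> simp

lemma int_pow (n : ℕ) : Integrable (fun x : ℝ => x ^ n) (gaussianReal 0 1) := by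
  have := ((memLp_id_gaussianReal' (μ := 0) (v := 1) n (by simp)).integrable_norm_pow')
  refine this.mono' (by fun_prop) (ae_of_all _ fun x => by simp)

variable {G : Type} [Fintype G]

lemma ev_monomial (x : G → ℝ) (s : G →₀ ℕ) (a : ℝ) :
    aeval x (monomial s a) = a * ∏ i, x i ^ s i := by
  simp [aeval_monomial, Finsupp.prod_fintype]

lemma int_ev (p : MvPolynomial G ℝ) : Integrable (fun x => aeval x p) (gam G) := by
  induction p using MvPolynomial.induction_on' with
  | monomial s a =>
    simp only [ev_monomial]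
    exact (Integrable.fintype_prod (f := fun i (x : ℝ) => x ^ s i) fun i => int_pow _).const_mul a
  | add p q h1 h2 => simp only [map_add]; exact h1.add h2

/-- Gaussian expectation of a polynomial -/
def EE : MvPolynomial G ℝ →ₗ[ℝ] ℝ where
  toFun p := ∫ x, aeval x p ∂gam G
  map_add' p q := by simp only [map_add]; exact integral_add (int_ev p) (int_ev q)
  map_smul' c p := by simp only [map_smul, smul_eq_mul, integral_const_mul, RingHom.id_apply]

lemma EE_apply (p : MvPolynomial G ℝ) : EE p = ∫ x, aeval x p ∂gam G := rfl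

lemma EE_monomial (s : G →₀ ℕ) (a : ℝ) : EE (monomial s a) = a * ∏ i, mo (s i) := by
  simp only [EE_apply, ev_monomial, integral_const_mul]
  rw [integral_fintype_prod_eq_prod (fun i (x : ℝ) => x ^ s i)]
  rfl

lemma stein (i : G) (p : MvPolynomial G ℝ) : EE (X i * p) = EE (pderiv i p) := by
  classical
  induction p using MvPolynomial.induction_on' with
  | monomial s a =>
    rw [pderiv_monomial, X, monomial_mul, EE_monomial, EE_monomial,
      ← Finset.mul_prod_erase _ _ (Finset.mem_univ i), ← Finset.mul_prod_erase _ _ (Finset.mem_univ i),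
      Finset.prod_congr rfl (g := fun j => mo (s j)),
      Finset.prod_congr rfl (f := fun j => mo ((s - Finsupp.single i 1 : G →₀ ℕ) j))
        (g := fun j => mo (s j))]
    · simp [add_comm 1, mo_succ, mul_assoc]
    all_goals
      intro j hj
      simp [Finset.ne_of_mem_erase hj]
  | add p q h1 h2 => simp only [mul_add, map_add, h1, h2]

lemma EE_C_mul (c : ℝ) (p : MvPolynomial G ℝ) : EE (C c * p) = c * EE p := by
  rw [← smul_eq_C_mul, map_smul, smul_eq_mul]

lemma gam_orth [DecidableEq G] {O : Matrix G G ℝ} (hO : Orth O) {φ : (G → ℝ) → ℝ} (hφ : Continuous φ) :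
    ∫ x, φ (O *ᵥ x) ∂gam G = ∫ x, φ x ∂gam G := by
  let f : EuclideanSpace ℝ G ≃ₗᵢ[ℝ] EuclideanSpace ℝ G :=
    ((Matrix.toEuclideanLin O).isometryOfInner fun a b => by
      simp only [EuclideanSpace.inner_eq_star_dotProduct, ofLp_toLpLin, star_trivial, toLin'_apply]
      rw [dotProduct_mulVec, vecMul_mulVec, hO, vecMul_one]).toLinearIsometryEquiv rfl
  have h1 : ∀ ψ : (G → ℝ) → ℝ, Continuous ψ →
      ∫ x, ψ x ∂gam G = ∫ y, ψ y.ofLp ∂stdGaussian (EuclideanSpace ℝ G) := by
    intro ψ hψ
    rw [← map_pi_eq_stdGaussian, integral_map (by fun_prop) (by fun_prop)]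
  rw [h1 _ hφ, h1 (fun x => φ (O *ᵥ x)) (by fun_prop)]
  conv_rhs => rw [← stdGaussian_map f, integral_map (by fun_prop) (by fun_prop)]
  rfl

lemma deriv_prod {A : Type} [CommRing A] [Algebra ℝ A] (D : Derivation ℝ A A) {K : Type} [DecidableEq K]
    (s : Finset K) (f : K → A) : D (∏ u ∈ s, f u) = ∑ u ∈ s, D (f u) * ∏ v ∈ s.erase u, f v := by
  induction s using Finset.induction_on with
  | empty => simp
  | insert i s hi ih =>
    rw [Finset.prod_insert hi, Finset.sum_insert hi, Derivation.leibniz, ih, erase_insert hi, smul_eq_mul,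
      smul_eq_mul, Finset.mul_sum, add_comm, mul_comm]
    congr 1
    refine Finset.sum_congr rfl fun u hu => ?_
    rw [erase_insert_of_ne (by rintro rfl; exact hi hu), Finset.prod_insert (fun h => hi (mem_of_mem_erase h))]
    ring

lemma hasDeriv_prod {A : Type} [CommRing A] [Algebra ℝ A] {K : Type} [DecidableEq K] (s : Finset K)
    (a b : K → A) (t : ℝ) : ∀ L : A →ₗ[ℝ] ℝ, HasDerivAt (fun t : ℝ => L (∏ u ∈ s, (a u + t • b u)))
      (∑ u ∈ s, L (b u * ∏ v ∈ s.erase u, (a v + t • b v))) t := by
  induction s using Finset.induction_on with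
  | empty => intro L; simpa using hasDerivAt_const t _
  | insert i s hi ih =>
    intro L
    have h1 := ih (L.comp (LinearMap.mulLeft ℝ (a i)))
    have h2 := (hasDerivAt_id t).mul (ih (L.comp (LinearMap.mulLeft ℝ (b i))))
    have h3 := h1.add h2
    refine (h3.congr_deriv (Eq.symm ?_)).congr_of_eventuallyEq (Filter.Eventually.of_forall fun t => ?_)
    swap
    · simp [Finset.prod_insert hi, add_mul]
    · rw [Finset.sum_insert hi, erase_insert hi]
      simp only [LinearMap.comp_apply, LinearMap.mulLeft_apply, id, one_mul, Finset.mul_sum]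
      rw [add_left_comm, ← Finset.sum_add_distrib]
      congr 1
      refine Finset.sum_congr rfl fun u hu => ?_
      rw [erase_insert_of_ne (by rintro rfl; exact hi hu), Finset.prod_insert (fun h => hi (mem_of_mem_erase h)),
        ← smul_eq_mul t, ← map_smul, ← map_add]
      congr 1
      simp only [Algebra.smul_def]
      ring

lemma gauss_tail (G : Type) [Fintype G] (c : ℝ) (h : ℕ) :
    ∫ x, ∏ u, (1 + (c * x u) ^ h) ^ 2 ∂gam G =
      (1 + 2 * c ^ h * mo h + c ^ (2 * h) * mo (2 * h)) ^ Fintype.card G := by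
  rw [integral_fintype_prod_eq_prod (fun (_ : G) (x : ℝ) => (1 + (c * x) ^ h) ^ 2)]
  simp only [Finset.prod_const, card_univ]
  congr 1
  have : ∀ x : ℝ, (1 + (c * x) ^ h) ^ 2 = 1 + 2 * c ^ h * x ^ h + c ^ (2 * h) * x ^ (2 * h) := by
    intro x; ring
  simp only [this]
  rw [integral_add (f := fun x => 1 + 2 * c ^ h * x ^ h) ((integrable_const _).add ((int_pow h).const_mul _))
    ((int_pow _).const_mul _),
    integral_add (integrable_const _) ((int_pow h).const_mul _), integral_const_mul, integral_const_mul]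
  simp [mo]

end

end Vale.Agent.P362b
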