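import Vale.Agent.P362b.Alg

namespace Vale.Agent.P362b

open Finset

noncomputable section

section
variable {ι : Type} [DecidableEq ι]

/-- queried positions -/
def qs : DT ι → (ι → Bool) → Finset ι
  | .leaf _, _ => ∅
  | .node i l r, x => insert i (if x i = true then qs r x else qs l x)

lemma card_qs (T : DT ι) (x : ι → Bool) : (qs T x).card ≤ T.depth := by
  induction T with
  | leaf b => simp [qs]
  | node i l r h0 h1 =>
    rw [qs, DT.depth]
    refine (card_insert_le _ _).trans ?_
    split_ifs <;> omega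

lemma eval_congr (T : DT ι) {x y : ι → Bool} (h : ∀ i ∈ qs T x, y i = x i) : T.eval y = T.eval x := by
  induction T with
  | leaf b => rfl
  | node i l r h0 h1 =>
    simp only [qs, mem_insert, forall_eq_or_imp] at h
    rw [DT.eval, DT.eval, h.1]
    split_ifs with hx
    · exact h1 (by simpa [hx] using h.2)
    · exact h0 (by simpa [hx] using h.2)

lemma mem_qs_update (T : DT ι) (x : ι → Bool) (i : ι) (b : Bool) :
    i ∈ qs T (Function.update x i b) ↔ i ∈ qs T x := by
  induction T with
  | leaf b => simp [qs]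
  | node j l r h0 h1 =>
    by_cases h : i = j
    · simp [qs, h]
    · simp only [qs, mem_insert, h, false_or, Function.update_of_ne (Ne.symm h)]
      split_ifs <;> assumption

/-- number of queries in a set of positions -/
def cnt (p : ι → Bool) : DT ι → (ι → Bool) → ℕ
  | .leaf _, _ => 0
  | .node i l r, x => (if x i = true then cnt p r x else cnt p l x) + if p i = true then 1 else 0

lemma sum_cnt {C : Type} [Fintype C] [DecidableEq C] (col : ι → Option C) (T : DT ι) (x : ι → Bool) :
    ∑ c, cnt (fun i => decide (col i = some c)) T x ≤ T.depth := by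
  induction T with
  | leaf b => simp [cnt]
  | node i l r h0 h1 =>
    simp only [cnt, DT.depth, Finset.sum_add_distrib, decide_eq_true_eq]
    have : ∑ c, (if col i = some c then 1 else 0) ≤ 1 := by
      cases col i <;> simp
    split_ifs <;> omega

lemma dep_trunc {D : Type} (m : ι → Bool ⊕ D) (T : DT ι) : ∀ (d : ℕ) (h : Finset ι → ℝ), (∀ s, |h s| ≤ 1) →
    Dep d fun z : D → Bool => if cnt (fun i => (m i).isRight) T (fun i => (m i).elim id z) ≤ d
      then h (qs T fun i => (m i).elim id z) else 0 := by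
  induction T with
  | leaf b => intro d h hh; simpa [cnt, qs] using Dep.leaf d _ (hh ∅)
  | node i l r h0 h1 =>
    intro d h hh
    obtain ⟨b, hm⟩ | ⟨u, hm⟩ : (∃ b, m i = .inl b) ∨ ∃ u, m i = .inr u := by
      cases m i <;> simp
    · cases b
      · simpa [cnt, qs, hm] using h0 d (fun s => h (insert i s)) fun s => hh _
      · simpa [cnt, qs, hm] using h1 d (fun s => h (insert i s)) fun s => hh _
    · cases d with
      | zero => simpa [cnt, hm] using Dep.leaf 0 0 (by simp)
      | succ d =>
        have := Dep.node d u _ _ (h0 d (fun s => h (insert i s)) fun s => hh _)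
          (h1 d (fun s => h (insert i s)) fun s => hh _)
        convert this using 2 with z
        cases hz : z u <;> simp [cnt, qs, hm, hz]

end

variable {a : ℕ} {D A P C : Type}

def x0 (v : II a × II a → Bool) (z : II a → D → Bool) : Pos a D A P → Bool
  | .inl p => v p
  | .inr (.inl p) => z p.1 p.2
  | .inr (.inr _) => false

open Classical in
def zr (v : II a × II a → Bool) (c : II a) : II a := if h : ∃ ρ, v (c, ρ) = false then h.choose else c

variable [DecidableEq A]

def x1 (v : II a × II a → Bool) (z : II a → D → Bool) (b : II a) (α : A) (w : P → Bool) : Pos a D A P → Bool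
  | .inl p => decide (p.1 = b) || v p
  | .inr (.inl p) => z p.1 p.2
  | .inr (.inr (β, none)) => decide (β = α)
  | .inr (.inr (β, some (.inl p))) => decide (β = α) && zr v p.1 p.2
  | .inr (.inr (β, some (.inr u))) => decide (β = α) && w u

variable [Fintype D] [DecidableEq D] {q r d : ℕ} {η φ : ℝ} (G : Gadget D A P C q r d η φ)

lemma fn_x0 (v : II a × II a → Bool) (z : II a → D → Bool) : fn G (x0 v z) = false := by
  classical
  refine decide_eq_false ?_
  rintro ⟨c, α, h⟩
  simpa [chk, x0] using h none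

lemma fn_x1 (v : II a × II a → Bool) (z : II a → D → Bool) (b : II a) (α : A) (w : P → Bool)
    (h1 : ∀ c, ∃ ρ, v (c, ρ) = false) (h2 : ∀ κ, G.ok (z b) α w κ = true) : fn G (x1 v z b α w) = true := by
  classical
  refine decide_eq_true ⟨b, α, fun κ => ?_⟩
  rcases κ with _ | ρ | c | κ
  · simp [chk, x1]
  · simp [chk, x1]
  · by_cases h : c = b
    · simp [chk, h]
    · have := (h1 c).choose_spec
      simp [chk, kill, x1, h, zr, h1 c, this]
  · simpa [chk, x1] using h2 κ

def colOf : Pos a D A P → Option (II a)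
  | .inr (.inl p) => some p.1
  | _ => none

def adOf : Pos a D A P → Option A
  | .inr (.inr p) => some p.1
  | _ => none

def hit (α : A) (s : Finset (Pos a D A P)) : ℝ := if ∃ i ∈ s, adOf i = some α then 1 else 0

lemma sum_hit [Fintype A] (s : Finset (Pos a D A P)) : ∑ α, hit α s ≤ s.card := by
  have h1 : ∀ α, hit α s ≤ ∑ i ∈ s, if adOf i = some α then (1 : ℝ) else 0 := by
    intro α
    unfold hit
    split_ifs with h
    · obtain ⟨i, hi, e⟩ := h
      refine le_trans (by simp [e]) (Finset.single_le_sum (f := fun i => if adOf i = some α then (1 : ℝ) else 0)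
        (fun _ _ => by positivity) hi)
    · exact Finset.sum_nonneg fun _ _ => by positivity
  refine (Finset.sum_le_sum fun α _ => h1 α).trans ?_
  rw [Finset.sum_comm]
  refine (Finset.sum_le_card_nsmul _ _ 1 fun i _ => ?_).trans (by simp)
  cases adOf i <;> simp

variable [DecidableEq (Pos a D A P)]

lemma diff_le (hd : 0 < d) (T : DT (Pos a D A P)) (v : II a × II a → Bool) (z : II a → D → Bool) (b : II a)
    (α : A) (w : P → Bool) : ind (T.eval (x1 v z b α w)) - ind (T.eval (x0 v z)) ≤
      (∑ ρ, if .inl (b, ρ) ∈ qs T (x0 v z) then 1 - ind (v (b, ρ)) else 0) +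
      (cnt (fun i => decide (colOf i = some b)) T (x0 v z) : ℝ) / d +
      if cnt (fun i => decide (colOf i = some b)) T (x0 v z) ≤ d then hit α (qs T (x0 v z)) else 0 := by
  have hd' : (0 : ℝ) < d := by exact_mod_cast hd
  have n1 : ∀ ρ, (0 : ℝ) ≤ if .inl (b, ρ) ∈ qs T (x0 v z) then 1 - ind (v (b, ρ)) else 0 := fun ρ => by
    split_ifs
    · exact sub_nonneg.2 (ind_le_one _)
    · exact le_rfl
  have p1 := Finset.sum_nonneg fun ρ (_ : ρ ∈ univ) => n1 ρ
  have p2 : (0 : ℝ) ≤ (cnt (fun i => decide (colOf i = some b)) T (x0 v z) : ℝ) / d := by positivity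
  have p3 : (0 : ℝ) ≤ if cnt (fun i => decide (colOf i = some b)) T (x0 v z) ≤ d then hit α (qs T (x0 v z)) else 0 := by
    unfold hit; positivity
  have p4 : ind (T.eval (x1 v z b α w)) - ind (T.eval (x0 v z)) ≤ 1 := by
    linarith [ind_le_one (T.eval (x1 v z b α w)), ind_nonneg (T.eval (x0 v z))]
  by_cases h : ∀ i ∈ qs T (x0 v z), x1 v z b α w i = x0 v z i
  · rw [eval_congr T h]; linarith
  push Not at h
  obtain ⟨i, hi, e⟩ := h
  by_cases h2 : adOf i = some α
  · split_ifs with h3
    · rw [hit, if_pos ⟨i, hi, h2⟩]; linarith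
    · have : (1 : ℝ) ≤ (cnt (fun i => decide (colOf i = some b)) T (x0 v z) : ℝ) / d := by
        rw [one_le_div hd']; exact_mod_cast (not_le.1 h3).le
      linarith
  · rcases i with ⟨c, ρ⟩ | p | ⟨β, s⟩
    · have : c = b ∧ v (c, ρ) = false := by
        revert e; simp only [x1, x0]
        cases v (c, ρ) <;> simp
      obtain ⟨rfl, h4⟩ := this
      have := Finset.single_le_sum (fun ρ _ => n1 ρ) (mem_univ ρ)
      rw [if_pos hi, h4, ind_false] at this
      linarith
    · exact absurd rfl e
    · have h5 : β ≠ α := by simpa [adOf] using h2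
      rcases s with _ | p | u <;> simp [x1, x0, h5] at e

/-- column entries -/
def wv (a : ℕ) (p : ℝ) : II a × II a → Bool → ℝ := fun _ b => if b = true then 1 - p else p

lemma wv_prob {p : ℝ} (h0 : 0 ≤ p) (h1 : p ≤ 1) (u : II a × II a) : Prob (wv a p u) :=
  ⟨fun b => by cases b <;> simp [wv, h0, h1], by simp [wv]⟩

lemma zero_bound {p : ℝ} (h0 : 0 ≤ p) (h1 : p ≤ 1) (T : DT (Pos a D A P)) (z : II a → D → Bool) :
    Epi (wv a p) (fun v => ∑ b, ∑ ρ, if .inl (b, ρ) ∈ qs T (x0 v z) then 1 - ind (v (b, ρ)) else 0) ≤ p * T.depth := by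
  have fd := Epi_fd (wv_prob (a := a) h0 h1)
  have e : ∀ u : II a × II a, Epi (wv a p) (fun v => if .inl u ∈ qs T (x0 v z) then 1 - ind (v u) else 0) =
      Epi (wv a p) fun v => p * if .inl u ∈ qs T (x0 v z) then 1 else 0 := by
    intro u
    rw [Epi_resample _ u (wv_prob h0 h1 u).2]
    congr 1; ext v
    have : ∀ b, (x0 (Function.update v u b) z : Pos a D A P → Bool) = Function.update (x0 v z) (.inl u) b := by
      intro b; ext i
      rcases i with p | p | p
      · by_cases h : p = u <;> simp [x0, h]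
      · simp [x0]
      · simp [x0]
    simp [this, mem_qs_update, wv]
  simp only [← Fintype.sum_prod_type']
  rw [Epi_sum]
  simp only [e]
  rw [← Epi_sum]
  refine fd.le_const fun v => ?_
  rw [← Finset.mul_sum]
  refine mul_le_mul_of_nonneg_left ?_ h0
  have h2 : (univ.filter fun u : II a × II a => (.inl u : Pos a D A P) ∈ qs T (x0 v z)).card ≤ (qs T (x0 v z)).card :=
    Finset.card_le_card_of_injOn Sum.inl (fun u hu => by simpa using hu) fun _ _ _ _ h => Sum.inl_injective h
  rw [Finset.sum_boole]
  exact_mod_cast h2.trans (card_qs _ _)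

variable [Fintype A] [Nonempty A]

/-- address and data of a column -/
def mu (y : A × (D → Bool)) : ℝ := G.ν y.1 y.2 / Fintype.card A

lemma mu_prob : Prob (mu G) := by
  have hc : (0 : ℝ) < Fintype.card A := by exact_mod_cast Fintype.card_pos
  refine ⟨fun y => div_nonneg ((G.prob _).1 _) hc.le, ?_⟩
  simp only [Fintype.sum_prod_type, mu, ← Finset.sum_div, fun α => (G.prob α).2]
  simp

lemma hit_bound (T : DT (Pos a D A P)) (v : II a × II a → Bool) (b : II a) :
    Epi (fun _ : II a => mu G) (fun y => if cnt (fun i => decide (colOf i = some b)) T (x0 v fun c => (y c).2) ≤ d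
      then hit (y b).1 (qs T (x0 v fun c => (y c).2)) else 0) ≤ T.depth / Fintype.card A + η := by
  have hc : (0 : ℝ) < Fintype.card A := by exact_mod_cast Fintype.card_pos
  rw [Epi_resample _ b (mu_prob G).2]
  refine (Epi_fd fun _ => mu_prob G).le_const fun y => ?_
  set m : Pos a D A P → Bool ⊕ D := fun i => match i with
    | .inr (.inl p) => if p.1 = b then .inr p.2 else .inl ((y p.1).2 p.2)
    | i => .inl (x0 v (fun c => (y c).2) i) with hm
  have e1 : (fun i => decide (colOf i = some b)) = fun i => (m i).isRight := by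
    ext i
    rcases i with p | p | p
    · simp [colOf, hm]
    · by_cases h : p.1 = b <;> simp [colOf, hm, h]
    · simp [colOf, hm]
  have e2 : ∀ u : A × (D → Bool), (x0 v fun c => (Function.update y b u c).2) = fun i => (m i).elim id u.2 := by
    intro u; ext i
    rcases i with p | p | p
    · simp [x0, hm]
    · by_cases h : p.1 = b <;> simp [x0, hm, h]
    · simp [x0, hm]
  simp only [e1, e2, Function.update_self, Fintype.sum_prod_type, mu, div_mul_eq_mul_div, ← Finset.sum_div]
  have h1 := fun α => (abs_le.1 (G.hide α _ (dep_trunc m T d (hit α) fun s => by unfold hit; split_ifs <;> simp))).2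
  have h2 : ∑ α : A, ∑ z, G.ν0 z * (if cnt (fun i => (m i).isRight) T (fun i => (m i).elim id z) ≤ d
      then hit α (qs T fun i => (m i).elim id z) else 0) ≤ T.depth := by
    rw [Finset.sum_comm]
    simp only [← Finset.mul_sum]
    refine G.prob0.fd.le_const fun z => ?_
    split_ifs
    · exact (sum_hit _).trans (by exact_mod_cast card_qs _ _)
    · simp
  have h3 := Finset.sum_le_card_nsmul univ _ _ fun α _ => h1 α
  rw [Finset.sum_sub_distrib, card_univ, nsmul_eq_mul] at h3
  rw [div_le_iff₀ hc, add_mul, div_mul_cancel₀ _ hc.ne']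
  linarith

/-- expectation over the hard input pairs -/
def EX (a : ℕ) (p : ℝ) (F : (II a × II a → Bool) → (II a → A × (D → Bool)) → II a → ℝ) : ℝ :=
  Epi (wv a p) fun v => Epi (fun _ : II a => mu G) fun y => ∑ b, F v y b

lemma tree_bound (hd : 0 < d) {p : ℝ} (h0 : 0 ≤ p) (h1 : p ≤ 1) (T : DT (Pos a D A P)) :
    EX G a p (fun v y b => ind (T.eval (x1 v (fun c => (y c).2) b (y b).1 (G.pf (y b).2))) -
      ind (T.eval (x0 v fun c => (y c).2))) ≤ p * T.depth + T.depth / d + 2 ^ a * (T.depth / Fintype.card A + η) := by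
  have hd' : (0 : ℝ) < d := by exact_mod_cast hd
  have f1 := Epi_fd (wv_prob (a := a) h0 h1)
  have f2 := Epi_fd fun _ : II a => mu_prob G
  refine (f1.mono fun v => f2.mono fun y => Finset.sum_le_sum fun b _ => diff_le hd T v _ b _ _).trans ?_
  simp only [Finset.sum_add_distrib, Epi_add]
  refine add_le_add (add_le_add ?_ ?_) ?_
  · rw [f1.swap f2]
    exact f2.le_const fun y => zero_bound h0 h1 T _
  · refine f1.le_const fun v => f2.le_const fun y => ?_
    rw [← Finset.sum_div]
    gcongr
    exact_mod_cast sum_cnt colOf T _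
  · refine f1.le_const fun v => ?_
    rw [Epi_sum]
    refine (Finset.sum_le_card_nsmul _ _ _ fun b _ => hit_bound G T v b).trans ?_
    simp [mul_add]

lemma fail_bound {p : ℝ} (h0 : 0 ≤ p) (h1 : p ≤ 1) :
    EX G a p (fun v y b => 1 - ind (fn G (x1 v (fun c => (y c).2) b (y b).1 (G.pf (y b).2)))) ≤
      2 ^ a * (2 ^ a * (1 - p) ^ 2 ^ a + φ) := by
  classical
  have hc : (0 : ℝ) < Fintype.card A := by exact_mod_cast Fintype.card_pos
  have f1 := Epi_fd (wv_prob (a := a) h0 h1)
  have f2 := Epi_fd fun _ : II a => mu_prob G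
  have key : ∀ (v : II a × II a → Bool) (y : II a → A × (D → Bool)) b,
      1 - ind (fn G (x1 v (fun c => (y c).2) b (y b).1 (G.pf (y b).2))) ≤
      (∑ c, ∏ u : II a × II a, if u.1 = c then ind (v u) else 1) +
        if ∀ κ, G.ok (y b).2 (y b).1 (G.pf (y b).2) κ = true then 0 else 1 := by
    intro v y b
    have n1 : ∀ c, (0 : ℝ) ≤ ∏ u : II a × II a, if u.1 = c then ind (v u) else 1 := fun c =>
      Finset.prod_nonneg fun u _ => by split_ifs <;> simp [ind_nonneg]
    have n2 := Finset.sum_nonneg fun c (_ : c ∈ univ) => n1 c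
    have n3 := ind_nonneg (fn G (x1 v (fun c => (y c).2) b (y b).1 (G.pf (y b).2)))
    split_ifs with h2
    · by_cases h3 : ∀ c, ∃ ρ, v (c, ρ) = false
      · rw [fn_x1 G v _ b _ _ h3 h2, ind_true]; linarith
      · push Not at h3
        obtain ⟨c, h4⟩ := h3
        have := Finset.single_le_sum (fun c _ => n1 c) (mem_univ c)
        rw [Finset.prod_eq_one fun u _ => by
          split_ifs with h5
          · have := h4 u.2
            rw [← h5] at this
            simp only [Prod.mk.eta, ne_eq, Bool.not_eq_false] at this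
            simp [this]
          · rfl] at this
        linarith
    · linarith
  refine (f1.mono fun v => f2.mono fun y => Finset.sum_le_sum fun b _ => key v y b).trans ?_
  simp only [Finset.sum_add_distrib, Epi_add, mul_add]
  refine add_le_add (le_of_eq ?_) ?_
  · simp only [f2.const, Finset.sum_const, card_univ, nsmul_eq_mul, Epi_mul, Epi_sum]
    have : ∀ c : II a, Epi (wv a p) (fun v => ∏ u : II a × II a, if u.1 = c then ind (v u) else 1) = (1 - p) ^ 2 ^ a := by
      intro c
      rw [Epi_prod _ fun (u : II a × II a) b => if u.1 = c then ind b else 1, Fintype.prod_prod_type,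
        Finset.prod_eq_single c (fun c' _ h => by simp [h, wv]) (by simp)]
      simp [wv]
    simp [this]
  · refine f1.le_const fun v => ?_
    rw [Epi_sum]
    refine (Finset.sum_le_card_nsmul _ _ φ fun b _ => ?_).trans (by simp)
    rw [Epi_resample _ b (mu_prob G).2]
    refine f2.le_const fun y => ?_
    simp only [Function.update_self, Fintype.sum_prod_type, mu, div_mul_eq_mul_div, ← Finset.sum_div]
    rw [div_le_iff₀ hc]
    refine (Finset.sum_le_card_nsmul _ _ φ fun α _ => ?_).trans (by simp [mul_comm])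
    convert G.good α

theorem hard (hd : 0 < d) {p : ℝ} (h0 : 0 ≤ p) (h1 : p ≤ 1) {ι : Type} (s : Finset ι) (T : ι → DT (Pos a D A P))
    (w : ι → ℝ) (hw0 : ∀ t ∈ s, 0 ≤ w t) (hw1 : ∑ t ∈ s, w t = 1) {n : ℕ} (hn : ∀ t ∈ s, (T t).depth ≤ n)
    (hx : ∀ x, (2 : ℝ) / 3 ≤ ∑ t ∈ s, if (T t).eval x = fn G x then w t else 0) :
    2 ^ a * (1 / 3 - 2 / 3 * (2 ^ a * (1 - p) ^ 2 ^ a + φ)) ≤
      p * n + n / d + 2 ^ a * (n / Fintype.card A + η) := by
  have hd' : (0 : ℝ) < d := by exact_mod_cast hd
  have f1 := Epi_fd (wv_prob (a := a) h0 h1)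
  have f2 := Epi_fd fun _ : II a => mu_prob G
  have a1 : ∀ x, 2 / 3 * ind (fn G x) ≤ ∑ t ∈ s, w t * ind ((T t).eval x) := by
    intro x
    have := hx x
    cases h : fn G x
    · simpa using Finset.sum_nonneg fun t ht => mul_nonneg (hw0 t ht) (ind_nonneg _)
    · simpa [h, ind] using this
  have a0 : ∀ x, fn G x = false → ∑ t ∈ s, w t * ind ((T t).eval x) ≤ 1 / 3 := by
    intro x h
    have := hx x
    have e : ∑ t ∈ s, w t * ind ((T t).eval x) = ∑ t ∈ s, (w t - if (T t).eval x = fn G x then w t else 0) := by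
      refine Finset.sum_congr rfl fun t _ => ?_
      rw [h]
      cases (T t).eval x <;> simp
    rw [e, Finset.sum_sub_distrib, hw1]
    linarith
  have b1 : EX G a p (fun v y b => 1 / 3 - 2 / 3 * (1 - ind (fn G (x1 v (fun c => (y c).2) b (y b).1 (G.pf (y b).2))))) ≤
      EX G a p fun v y b => ∑ t ∈ s, w t * (ind ((T t).eval (x1 v (fun c => (y c).2) b (y b).1 (G.pf (y b).2))) -
        ind ((T t).eval (x0 v fun c => (y c).2))) := by
    refine f1.mono fun v => f2.mono fun y => Finset.sum_le_sum fun b _ => ?_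
    simp only [mul_sub, Finset.sum_sub_distrib]
    linarith [a1 (x1 v (fun c => (y c).2) b (y b).1 (G.pf (y b).2)), a0 _ (fn_x0 G v fun c => (y c).2)]
  have b2 : EX G a p (fun v y b => ∑ t ∈ s, w t * (ind ((T t).eval (x1 v (fun c => (y c).2) b (y b).1 (G.pf (y b).2))) -
      ind ((T t).eval (x0 v fun c => (y c).2)))) ≤ ∑ t ∈ s, w t * (p * n + n / d + 2 ^ a * (n / Fintype.card A + η)) := by
    unfold EX
    simp only [Finset.sum_comm (t := s), ← Finset.mul_sum, Epi_sum, Epi_mul]
    refine Finset.sum_le_sum fun t ht => mul_le_mul_of_nonneg_left ?_ (hw0 t ht)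
    have := tree_bound G hd h0 h1 (T t)
    simp only [EX, Epi_sum] at this
    refine this.trans ?_
    have : ((T t).depth : ℝ) ≤ n := by exact_mod_cast hn t ht
    gcongr
  rw [← Finset.sum_mul, hw1, one_mul] at b2
  have b3 := fail_bound G (a := a) h0 h1
  refine le_trans ?_ (b1.trans b2)
  unfold EX at b3 ⊢
  simp only [Finset.sum_sub_distrib, ← Finset.mul_sum, Epi_sub, Epi_mul, f1.const, f2.const] at b3 ⊢
  simp only [Finset.sum_const, card_univ, Fintype.card_fun, Fintype.card_bool, Fintype.card_fin, nsmul_eq_mul,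
    Nat.cast_pow, Nat.cast_ofNat] at b3 ⊢
  linarith

end

end Vale.Agent.P362b
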