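import Vale.Agent.P362b.Gad

namespace Vale.Agent.P362b

open Finset Matrix

noncomputable section

lemma exists_pow_ge (c1 c2 : ℕ) : ∃ s, c1 * s + c2 ≤ 2 ^ s := by
  refine ⟨2 * (2 * c1 + c2), ?_⟩
  have h := Nat.lt_two_pow_self (n := 2 * c1 + c2)
  rw [mul_comm 2 (2 * c1 + c2), pow_mul]
  nlinarith

lemma one_sub_pow_le {y : ℝ} (h0 : 0 ≤ y) (h1 : y ≤ 1) (n : ℕ) : (1 - y) ^ n * (1 + n * y) ≤ 1 := by
  have h2 := one_add_mul_le_pow (a := y) (by linarith) n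
  calc (1 - y) ^ n * (1 + n * y) ≤ (1 - y) ^ n * (1 + y) ^ n :=
        mul_le_mul_of_nonneg_left h2 (pow_nonneg (by linarith) n)
    _ = (1 - y ^ 2) ^ n := by rw [← mul_pow]; ring
    _ ≤ 1 := pow_le_one₀ (by nlinarith) (by nlinarith)

lemma one_sub_pow_le' {y e : ℝ} (h0 : 0 ≤ y) (h1 : y ≤ 1) (n : ℕ) (he : 0 ≤ e) (h : 1 ≤ e * (n * y)) :
    (1 - y) ^ n ≤ e := by
  have h2 := one_sub_pow_le h0 h1 n
  have h3 : 0 ≤ (1 - y) ^ n := pow_nonneg (by linarith) n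
  by_contra hc
  push Not at hc
  have : 0 ≤ n * y := by positivity
  nlinarith

lemma one_sub_pow_half {y : ℝ} (h0 : 0 ≤ y) (h1 : y ≤ 1) (n m : ℕ) (h : 1 ≤ n * y) :
    (1 - y) ^ (n * m) * 2 ^ m ≤ 1 := by
  have h2 := one_sub_pow_le h0 h1 n
  have h3 : 0 ≤ (1 - y) ^ n := pow_nonneg (by linarith) n
  rw [pow_mul, ← mul_pow]
  exact pow_le_one₀ (by positivity) (by nlinarith)

lemma one_add_pow_le {y : ℝ} (n : ℕ) (h : n * |y| ≤ 1 / 2) : (1 + y) ^ n - 1 ≤ 2 * (n * |y|) := by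
  rcases Nat.eq_zero_or_pos n with rfl | hn
  · simp
  have hn' : (1 : ℝ) ≤ n := by exact_mod_cast hn
  have h0 := abs_nonneg y
  have h1 : |y| ≤ 1 / 2 := by nlinarith
  have h2 : (1 + y) ^ n ≤ (1 + |y|) ^ n :=
    pow_le_pow_left₀ (by linarith [neg_abs_le y]) (by linarith [le_abs_self y]) n
  have h3 := one_add_mul_le_pow (a := -|y|) (by linarith) n
  have h4 : (1 + |y|) ^ n * (1 + -|y|) ^ n ≤ 1 := by
    rw [← mul_pow]; exact pow_le_one₀ (by nlinarith) (by nlinarith)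
  have h5 : 0 ≤ (1 + |y|) ^ n := by positivity
  have h6 := mul_le_mul_of_nonneg_left h3 h5
  have h7 : 0 ≤ n * |y| := by positivity
  nlinarith

theorem dist (k e : ℕ) [NeZero k] (hk : 9 ≤ k) (he : e + k + 4 = k ^ 2) : ∃ c : ℝ, ∀ s : ℕ, c ≤ 2 ^ s →
    ∃ D0 D1 : (Fin k × II (2 * k ^ 2 * s) → Bool) → ℝ, Prob D0 ∧ Prob D1 ∧
    (∀ F, Dep ((2 ^ s) ^ (2 * e)) F → |∑ z, D1 z * F z - ∑ z, D0 z * F z| ≤ 1 / (32 * (2 ^ s) ^ (2 * k + 1))) ∧
    1 / (2 * ((2 : ℝ) ^ s) ^ (2 * (k - 1))) ≤ ∑ z, D1 z * forr (Hd _) (fun _ => false) z ∧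
    ∑ z, D0 z * forr (Hd _) (fun _ => false) z ^ 2 ≤ hz (2 * k ^ 2 * s) ^ 2 := by
  have n2 : 2 * k + 2 ≤ 2 * k ^ 3 := by nlinarith [Nat.pow_le_pow_left hk 2]
  have n3 : k ^ 2 ≤ 2 * k ^ 3 := by nlinarith
  have n4 : 2 * k ≤ k ^ 2 := by nlinarith
  have n5 : ∀ j, j + 1 = k → k ^ 2 * j = e * k + 1 + (4 * j + 3) := by
    intro j hj
    have : k ^ 2 * k = (e + k + 4) * k := by rw [he]
    subst hj; nlinarith
  set h := 2 * (k ^ 3 + k ^ 2 + 1) with hh
  set c1 : ℝ := 2 * 2 ^ h * |mo h| + 2 ^ (2 * h) * |mo (2 * h)| with hc1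
  set c2 : ℝ := 4 * (4 * 3 ^ k ^ 3) ^ k with hc2
  have hc10 : 0 ≤ c1 := by positivity
  have hc20 : 0 ≤ c2 := by positivity
  refine ⟨128 + 2 * k * c1 + c2, fun s hs => ?_⟩
  obtain ⟨j, hj⟩ : ∃ j, j + 1 = k := ⟨k - 1, by omega⟩
  set M : ℝ := 2 ^ s with hM
  set a := 2 * k ^ 2 * s with ha
  have hkc : 0 ≤ 2 * k * c1 := by positivity
  have hdM : (((2 ^ s) ^ (2 * e) : ℕ) : ℝ) = M ^ (2 * e) := by rw [hM]; push_cast; rfl
  have hhe : Even h := even_two_mul _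
  have hh0 : h ≠ 0 := by positivity
  have M128 : 128 ≤ M := by linarith
  have M1 : 1 ≤ M := by linarith
  have M0 : 0 < M := by linarith
  have pw : ∀ {i j : ℕ}, i ≤ j → M ^ i ≤ M ^ j := fun h => pow_le_pow_right₀ M1 h
  have hN : (Fintype.card (II a) : ℝ) = M ^ (2 * k ^ 2) := by
    simp only [Fintype.card_fun, Fintype.card_bool, Fintype.card_fin, Nat.cast_pow, Nat.cast_ofNat, hM, ha]
    rw [← pow_mul, mul_comm s]
  have h0 : hz a = 1 / M ^ k ^ 2 := by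
    have : (2 : ℝ) ^ a = (M ^ k ^ 2) ^ 2 := by rw [hM, ← pow_mul, ← pow_mul, ha]; congr 1; ring
    rw [hz, this, Real.sqrt_sq (by positivity), one_div]
  clear_value M c1 c2 h
  have hε : EE (Pe (k := k) (Hd a) (1 / M) h) ≤ 1 / M ^ (2 * k ^ 3) := by
    refine (EE_Pe (Hd a) (1 / M) hhe (Hd_orth a) (by omega)).trans ?_
    set y := 2 * (2 * (1 / M)) ^ h * mo h + (2 * (1 / M)) ^ (2 * h) * mo (2 * h) with hy
    have hy1 : |y| ≤ c1 / M ^ h := by
      refine (abs_add_le _ _).trans ?_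
      rw [abs_mul, abs_mul, abs_mul, abs_two, abs_of_nonneg (by positivity : 0 ≤ (2 * (1 / M)) ^ h),
        abs_of_nonneg (by positivity : 0 ≤ (2 * (1 / M)) ^ (2 * h)), hc1, add_div, mul_one_div, div_pow, div_pow]
      refine add_le_add (le_of_eq (by ring)) ?_
      rw [div_mul_eq_mul_div]
      gcongr
      omega
    have hy2 : 2 * ((Fintype.card (Fin k × II a) : ℝ) * |y|) ≤ 1 / M ^ (2 * k ^ 3) := by
      rw [Fintype.card_prod, Fintype.card_fin, Nat.cast_mul, hN]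
      calc 2 * (k * M ^ (2 * k ^ 2) * |y|) ≤ 2 * (k * M ^ (2 * k ^ 2) * (c1 / M ^ h)) := by gcongr
        _ = (2 * k * c1) / M ^ 2 * (1 / M ^ (2 * k ^ 3)) := by rw [hh]; field_simp; ring
        _ ≤ 1 * (1 / M ^ (2 * k ^ 3)) := by
          gcongr
          rw [div_le_one (by positivity)]; nlinarith
        _ = _ := one_mul _
    have hy3 : 1 / M ^ (2 * k ^ 3) ≤ 1 := by rw [div_le_one (by positivity)]; exact one_le_pow₀ M1
    rw [add_assoc]
    exact (one_add_pow_le _ (by linarith)).trans hy2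
  have hsec := Dt_second (1 / M) hj (Hd_orth a) Hd_left
  refine ⟨Dt (Hd a) (1 / M) 0, Dt (Hd a) (1 / M) 1, Dt_prob _ _ _, Dt_prob _ _ _, fun F hF => ?_, ?_, hsec.le⟩
  · set T : ℝ := 3 ^ k ^ 3 * M ^ e with hT
    have T1 : 1 ≤ T := one_le_mul_of_one_le_of_one_le (one_le_pow₀ (by norm_num)) (one_le_pow₀ M1)
    have := Dt_indist (1 / M) hj abs_Hd (p := 2 * k ^ 3) (even_two_mul _) (by positivity) (by positivity)
      (T := T) (B := 3 * (2 * T + 2) ^ k * M) T1 (le_of_eq (by rw [hdM, hT]; ring)) (by positivity)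
      (by
        rw [hN, mul_pow, mul_pow, ← pow_mul, ← pow_mul, ← pow_mul, mul_comm k (2 * k ^ 3),
          show 2 * k ^ 2 * k = 2 * k ^ 3 by ring]
        gcongr
        exact le_self_pow₀ (by norm_num) (by positivity))
      (hz_pos a).le hhe hh0 hε hF
    refine this.trans ?_
    have e1 : (Fintype.card (II a) : ℝ) ^ k * (1 / M ^ (2 * k ^ 3)) = 1 := by
      rw [hN, ← pow_mul, show 2 * k ^ 2 * k = 2 * k ^ 3 by ring]; field_simp
    have e2 : 3 * (2 * T + 2) ^ k * M + 1 ≤ c2 * M ^ (e * k + 1) := by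
      have h1 : (2 * T + 2) ^ k ≤ (4 * T) ^ k := pow_le_pow_left₀ (by positivity) (by linarith) k
      have h2 : 1 ≤ (4 * T) ^ k * M := one_le_mul_of_one_le_of_one_le (one_le_pow₀ (by linarith)) M1
      have h3 : c2 * M ^ (e * k + 1) = 4 * ((4 * T) ^ k * M) := by rw [hc2, hT]; ring
      nlinarith
    have e3 : (1 / M) ^ (2 * j) ≤ 1 := pow_le_one₀ (by positivity) (by rw [div_le_one M0]; exact M1)
    have e4 : hz a ^ j * (c2 * M ^ (e * k + 1)) = c2 / M ^ (4 * j + 3) := by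
      rw [h0, div_pow, ← pow_mul, n5 j hj]; field_simp; ring
    have e5 : c2 / M ^ (4 * j + 3) ≤ 1 / (64 * M ^ (2 * k + 1)) := by
      rw [div_le_div_iff₀ (by positivity) (by positivity)]
      calc c2 * (64 * M ^ (2 * k + 1)) ≤ M * (M * M ^ (2 * k + 1)) := by gcongr <;> linarith
        _ = M ^ (2 * k + 3) := by ring
        _ ≤ _ := by rw [one_mul]; exact pw (by omega)
    have e6 : 2 * (1 / M ^ (2 * k ^ 3)) ≤ 1 / (64 * M ^ (2 * k + 1)) := by
      rw [mul_one_div, div_le_div_iff₀ (by positivity) (by positivity)]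
      calc 2 * (64 * M ^ (2 * k + 1)) ≤ M * M ^ (2 * k + 1) := by nlinarith [pow_pos M0 (2 * k + 1)]
        _ = M ^ (2 * k + 2) := by ring
        _ ≤ _ := by rw [one_mul]; exact pw n2
    rw [e1]
    have e7 : (1 / M) ^ (2 * j) * (hz a ^ j * (3 * (2 * T + 2) ^ k * M + 1)) ≤ 1 * (hz a ^ j * (c2 * M ^ (e * k + 1))) := by
      have := hz_pos a
      gcongr
    have e8 : 1 / (32 * M ^ (2 * k + 1)) = 2 * (1 / (64 * M ^ (2 * k + 1))) := by field_simp; ring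
    linarith
  · have hm := Dt_mean (1 / M) hj (Hd_orth a) Hd_left Hd_right
      (by simpa using hz_sq a) hhe hh0 hε
    have hp := hz_pos a
    have h1 := (Dt_prob (k := k) (Hd a) (1 / M) 0).fd.mono
      (φ := fun z => -hz a / 2 - 1 / (2 * hz a) * forr (Hd a) (fun _ => false) z ^ 2)
      (ψ := fun z => forr (Hd a) (fun _ => false) z) fun z => by
      rw [← sub_nonneg]
      have : forr (Hd a) (fun _ => false) z - (-hz a / 2 - 1 / (2 * hz a) * forr (Hd a) (fun _ => false) z ^ 2) =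
        (forr (Hd a) (fun _ => false) z + hz a) ^ 2 / (2 * hz a) := by field_simp; ring
      rw [this]; positivity
    rw [(Dt_prob (k := k) (Hd a) (1 / M) 0).fd.sub, (Dt_prob (k := k) (Hd a) (1 / M) 0).fd.const,
      (Dt_prob (k := k) (Hd a) (1 / M) 0).fd.mul] at h1
    beta_reduce at h1
    rw [hsec, show 1 / (2 * hz a) * hz a ^ 2 = hz a / 2 by field_simp] at h1
    have e1 : 1 / M ^ (2 * k ^ 3) ≤ hz a := by
      rw [h0]; exact one_div_le_one_div_of_le (by positivity) (pw n3)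
    have e2 : 3 * hz a ≤ 1 / (2 * M ^ (2 * j)) := by
      rw [h0, mul_one_div, div_le_div_iff₀ (by positivity) (by positivity)]
      calc 3 * (2 * M ^ (2 * j)) ≤ M * M ^ (2 * j) := by nlinarith [pow_pos M0 (2 * j)]
        _ = M ^ (2 * j + 1) := by ring
        _ ≤ _ := by rw [one_mul]; exact pw (by omega)
    have e3 : (1 / M) ^ (2 * j) = 2 * (1 / (2 * M ^ (2 * j))) := by rw [div_pow, one_pow]; field_simp
    rw [show k - 1 = j by omega]
    linarith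

end

end Vale.Agent.P362b
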