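import Vale.Agent.P362b.Main

namespace Vale.Agent.P362b

open Finset Matrix

noncomputable section

/-- relabelling the variables of a tree -/
def DT.map {ι ι' : Type} (g : ι → ι') : DT ι → DT ι'
  | .leaf b => .leaf b
  | .node i l r => .node (g i) (l.map g) (r.map g)

lemma DT.eval_map {ι ι' : Type} (g : ι → ι') (T : DT ι) (y : ι' → Bool) :
    (T.map g).eval y = T.eval fun i => y (g i) := by
  induction T with
  | leaf b => rfl
  | node i l r h0 h1 => simp only [DT.map, DT.eval, h0, h1]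

lemma DT.depth_map {ι ι' : Type} (g : ι → ι') (T : DT ι) : (T.map g).depth = T.depth := by
  induction T with
  | leaf b => rfl
  | node i l r h0 h1 => simp only [DT.map, DT.depth, h0, h1]

lemma rand_R {n : ℕ} (f : (Fin n → Bool) → Bool) : RandComputes f (R f) := by
  obtain ⟨t, h1, h2⟩ := exists_tree f
  exact Nat.sInf_mem (s := {d | RandComputes f d}) ⟨_, rand_of_tree h1 h2⟩

lemma quant_of_acc {ι : Type} {n q : ℕ} (hn : 1 ≤ n) (e : ι → Fin n) {acc : (ι → Bool) → ℝ} (h : Acc q acc)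
    (f : (Fin n → Bool) → Bool) (h1 : ∀ x, f x = true → 2 / 3 ≤ acc fun i => x (e i))
    (h0 : ∀ x, f x = false → acc (fun i => x (e i)) ≤ 1 / 3) : QuantComputes f q := by
  obtain ⟨E, hE, he⟩ := h
  refine quant_of_samp hn e hE f fun x => ?_
  cases hf : f x
  · have := (hE.fd fun i => x (e i)).sub (fun _ => 1) ind
    rw [(hE.fd _).const, he] at this
    have e2 : (fun b => if b = false then (1 : ℝ) else 0) = fun b => 1 - ind b := by
      ext b; cases b <;> simp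
    rw [e2, this]
    linarith [h0 x hf]
  · exact (h1 x hf).trans_eq (he _).symm

lemma quant_Q {n : ℕ} (hn : 1 ≤ n) (f : (Fin n → Bool) → Bool) : QuantComputes f (Q f) := by
  refine Nat.sInf_mem (s := {d | QuantComputes f d}) ⟨_, quant_of_acc hn id
    ((Det.word (id : Fin n → Fin n)).map f).acc f (fun x h => ?_) fun x h => ?_⟩
  · simp only [id, h, ind_true]; norm_num
  · simp only [id, h, ind_false]; norm_num

theorem gad (k e : ℕ) [NeZero k] (hk : 9 ≤ k) (he : e + k + 4 = k ^ 2) : ∃ c : ℝ, ∀ s : ℕ, c ≤ 2 ^ s →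
    ∀ l : ℕ, l ≤ 2 ^ s → Nonempty (Gadget ((Fin l × Fin ((2 ^ s) ^ (2 * k))) × (Fin k × II (2 * k ^ 2 * s))) (Fin l → Bool)
      ((Fin l × Fin ((2 ^ s) ^ (2 * k))) × (Fin k × Fin (2 * k ^ 2 * s + 1) × II (2 * k ^ 2 * s)) × Fin (2 * k ^ 2 * s * k + 2))
      (Option ((Fin l × Fin ((2 ^ s) ^ (2 * k))) × (Fin k × Fin (2 * k ^ 2 * s + 1) × II (2 * k ^ 2 * s))))
      (l * ((2 ^ s) ^ (2 * k) * (2 ^ s) ^ (4 * k) * k)) ((l * (2 ^ s) ^ (2 * k) + 3) * (2 * k ^ 2 * s * k + 2) + 1)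
      ((2 ^ s) ^ (2 * e)) (l * ((2 ^ s) ^ (2 * k) : ℕ) * (1 / (32 * (2 ^ s) ^ (2 * k + 1)))) (l * (1 / (16 * 2 ^ s)))) := by
  obtain ⟨c, hc⟩ := dist k e hk he
  refine ⟨max c 64, fun s hs l hl => ?_⟩
  obtain ⟨D0, D1, p0, p1, h1, h2, h3⟩ := hc s ((le_max_left _ _).trans hs)
  have n4 : 8 * k + 4 ≤ 2 * k ^ 2 := by nlinarith
  obtain ⟨j, hj⟩ : ∃ j, k = j + 1 := ⟨k - 1, by omega⟩
  have h0 : hz (2 * k ^ 2 * s) ^ 2 = 1 / ((2 : ℝ) ^ s) ^ (2 * k ^ 2) := by
    rw [eq_div_iff (by positivity), ← pow_mul, mul_comm s]; exact hz_sq _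
  have hl' : (l : ℝ) ≤ 2 ^ s := by exact_mod_cast hl
  have M64 : (64 : ℝ) ≤ 2 ^ s := (le_max_right _ _).trans hs
  rw [show k - 1 = j by omega] at h2
  have c2 : (((2 ^ s) ^ (2 * k) : ℕ) : ℝ) = (2 ^ s) ^ (2 * j + 2) := by push_cast; rw [hj]; ring
  have c4 : (((2 ^ s) ^ (4 * k) : ℕ) : ℝ) = (2 ^ s) ^ (4 * j + 4) := by push_cast; rw [hj]; ring
  generalize (2 : ℝ) ^ s = M at M64 hl' c2 c4 h0 h1 h2 ⊢
  have M1 : 1 ≤ M := by linarith
  have M0 : 0 < M := by linarith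
  have X1 : 1 ≤ M ^ (2 * j) := one_le_pow₀ M1
  refine exists_gadget l _ _ _ p0 p1 (δ := 1 / M ^ (6 * j + 8)) (e := 1 / (4 * M)) (by positivity) h1
    (by positivity) h2 h3 (by positivity) ?_ ?_ ?_ ?_ ?_
  · refine one_sub_pow_le' (by positivity) (pow_le_one₀ (by positivity) ?_) _ (by positivity) ?_
    · rw [div_div, div_le_one (by positivity)]; linarith
    · rw [c4, show 1 / (4 * M) * (M ^ (4 * j + 4) * (1 / (2 * M ^ (2 * j)) / 2) ^ 2) = M ^ 3 / 64 by field_simp; ring,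
        one_le_div (by norm_num)]
      exact M64.trans (le_self_pow₀ M1 (by norm_num))
  · rw [c2, c4, show M ^ (2 * j + 2) * M ^ (4 * j + 4) * (1 / M ^ (6 * j + 8)) = 1 / (M * M) by field_simp; ring]
    exact one_div_le_one_div_of_le (by positivity) (by nlinarith)
  · rw [mul_one_div, div_le_div_iff₀ (by positivity) (by positivity)]; linarith
  · refine one_sub_pow_le' (by positivity) ?_ _ (by positivity) ?_
    · rw [div_div, div_le_one (by positivity)]; linarith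
    · rw [c2, show 1 / (16 * M) * (M ^ (2 * j + 2) * (1 / (2 * M ^ (2 * j)) / 2)) = M / 64 by field_simp; ring,
        one_le_div (by norm_num)]
      exact M64
  · rw [c2, h0, show M ^ (2 * j + 2) * (1 / M ^ (2 * k ^ 2) / (1 / M ^ (6 * j + 8))) =
      M ^ (8 * j + 10) / M ^ (2 * k ^ 2) by field_simp; ring, div_le_div_iff₀ (by positivity) (by positivity)]
    calc M ^ (8 * j + 10) * (16 * M) ≤ M ^ (8 * j + 10) * (M * M) := by gcongr; linarith
      _ = M ^ (8 * k + 4) := by rw [hj]; ring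
      _ ≤ _ := by rw [one_mul]; exact pow_le_pow_right₀ M1 n4

end

end Vale.Agent.P362b
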