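import Vale.Agent.P362b.Circ

namespace Vale.Agent.P362b

open Finset

noncomputable section

variable {ι Ω Ω' : Type}

/-- finitely supported distributions as expectation functionals -/
def IsFD (E : (Ω → ℝ) → ℝ) : Prop :=
  ∃ (Y : Type) (_ : Fintype Y) (a : Y → ℝ) (out : Y → Ω), (∀ y, 0 ≤ a y) ∧ ∑ y, a y = 1 ∧
    ∀ φ, E φ = ∑ y, a y * φ (out y)

lemma Samp.fd {q : ℕ} {E : (ι → Bool) → (Ω → ℝ) → ℝ} (h : Samp q E) (x : ι → Bool) : IsFD (E x) := by
  obtain ⟨Y, _, _, V, y0, out, hV, e⟩ := h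
  exact ⟨Y, _, fun y => V x y y0 ^ 2, out, fun _ => sq_nonneg _, (hV.orth x).col y0, e x⟩

namespace IsFD
variable {E : (Ω → ℝ) → ℝ}

lemma mono (h : IsFD E) {φ ψ : Ω → ℝ} (hle : ∀ ω, φ ω ≤ ψ ω) : E φ ≤ E ψ := by
  obtain ⟨Y, _, a, out, h0, _, e⟩ := h
  rw [e, e]
  exact Finset.sum_le_sum fun y _ => mul_le_mul_of_nonneg_left (hle _) (h0 y)

lemma add (h : IsFD E) (φ ψ : Ω → ℝ) : E (fun ω => φ ω + ψ ω) = E φ + E ψ := by
  obtain ⟨Y, _, a, out, _, _, e⟩ := h
  simp only [e, mul_add, Finset.sum_add_distrib]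

lemma sub (h : IsFD E) (φ ψ : Ω → ℝ) : E (fun ω => φ ω - ψ ω) = E φ - E ψ := by
  obtain ⟨Y, _, a, out, _, _, e⟩ := h
  simp only [e, mul_sub, Finset.sum_sub_distrib]

lemma mul (h : IsFD E) (c : ℝ) (φ : Ω → ℝ) : E (fun ω => c * φ ω) = c * E φ := by
  obtain ⟨Y, _, a, out, _, _, e⟩ := h
  simp only [e, Finset.mul_sum, mul_left_comm]

lemma mul' (h : IsFD E) (c : ℝ) (φ : Ω → ℝ) : E (fun ω => φ ω * c) = E φ * c := by
  simpa only [mul_comm] using h.mul c φ

lemma const (h : IsFD E) (c : ℝ) : E (fun _ => c) = c := by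
  obtain ⟨Y, _, a, out, _, h1, e⟩ := h
  rw [e, ← Finset.sum_mul, h1, one_mul]

lemma swap {E' : (Ω' → ℝ) → ℝ} (h : IsFD E) (h' : IsFD E') (φ : Ω → Ω' → ℝ) :
    E (fun ω => E' fun ω' => φ ω ω') = E' fun ω' => E fun ω => φ ω ω' := by
  obtain ⟨Y, _, a, out, _, _, e⟩ := h
  obtain ⟨Y', _, a', out', _, _, e'⟩ := h'
  simp only [e, e', Finset.mul_sum]
  rw [Finset.sum_comm]
  simp only [mul_left_comm]

lemma nonneg (h : IsFD E) {φ : Ω → ℝ} (h0 : ∀ ω, 0 ≤ φ ω) : 0 ≤ E φ :=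
  (h.const 0).symm.trans_le (h.mono h0)

lemma le_const (h : IsFD E) {φ : Ω → ℝ} {c : ℝ} (h0 : ∀ ω, φ ω ≤ c) : E φ ≤ c :=
  (h.mono h0).trans_eq (h.const c)

lemma point [DecidableEq Ω] (h : IsFD E) {ω0 : Ω} (h1 : E (fun ω => if ω = ω0 then 1 else 0) = 1) (φ : Ω → ℝ) :
    E φ = φ ω0 := by
  obtain ⟨Y, _, a, out, h0, hs, e⟩ := h
  have h2 : ∑ y, a y * (if out y = ω0 then 0 else 1) = 0 := by
    rw [e] at h1
    have : ∀ y, a y * (if out y = ω0 then (0 : ℝ) else 1) = a y - a y * (if out y = ω0 then 1 else 0) := by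
      intro y; split_ifs <;> simp
    simp only [this, Finset.sum_sub_distrib, hs, h1, sub_self]
  have h3 := (Finset.sum_eq_zero_iff_of_nonneg (fun y _ => mul_nonneg (h0 y) (by split_ifs <;> simp))).1 h2
  rw [e, ← one_mul (φ ω0), ← hs, Finset.sum_mul]
  refine Finset.sum_congr rfl fun y _ => ?_
  have := h3 y (mem_univ _)
  by_cases h : out y = ω0
  · rw [h]
  · simp only [if_neg h, mul_one] at this
    simp [this]

end IsFD

/-- indicator of a bit -/
def ind (b : Bool) : ℝ := if b = true then 1 else 0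

@[simp] lemma ind_true : ind true = 1 := rfl
@[simp] lemma ind_false : ind false = 0 := by simp [ind]
lemma ind_nonneg (b : Bool) : 0 ≤ ind b := by cases b <;> simp
lemma ind_le_one (b : Bool) : ind b ≤ 1 := by cases b <;> simp
lemma sg_eq (b : Bool) : sg b = 1 - 2 * ind b := by cases b <;> simp; norm_num
lemma ind_not (b : Bool) : ind (!b) = 1 - ind b := by cases b <;> simp

lemma seq_amp (p : ℕ → ℝ) (h0 : 0 ≤ p 0) (h1 : p 0 ≤ 1) (hs : ∀ j, p (j + 1) = (3 - 4 * p j) ^ 2 * p j)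
    {K : ℝ} {J : ℕ} (hK : K < 9 ^ (J + 1)) (hp : 1 ≤ K * p 0) : ∃ j ≤ J, 2 / 27 ≤ p j := by
  have key : ∀ i, 9 ^ i * p 0 ≤ 1 → 9 ^ i * p 0 * (1 - 9 ^ i * p 0 / 3) ≤ p i ∧ p i ≤ 9 ^ i * p 0 := by
    intro i
    induction i with
    | zero => intro _; constructor <;> nlinarith
    | succ i ih =>
      intro h
      have hu : (0 : ℝ) ≤ 9 ^ i * p 0 := by positivity
      have e : (9 : ℝ) ^ (i + 1) * p 0 = 9 * (9 ^ i * p 0) := by ring
      rw [e] at h ⊢
      obtain ⟨h2, h3⟩ := ih (by linarith)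
      set u := 9 ^ i * p 0
      have h4 : 0 ≤ p i := le_trans (mul_nonneg hu (by linarith)) h2
      rw [hs]
      constructor
      · have h5 : 9 - 24 * u ≤ (3 - 4 * p i) ^ 2 := by nlinarith
        calc 9 * u * (1 - 9 * u / 3) ≤ (9 - 24 * u) * (u * (1 - u / 3)) := by nlinarith [mul_nonneg hu (mul_nonneg hu hu)]
          _ ≤ _ := mul_le_mul h5 h2 (mul_nonneg hu (by linarith)) (sq_nonneg _)
      · have h5 : (3 - 4 * p i) ^ 2 ≤ 9 := by nlinarith
        nlinarith
  have hp0 : 0 < p 0 := by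
    rcases h0.lt_or_eq with h | h
    · exact h
    · rw [← h] at hp; norm_num at hp
  have hex : ∃ j, 1 < 9 ^ (j + 1) * p 0 := ⟨J, hp.trans_lt (by gcongr)⟩
  classical
  have h2 := Nat.find_spec hex
  have h3 : Nat.find hex ≤ J := Nat.find_min' hex (hp.trans_lt (by gcongr))
  have h4 : 9 ^ Nat.find hex * p 0 ≤ 1 := by
    rcases h : Nat.find hex with _ | j
    · simpa using h1
    · exact not_lt.1 (Nat.find_min hex (by omega))
  refine ⟨_, h3, le_trans ?_ (key _ h4).1⟩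
  rw [pow_succ] at h2
  nlinarith

/-- iterated amplification -/
def ampE (E : (ι → Bool) → (Ω → ℝ) → ℝ) (g : (ι → Bool) → Ω → Bool) : ℕ → (ι → Bool) → (Ω → ℝ) → ℝ
  | 0 => E
  | j + 1 => fun x φ => ampE E g j x fun ω => (2 * ampE E g j x (fun ω => sg (g x ω)) - sg (g x ω)) ^ 2 * φ ω

lemma samp_ampE {q r : ℕ} {E : (ι → Bool) → (Ω → ℝ) → ℝ} (h : Samp q E) {g : (ι → Bool) → Ω → Bool}
    (hg : ∀ ω, Det r fun x => g x ω) (j : ℕ) : ∃ c, c + r = 3 ^ j * (q + r) ∧ Samp c (ampE E g j) := by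
  induction j with
  | zero => exact ⟨q, by simp, h⟩
  | succ j ih =>
    obtain ⟨c, h1, h2⟩ := ih
    exact ⟨_, by rw [pow_succ]; nlinarith, amp1 h2 hg⟩

theorem amp {q r J : ℕ} {E : (ι → Bool) → (Ω → ℝ) → ℝ} (h : Samp q E) {g : (ι → Bool) → Ω → Bool}
    (hg : ∀ ω, Det r fun x => g x ω) {K : ℝ} (hK : K < 9 ^ (J + 1)) :
    ∃ E' : (ι → Bool) → (Ω → ℝ) → ℝ, Samp (3 ^ J * (q + r)) E' ∧ ∀ x, ∃ L : ℝ, 0 ≤ L ∧
      (∀ φ : Ω → ℝ, E' x (fun ω => ind (g x ω) * φ ω) = L * E x fun ω => ind (g x ω) * φ ω) ∧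
      (1 ≤ K * E x (fun ω => ind (g x ω)) → 2 / (27 * (J + 1)) ≤ E' x fun ω => ind (g x ω)) := by
  have hS : ∀ j : Fin (J + 1), Samp (3 ^ J * (q + r)) (ampE E g j) := by
    intro j
    obtain ⟨c, h1, h2⟩ := samp_ampE h hg j
    refine h2.mono ?_
    have : 3 ^ (j : ℕ) * (q + r) ≤ 3 ^ J * (q + r) :=
      Nat.mul_le_mul_right _ (Nat.pow_le_pow_right (by norm_num) (by omega))
    omega
  refine ⟨_, ((Samp.unif (Fin (J + 1))).bind hS).mono (by omega), fun x => ?_⟩
  have fd : ∀ j, IsFD (ampE E g j x) := fun j => (samp_ampE h hg j).choose_spec.2.fd x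
  have step : ∀ j (φ : Ω → ℝ), ampE E g (j + 1) x (fun ω => ind (g x ω) * φ ω) =
      (3 - 4 * ampE E g j x (fun ω => ind (g x ω))) ^ 2 * ampE E g j x fun ω => ind (g x ω) * φ ω := by
    intro j φ
    rw [← (fd j).mul]
    simp only [ampE, sg_eq]
    rw [(fd j).sub, (fd j).const, (fd j).mul]
    congr 1
    ext ω
    cases g x ω <;> simp
    left; ring
  have hL : ∀ j, ∃ L : ℝ, 0 ≤ L ∧ ∀ φ : Ω → ℝ, ampE E g j x (fun ω => ind (g x ω) * φ ω) =
      L * E x fun ω => ind (g x ω) * φ ω := by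
    intro j
    induction j with
    | zero => exact ⟨1, zero_le_one, fun φ => by simp [ampE]⟩
    | succ j ih =>
      obtain ⟨L, h0, e⟩ := ih
      exact ⟨_ * L, mul_nonneg (sq_nonneg _) h0, fun φ => by rw [step, e, mul_assoc]⟩
  choose L hL0 hL using hL
  refine ⟨(∑ j : Fin (J + 1), L j) / (J + 1), div_nonneg (Finset.sum_nonneg fun j _ => hL0 _) (by positivity),
    fun φ => ?_, fun hp => ?_⟩
  · simp only [hL, ← Finset.sum_mul, Fintype.card_fin]
    push_cast; ring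
  · obtain ⟨j, hj, h2⟩ := seq_amp (fun j => ampE E g j x fun ω => ind (g x ω))
      ((fd 0).nonneg fun _ => ind_nonneg _) ((fd 0).le_const fun _ => ind_le_one _)
      (fun j => by simpa using step j fun _ => 1) hK hp
    simp only [Fintype.card_fin]
    push_cast
    rw [← div_div]
    gcongr
    refine h2.trans ?_
    exact Finset.single_le_sum (f := fun j : Fin (J + 1) => ampE E g j x fun ω => ind (g x ω))
      (fun j _ => (fd j).nonneg fun _ => ind_nonneg _) (mem_univ (⟨j, by omega⟩ : Fin (J + 1)))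

lemma Det.pure (c : Ω) : Det (ι := ι) 0 fun _ => c := Samp.pure c

lemma Det.bind {p q : ℕ} {g : (ι → Bool) → Ω} {h : Ω → (ι → Bool) → Ω'} (hg : Det p g)
    (hh : ∀ ω, Det q (h ω)) : Det (p + q) fun x => h (g x) x := Samp.bind hg hh

lemma Det.map {q : ℕ} {g : (ι → Bool) → Ω} (hg : Det q g) (F : Ω → Ω') : Det q fun x => F (g x) :=
  Samp.map hg F

lemma Det.mono {p q : ℕ} {g : (ι → Bool) → Ω} (hg : Det p g) (h : p ≤ q) : Det q g := Samp.mono hg h

lemma Det.pair {p q : ℕ} {g : (ι → Bool) → Ω} {h : (ι → Bool) → Ω'} (hg : Det p g) (hh : Det q h) :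
    Det (p + q) fun x => (g x, h x) := hg.bind fun ω => hh.map fun ω' => (ω, ω')

lemma Samp.pi_fin {q : ℕ} (l : ℕ) : ∀ (E : Fin l → (ι → Bool) → (Ω → ℝ) → ℝ), (∀ j, Samp q (E j)) →
    ∃ E' : (ι → Bool) → ((Fin l → Ω) → ℝ) → ℝ, Samp (l * q) E' ∧
      ∀ x (φ : Fin l → Ω → ℝ), E' x (fun z => ∏ j, φ j (z j)) = ∏ j, E j x (φ j) := by
  induction l with
  | zero => intro E _; exact ⟨_, (Samp.pure Fin.elim0).mono (by simp), fun x φ => by simp⟩
  | succ l ih =>
    intro E h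
    obtain ⟨E', h1, e⟩ := ih (fun j => E j.succ) fun j => h _
    refine ⟨_, ((h 0).bind fun ω => h1.map fun z => (Fin.cons ω z : Fin (l + 1) → Ω)).mono
      (by rw [add_mul]; omega), fun x φ => ?_⟩
    simp only [Fin.prod_univ_succ, Fin.cons_zero, Fin.cons_succ, (h1.fd x).mul]
    rw [((h 0).fd x).mul', e x fun j => φ j.succ]

lemma Samp.pi {J : Type} [Fintype J] {q : ℕ} {E : J → (ι → Bool) → (Ω → ℝ) → ℝ} (h : ∀ j, Samp q (E j)) :
    ∃ E' : (ι → Bool) → ((J → Ω) → ℝ) → ℝ, Samp (Fintype.card J * q) E' ∧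
      ∀ x (φ : J → Ω → ℝ), E' x (fun z => ∏ j, φ j (z j)) = ∏ j, E j x (φ j) := by
  let e := Fintype.equivFin J
  obtain ⟨E', h1, h2⟩ := Samp.pi_fin _ (fun j => E (e.symm j)) fun j => h _
  refine ⟨_, h1.map fun z j => z (e j), fun x φ => ?_⟩
  rw [← e.symm.prod_comp, ← h2 x fun j => φ (e.symm j)]
  congr 1
  ext z
  beta_reduce
  rw [← e.symm.prod_comp]
  simp

lemma Det.pi {J : Type} [Fintype J] {q : ℕ} {g : J → (ι → Bool) → Ω} (h : ∀ j, Det q (g j)) :
    Det (Fintype.card J * q) fun x j => g j x := by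
  classical
  obtain ⟨E', h1, h2⟩ := Samp.pi h
  have : E' = fun x φ => φ fun j => g j x := by
    ext x φ
    refine (h1.fd x).point ?_ φ
    have := h2 x fun j ω => if ω = g j x then 1 else 0
    simp only [if_true, Finset.prod_const_one] at this
    refine Eq.trans ?_ this
    congr 1
    ext z
    rw [Finset.prod_ite_zero]
    simp [funext_iff]
  rw [this] at h1
  exact h1

lemma Det.word {J : Type} [Fintype J] (pos : J → ι) : Det (Fintype.card J) fun x j => x (pos j) :=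
  (Det.pi fun j => Det.read (pos j)).mono (by simp)

/-- acceptance probabilities of `q`-query algorithms -/
def Acc (q : ℕ) (a : (ι → Bool) → ℝ) : Prop := ∃ E, Samp q E ∧ ∀ x, E x ind = a x

lemma Det.acc {q : ℕ} {g : (ι → Bool) → Bool} (h : Det q g) : Acc q fun x => ind (g x) := ⟨_, h, fun _ => rfl⟩

lemma Acc.mono {p q : ℕ} {a : (ι → Bool) → ℝ} (h : Acc p a) (hpq : p ≤ q) : Acc q a := by
  obtain ⟨E, h1, h2⟩ := h
  exact ⟨E, h1.mono hpq, h2⟩

lemma Acc.range {q : ℕ} {a : (ι → Bool) → ℝ} (h : Acc q a) (x : ι → Bool) : 0 ≤ a x ∧ a x ≤ 1 := by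
  obtain ⟨E, h1, h2⟩ := h
  rw [← h2]
  exact ⟨(h1.fd x).nonneg ind_nonneg, (h1.fd x).le_const ind_le_one⟩

lemma Acc.not {q : ℕ} {a : (ι → Bool) → ℝ} (h : Acc q a) : Acc q fun x => 1 - a x := by
  obtain ⟨E, h1, h2⟩ := h
  refine ⟨_, h1.map Bool.not, fun x => ?_⟩
  simp only [ind_not]
  rw [(h1.fd x).sub, (h1.fd x).const, h2]

lemma ind_all {J : Type} [Fintype J] (z : J → Bool) : ind (decide (∀ j, z j = true)) = ∏ j, ind (z j) := by
  unfold ind
  rw [Finset.prod_ite_zero]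
  simp

lemma Acc.all {J : Type} [Fintype J] {q : ℕ} {a : J → (ι → Bool) → ℝ} (h : ∀ j, Acc q (a j)) :
    Acc (Fintype.card J * q) fun x => ∏ j, a j x := by
  choose E h1 h2 using h
  obtain ⟨E', h3, h4⟩ := Samp.pi h1
  refine ⟨_, h3.map fun z => decide (∀ j, z j = true), fun x => ?_⟩
  simp only [ind_all]
  rw [h4 x fun _ => ind]
  simp only [h2]

lemma Acc.any {J : Type} [Fintype J] {q : ℕ} {a : J → (ι → Bool) → ℝ} (h : ∀ j, Acc q (a j)) :
    Acc (Fintype.card J * q) fun x => 1 - ∏ j, (1 - a j x) := (Acc.all fun j => (h j).not).not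

lemma Samp.acc {p q : ℕ} {E : (ι → Bool) → (Ω → ℝ) → ℝ} {a : Ω → (ι → Bool) → ℝ}
    (h : Samp p E) (h' : ∀ ω, Acc q (a ω)) : Acc (p + q) fun x => E x fun ω => a ω x := by
  choose E' h1 h2 using h'
  exact ⟨_, h.bind h1, fun x => by simp only [h2]⟩

lemma Acc.bits {J : Type} [Fintype J] [DecidableEq J] {q : ℕ} {a : J → (ι → Bool) → ℝ} (h : ∀ j, Acc q (a j)) :
    ∃ E : (ι → Bool) → ((J → Bool) → ℝ) → ℝ, Samp (Fintype.card J * q) E ∧
      ∀ x α, E x (fun z => if z = α then 1 else 0) = ∏ j, if α j = true then a j x else 1 - a j x := by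
  choose E h1 h2 using h
  obtain ⟨E', h3, h4⟩ := Samp.pi h1
  refine ⟨E', h3, fun x α => ?_⟩
  have := h4 x fun j b => if b = α j then 1 else 0
  simp only [Finset.prod_ite_zero, mem_univ, forall_const, Finset.prod_const_one, ← funext_iff] at this
  refine Eq.trans (by congr!) (this.trans (Finset.prod_congr rfl fun j _ => ?_))
  rw [← h2]
  cases α j
  · have := ((h1 j).fd x).sub (fun _ => 1) ind
    rw [((h1 j).fd x).const] at this
    rw [if_neg (by simp), ← this]
    congr 1; ext b; cases b <;> simp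
  · rw [if_pos rfl]; rfl

theorem search {C : Type} [Fintype C] [Nonempty C] {r J : ℕ} {bad : (ι → Bool) → C → Bool}
    (hb : ∀ c, Det r fun x => bad x c) (hK : Fintype.card C < 9 ^ (J + 1)) (R : ℕ) :
    ∃ a, Acc (R * (3 ^ J * r + r)) a ∧ ∀ x, ((∀ c, bad x c = false) → a x = 1) ∧
      ((∃ c, bad x c = true) → a x ≤ (1 - 2 / (27 * (J + 1))) ^ R) := by
  obtain ⟨E, h1, h2⟩ := amp (J := J) (Samp.unif C) hb (K := Fintype.card C) (by exact_mod_cast hK)
  have h3 := (h1.acc fun c => (hb c).acc).not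
  refine ⟨_, (Acc.all fun _ : Fin R => h3).mono (by simp), fun x => ⟨fun h => ?_, fun ⟨c, hc⟩ => ?_⟩⟩
  · simp [h, (h1.fd x).const]
  · obtain ⟨L, _, _, h4⟩ := h2 x
    have hc0 : (0 : ℝ) < Fintype.card C := by exact_mod_cast Fintype.card_pos
    have := h4 (by
      rw [mul_div_cancel₀ _ hc0.ne']
      refine le_trans (by simp [hc]) (Finset.single_le_sum (f := fun c => ind (bad x c))
        (fun _ _ => ind_nonneg _) (mem_univ c)))
    simp only [Finset.prod_const, card_univ, Fintype.card_fin]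
    exact pow_le_pow_left₀ (h3.range x).1 (by linarith) R

lemma tour_step {E E' : (Ω → ℝ) → ℝ} (h : IsFD E) (h' : IsFD E') (g : Ω → Bool) (sv : Ω → Ω → Bool)
    (hs : ∀ u v, ¬ (sv u v = true ∧ sv v u = true)) {L ρ : ℝ} (hL : 0 ≤ L)
    (e : ∀ φ : Ω → ℝ, E' (fun ω => ind (g ω) * φ ω) = L * E fun ω => ind (g ω) * φ ω)
    (hρ : ρ ≤ E' fun ω => ind (g ω)) :
    E' (fun u => E fun v => ind (g v) * ind (sv v u)) ≤ (1 - ρ / 2) * E fun v => ind (g v) := by
  set W := E fun v => ind (g v) with hW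
  have hW0 : 0 ≤ W := h.nonneg fun _ => ind_nonneg _
  set W' := fun u => E fun v => ind (g v) * ind (sv v u) with hW'
  have h1 : ∀ u, W' u ≤ W := fun u => h.mono fun v => mul_le_of_le_one_right (ind_nonneg _) (ind_le_one _)
  have h2 : E' (fun ω => ind (g ω)) = L * W := by simpa using e fun _ => 1
  have h3 : 2 * E (fun u => ind (g u) * W' u) ≤ W * W := by
    have e1 : E (fun u => ind (g u) * W' u) = E fun u => E fun v => ind (g u) * (ind (g v) * ind (sv v u)) := by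
      simp only [h.mul, hW']
    have e2 := h.swap h fun u v => ind (g u) * (ind (g v) * ind (sv v u))
    have e3 : W * W = E fun u => E fun v => ind (g u) * ind (g v) := by
      simp only [h.mul, h.mul', hW]
    rw [two_mul, e1, e3]
    nth_rewrite 2 [e2]
    rw [← h.add]
    refine h.mono fun u => ?_
    rw [← h.add]
    refine h.mono fun v => ?_
    have := hs u v
    revert this
    cases g u <;> cases g v <;> cases sv u v <;> cases sv v u <;> simp
  have h4 : E' W' ≤ E' fun u => ind (g u) * W' u + (1 - ind (g u)) * W := by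
    refine h'.mono fun u => ?_
    have := h1 u
    cases g u <;> simp [this]
  rw [h'.add, e, h'.mul', h'.sub, h'.const, h2] at h4
  rw [h2] at hρ
  nlinarith

theorem tour {q r J : ℕ} {E : (ι → Bool) → (Ω → ℝ) → ℝ} (h : Samp q E) {sv : (ι → Bool) → Ω → Ω → Bool}
    (hd : ∀ u v, Det r fun x => sv x u v) (hs : ∀ x u v, ¬ (sv x u v = true ∧ sv x v u = true))
    {K : ℝ} (hK : K < 9 ^ (J + 1)) (R : ℕ) :
    ∃ E' : (ι → Bool) → ((Fin R → Ω) → ℝ) → ℝ, Samp (R * (3 ^ J * (q + R * r))) E' ∧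
      ∀ x (st tg : Ω → Bool), (∀ u v, st u = true → tg v = false → sv x u v = true) →
        1 ≤ K * E x (fun u => ind (st u)) →
        E' x (fun l => ind (decide (∀ j, tg (l j) = false))) ≤ K * (1 - 1 / (27 * (J + 1))) ^ R := by
  have hρ : (0 : ℝ) ≤ 1 - 1 / (27 * (J + 1)) := by
    rw [sub_nonneg, div_le_one (by positivity)]
    nlinarith [Nat.cast_nonneg (α := ℝ) J]
  have mono : ∀ x t (l : Fin t → Ω) (st tg : Ω → Bool), (∀ u v, st u = true → tg v = false → sv x u v = true) →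
      (∀ j, tg (l j) = false) → E x (fun u => ind (st u)) ≤ E x fun u => ind (decide (∀ j, sv x u (l j) = true)) := by
    intro x t l st tg h1 h2
    refine (h.fd x).mono fun u => ?_
    cases hu : st u
    · simp [ind_nonneg]
    · simp [fun j => h1 u (l j) hu (h2 j)]
  have key : ∀ t ≤ R, ∃ E' : (ι → Bool) → ((Fin t → Ω) → ℝ) → ℝ, Samp (t * (3 ^ J * (q + R * r))) E' ∧
      ∀ x (st tg : Ω → Bool), (∀ u v, st u = true → tg v = false → sv x u v = true) →
        1 ≤ K * E x (fun u => ind (st u)) →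
        E' x (fun l => ind (decide (∀ j, tg (l j) = false)) *
          E x fun u => ind (decide (∀ j, sv x u (l j) = true))) ≤ (1 - 1 / (27 * (J + 1))) ^ t := by
    intro t
    induction t with
    | zero =>
      intro _
      refine ⟨_, (Samp.pure Fin.elim0).mono (by simp), fun x st tg _ _ => ?_⟩
      simp [(h.fd x).const]
    | succ t ih =>
      intro ht
      obtain ⟨E', h1, h2⟩ := ih (by omega)
      have hg : ∀ (l : Fin t → Ω) u, Det (R * r) fun x => decide (∀ j, sv x u (l j) = true) := fun l u =>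
        ((Det.pi fun j => hd u (l j)).map fun z => decide (∀ j, z j = true)).mono
          (by simp only [Fintype.card_fin]; exact Nat.mul_le_mul_right _ (by omega))
      have := fun l => amp (J := J) h (hg l) hK
      choose F hF1 hF2 using this
      refine ⟨_, (h1.bind fun l => (hF1 l).map fun u => (Fin.cons u l : Fin (t + 1) → Ω)).mono
        (by rw [add_mul]; omega), fun x st tg h3 h4 => ?_⟩
      rw [pow_succ']
      refine le_trans ?_ (mul_le_mul_of_nonneg_left (h2 x st tg h3 h4) hρ)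
      rw [← (h1.fd x).mul]
      refine (h1.fd x).mono fun l => ?_
      simp only [Fin.forall_fin_succ, Fin.cons_zero, Fin.cons_succ]
      by_cases h5 : ∀ j, tg (l j) = false
      · obtain ⟨L, hL, e, h6⟩ := hF2 l x
        have hK0 : 0 ≤ K := by
          by_contra hk
          have := (h.fd x).nonneg fun u => ind_nonneg (st u)
          nlinarith
        have h7 := tour_step (h.fd x) ((hF1 l).fd x) _ (sv x) (hs x) hL e
          (h6 (h4.trans (mul_le_mul_of_nonneg_left (mono x t l st tg h3 h5) hK0)))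
        have e2 : (2 : ℝ) / (27 * (J + 1)) / 2 = 1 / (27 * (J + 1)) := by field_simp
        rw [e2] at h7
        simp only [h5, implies_true, decide_true, ind_true, one_mul, and_true]
        refine le_trans (((hF1 l).fd x).mono fun u => ?_) h7
        refine (mul_le_of_le_one_left ((h.fd x).nonneg fun _ => ind_nonneg _) (ind_le_one _)).trans ?_
        refine (h.fd x).mono fun v => ?_
        by_cases h8 : ∀ j, sv x v (l j) = true <;> cases sv x v u <;> simp [h8]
      · simp [h5, ((hF1 l).fd x).const]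
  obtain ⟨E', h1, h2⟩ := key R le_rfl
  refine ⟨E', h1, fun x st tg h3 h4 => ?_⟩
  have hK0 : 0 ≤ K := by
    by_contra hk
    have := (h.fd x).nonneg fun u => ind_nonneg (st u)
    nlinarith
  refine le_trans ?_ (mul_le_mul_of_nonneg_left (h2 x st tg h3 h4) hK0)
  rw [← (h1.fd x).mul]
  refine (h1.fd x).mono fun l => ?_
  by_cases h5 : ∀ j, tg (l j) = false
  · simp only [h5, implies_true, decide_true, ind_true, one_mul]
    exact h4.trans (mul_le_mul_of_nonneg_left (mono x R l st tg h3 h5) hK0)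
  · simp [h5]

end

end Vale.Agent.P362b
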