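import Vale.Agent.P362b.Adv

namespace Vale.Agent.P362b

open Finset

noncomputable section

/-- sign of a bit -/
def sg (b : Bool) : ℝ := if b = true then -1 else 1

@[simp] lemma sg_true : sg true = -1 := rfl
@[simp] lemma sg_false : sg false = 1 := by simp [sg]
lemma sg_sq (b : Bool) : sg b * sg b = 1 := by cases b <;> simp
lemma sg_not (b : Bool) : sg (!b) = - sg b := by cases b <;> simp
lemma abs_sg (b : Bool) : |sg b| = 1 := by cases b <;> simp

variable {ι : Type} [Fintype ι] [DecidableEq ι]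

def flip (x : ι → Bool) (i : ι) : ι → Bool := Function.update x i (!x i)

lemma flip_flip (x : ι → Bool) (i : ι) : flip (flip x i) i = x := by
  simp [flip]

lemma flip_comm (x : ι → Bool) {i j : ι} (h : i ≠ j) : flip (flip x i) j = flip (flip x j) i := by
  simp only [flip, Function.update_of_ne h, Function.update_of_ne h.symm]
  exact Function.update_comm h _ _ _

def chi (S : Finset ι) (x : ι → Bool) : ℝ := ∏ i ∈ S, sg (x i)

lemma chi_flip (S : Finset ι) (x : ι → Bool) (i : ι) :
    chi S (flip x i) = if i ∈ S then - chi S x else chi S x := by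
  unfold chi flip
  split_ifs with h
  · rw [← Finset.mul_prod_erase _ _ h, ← Finset.mul_prod_erase _ _ h, Function.update_self, sg_not,
      neg_mul]
    congr 2
    exact Finset.prod_congr rfl fun j hj => by rw [Function.update_of_ne (Finset.ne_of_mem_erase hj)]
  · exact Finset.prod_congr rfl fun j hj => by
      rw [Function.update_of_ne (by rintro rfl; exact h hj)]

lemma chi_sq (S : Finset ι) (x : ι → Bool) : chi S x * chi S x = 1 := by
  unfold chi
  rw [← Finset.prod_mul_distrib]
  simp [sg_sq]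

lemma abs_chi (S : Finset ι) (x : ι → Bool) : |chi S x| = 1 := by
  unfold chi
  rw [Finset.abs_prod]
  simp [abs_sg]

/-- Huang's signed adjacency operator in the directions of `S` -/
def hua (S : Finset ι) : ((ι → Bool) → ℝ) →ₗ[ℝ] ((ι → Bool) → ℝ) where
  toFun v x := ∑ i ∈ S, chi (univ.filter fun j => Fintype.equivFin ι j < Fintype.equivFin ι i) x * v (flip x i)
  map_add' u v := by ext x; simp [mul_add, Finset.sum_add_distrib]
  map_smul' c v := by ext x; simp [Finset.mul_sum, mul_left_comm]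

lemma hua_sq (S : Finset ι) (v : (ι → Bool) → ℝ) : hua S (hua S v) = (S.card : ℝ) • v := by
  ext x
  set L : ι → Finset ι := fun i => univ.filter fun j => Fintype.equivFin ι j < Fintype.equivFin ι i with hL
  have e : hua S (hua S v) x = ∑ i ∈ S, ∑ j ∈ S, chi (L i) x * (chi (L j) (flip x i) * v (flip (flip x i) j)) := by
    simp only [hua, LinearMap.coe_mk, AddHom.coe_mk, Finset.mul_sum, hL]
  set t : ι → ι → ℝ := fun i j => chi (L i) x * (chi (L j) (flip x i) * v (flip (flip x i) j)) with ht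
  have h1 : ∀ i j, t i j + t j i = if i = j then 2 * v x else 0 := by
    intro i j
    split_ifs with h
    · subst h
      simp only [ht, chi_flip, flip_flip, hL, mem_filter, mem_univ, true_and, lt_self_iff_false, if_false]
      rw [← mul_assoc, chi_sq]; ring
    · simp only [ht, chi_flip, flip_comm x h, hL, mem_filter, mem_univ, true_and]
      have hne : Fintype.equivFin ι i ≠ Fintype.equivFin ι j := fun e => h ((Fintype.equivFin ι).injective e)
      rcases lt_or_gt_of_ne hne with h2 | h2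
      · rw [if_pos h2, if_neg (not_lt.2 h2.le)]; ring
      · rw [if_neg (not_lt.2 h2.le), if_pos h2]; ring
  have h2 : 2 * (∑ i ∈ S, ∑ j ∈ S, t i j) = ∑ i ∈ S, ∑ j ∈ S, (t i j + t j i) := by
    simp only [Finset.sum_add_distrib]
    rw [Finset.sum_comm (f := fun i j => t j i)]; ring
  simp only [h1] at h2
  have h3 : ∑ i ∈ S, ∑ j ∈ S, (if i = j then 2 * v x else 0) = S.card * (2 * v x) := by
    rw [Finset.sum_congr rfl (g := fun _ => 2 * v x)]
    · simp
    · intro i hi; simp [hi]
  rw [e]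
  simp only [Pi.smul_apply, smul_eq_mul]
  linarith

lemma exists_eig (S : Finset ι) (V : Finset (ι → Bool)) (hV : Fintype.card (ι → Bool) < 2 * V.card) :
    ∃ v : (ι → Bool) → ℝ, v ≠ 0 ∧ (∀ x, x ∉ V → v x = 0) ∧ ∀ x, |hua S v x| = √S.card * |v x| := by
  set s : ℝ := √S.card with hs
  have hss : s * s = S.card := Real.mul_self_sqrt (Nat.cast_nonneg _)
  have hle : LinearMap.range (hua S + s • LinearMap.id) ≤ LinearMap.ker (hua S - s • LinearMap.id) := by
    rintro _ ⟨v, rfl⟩
    simp only [LinearMap.mem_ker, LinearMap.sub_apply, LinearMap.add_apply, LinearMap.smul_apply,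
      LinearMap.id_apply, map_add, map_smul, hua_sq, smul_add, smul_smul, ← hss]
    module
  have h1 := LinearMap.finrank_range_add_finrank_ker (hua S + s • LinearMap.id)
  have h2 := Submodule.finrank_mono hle
  rw [Module.finrank_fintype_fun_eq_card] at h1
  have key : ∀ E : Submodule ℝ ((ι → Bool) → ℝ), Fintype.card (ι → Bool) ≤ 2 * Module.finrank ℝ E →
      ∃ v ∈ E, v ≠ 0 ∧ ∀ x, x ∉ V → v x = 0 := by
    intro E hE
    let ρ : E →ₗ[ℝ] ({x // x ∉ V} → ℝ) := (LinearMap.funLeft ℝ ℝ (fun x : {x // x ∉ V} => x.1)).comp E.subtype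
    have hc : Fintype.card {x // x ∉ V} = Fintype.card (ι → Bool) - V.card := by
      rw [Fintype.card_subtype_compl, Fintype.card_coe]
    have : LinearMap.ker ρ ≠ ⊥ := LinearMap.ker_ne_bot_of_finrank_lt (by
      rw [Module.finrank_fintype_fun_eq_card, hc]
      have := V.card_le_univ
      omega)
    obtain ⟨v, hv, hv0⟩ := Submodule.exists_mem_ne_zero_of_ne_bot this
    refine ⟨v.1, v.2, fun h => hv0 (Subtype.ext h), fun x hx => ?_⟩
    exact congrFun (LinearMap.mem_ker.1 hv) ⟨x, hx⟩
  by_cases h : Fintype.card (ι → Bool) ≤ 2 * Module.finrank ℝ (LinearMap.ker (hua S + s • LinearMap.id))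
  · obtain ⟨v, hv, h0, h1⟩ := key _ h
    refine ⟨v, h0, h1, fun x => ?_⟩
    have := congrFun (LinearMap.mem_ker.1 hv) x
    simp only [LinearMap.add_apply, LinearMap.smul_apply, LinearMap.id_apply, Pi.add_apply,
      Pi.smul_apply, smul_eq_mul, Pi.zero_apply] at this
    rw [show hua S v x = -(s * v x) by linarith, abs_neg, abs_mul, abs_of_nonneg (Real.sqrt_nonneg _)]
  · obtain ⟨v, hv, h0, h1⟩ := key (LinearMap.ker (hua S - s • LinearMap.id)) (by omega)
    refine ⟨v, h0, h1, fun x => ?_⟩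
    have := congrFun (LinearMap.mem_ker.1 hv) x
    simp only [LinearMap.sub_apply, LinearMap.smul_apply, LinearMap.id_apply, Pi.sub_apply,
      Pi.smul_apply, smul_eq_mul, Pi.zero_apply] at this
    rw [show hua S v x = s * v x by linarith, abs_mul, abs_of_nonneg (Real.sqrt_nonneg _)]

/-- unnormalized Fourier coefficient -/
def hat (f : (ι → Bool) → Bool) (S : Finset ι) : ℝ := ∑ x, sg (f x) * chi S x

lemma exists_big (h : (ι → Bool) → ℝ) (h1 : ∀ x, h x = 1 ∨ h x = -1) (h0 : ∑ x, h x ≠ 0) :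
    ∃ V : Finset (ι → Bool), Fintype.card (ι → Bool) < 2 * V.card ∧ ∀ x ∈ V, ∀ y ∈ V, h x = h y := by
  have e1 : ∑ x, h x = (univ.filter fun x => h x = 1).card - ((univ.filter fun x => ¬ h x = 1).card : ℝ) := by
    rw [← Finset.sum_filter_add_sum_filter_not univ (fun x => h x = 1),
      Finset.sum_congr rfl (g := fun _ => (1 : ℝ)) (fun x hx => (mem_filter.1 hx).2),
      Finset.sum_congr rfl (s₁ := univ.filter fun x => ¬ h x = 1) (g := fun _ => (-1 : ℝ))
        (fun x hx => (h1 x).resolve_left (mem_filter.1 hx).2)]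
    simp [sub_eq_add_neg]
  have e2 := Finset.card_filter_add_card_filter_not (s := (univ : Finset (ι → Bool))) (fun x => h x = 1)
  rw [Finset.card_univ] at e2
  have e3 : (univ.filter fun x => h x = 1).card ≠ (univ.filter fun x => ¬ h x = 1).card := by
    intro e; rw [e1, e] at h0; simp at h0
  rcases lt_or_gt_of_ne e3 with h2 | h2
  · refine ⟨univ.filter fun x => ¬ h x = 1, by omega, fun x hx y hy => ?_⟩
    rw [(h1 x).resolve_left (mem_filter.1 hx).2, (h1 y).resolve_left (mem_filter.1 hy).2]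
  · refine ⟨univ.filter fun x => h x = 1, by omega, fun x hx y hy => ?_⟩
    rw [(mem_filter.1 hx).2, (mem_filter.1 hy).2]

/-- flipping as a permutation -/
def flipE (i : ι) : (ι → Bool) ≃ (ι → Bool) where
  toFun x := flip x i
  invFun x := flip x i
  left_inv x := flip_flip x i
  right_inv x := flip_flip x i

theorem huang {f : (ι → Bool) → Bool} {T : ℕ} (hq : QB f T) {S : Finset ι} (hS : hat f S ≠ 0) :
    S.card ≤ (35 * T) ^ 2 := by
  obtain ⟨β, hβ0, hβ1, hβ⟩ := hq
  obtain ⟨V, hV, hVe⟩ := exists_big (fun x => sg (f x) * chi S x) (fun x => by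
    have h1 := abs_chi S x
    rcases abs_eq (zero_le_one' ℝ) |>.1 h1 with h | h <;> cases f x <;> simp [h]) hS
  obtain ⟨v, hv0, hvV, hv⟩ := exists_eig S V hV
  have hpos : 0 < ∑ x, v x ^ 2 := by
    obtain ⟨x, hx⟩ := Function.ne_iff.1 hv0
    exact Finset.sum_pos' (fun _ _ => sq_nonneg _) ⟨x, mem_univ _, pow_pos (abs_pos.2 hx) 2 |>.trans_eq (sq_abs _)⟩
  have edge : ∀ x, ∀ i ∈ S, |v x| * |v (flip x i)| / 35 ≤
      ∑ t ∈ range T, ((v x * β t x i) ^ 2 + (v (flip x i) * β t (flip x i) i) ^ 2) / 2 := by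
    intro x i hi
    by_cases h1 : x ∈ V ∧ flip x i ∈ V
    · have e := hVe _ h1.1 _ h1.2
      rw [chi_flip, if_pos hi] at e
      have hne : f x ≠ f (flip x i) := by
        intro e2
        rw [← e2] at e
        have h3 := abs_chi S x
        have : chi S x = 0 := by cases hf : f x <;> rw [hf] at e <;> simp at e <;> linarith
        rw [this] at h3; simp at h3
      have h2 := hβ _ _ hne
      have h3 : ∀ t, (∑ j, if x j = flip x i j then 0 else β t x j * β t (flip x i) j) = β t x i * β t (flip x i) i := by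
        intro t
        rw [Finset.sum_eq_single i]
        · simp [flip]
        · intro j _ hj; simp [flip, hj]
        · simp
      simp only [h3] at h2
      calc |v x| * |v (flip x i)| / 35 = |v x| * |v (flip x i)| * (1 / 35) := by ring
        _ ≤ |v x| * |v (flip x i)| * ∑ t ∈ range T, β t x i * β t (flip x i) i := by gcongr
        _ ≤ _ := by
          rw [Finset.mul_sum]
          refine Finset.sum_le_sum fun t _ => ?_
          rw [mul_pow, mul_pow, ← sq_abs (v x), ← sq_abs (v (flip x i))]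
          nlinarith [sq_nonneg (|v x| * β t x i - |v (flip x i)| * β t (flip x i) i)]
    · have : |v x| * |v (flip x i)| = 0 := by
        rcases not_and_or.1 h1 with h | h <;> simp [hvV _ h]
      rw [this, zero_div]
      exact Finset.sum_nonneg fun _ _ => by positivity
  have h1 : √S.card * ∑ x, v x ^ 2 ≤ ∑ x, ∑ i ∈ S, |v x| * |v (flip x i)| := by
    rw [Finset.mul_sum]
    refine Finset.sum_le_sum fun x _ => ?_
    rw [← Finset.mul_sum, ← sq_abs, sq, ← mul_assoc, ← hv, mul_comm]
    gcongr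
    refine (Finset.abs_sum_le_sum_abs _ _).trans (Finset.sum_le_sum fun i _ => ?_)
    rw [abs_mul, abs_chi, one_mul]
  have h2 : ∀ t, ∑ x, ∑ i ∈ S, ((v x * β t x i) ^ 2 + (v (flip x i) * β t (flip x i) i) ^ 2) / 2 ≤ ∑ x, v x ^ 2 := by
    intro t
    have e : ∑ x, ∑ i ∈ S, (v (flip x i) * β t (flip x i) i) ^ 2 = ∑ x, ∑ i ∈ S, (v x * β t x i) ^ 2 := by
      rw [Finset.sum_comm, Finset.sum_comm (f := fun x i => (v x * β t x i) ^ 2)]
      exact Finset.sum_congr rfl fun i _ => (flipE i).sum_comp (fun x => (v x * β t x i) ^ 2)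
    simp only [← Finset.sum_div, Finset.sum_add_distrib]
    rw [e, ← two_mul, mul_div_cancel_left₀ _ two_ne_zero]
    refine Finset.sum_le_sum fun x _ => ?_
    simp only [mul_pow, ← Finset.mul_sum]
    refine mul_le_of_le_one_right (sq_nonneg _) (le_trans ?_ (hβ1 t x))
    exact Finset.sum_le_sum_of_subset_of_nonneg (subset_univ _) fun _ _ _ => sq_nonneg _
  have h3 : (∑ x, ∑ i ∈ S, |v x| * |v (flip x i)|) / 35 ≤ T * ∑ x, v x ^ 2 := by
    calc _ = ∑ x, ∑ i ∈ S, |v x| * |v (flip x i)| / 35 := by simp only [Finset.sum_div]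
      _ ≤ ∑ x, ∑ i ∈ S, ∑ t ∈ range T, ((v x * β t x i) ^ 2 + (v (flip x i) * β t (flip x i) i) ^ 2) / 2 :=
        Finset.sum_le_sum fun x _ => Finset.sum_le_sum fun i hi => edge x i hi
      _ = ∑ t ∈ range T, ∑ x, ∑ i ∈ S, ((v x * β t x i) ^ 2 + (v (flip x i) * β t (flip x i) i) ^ 2) / 2 := by
        rw [Finset.sum_comm (s := range T)]
        exact Finset.sum_congr rfl fun x _ => Finset.sum_comm
      _ ≤ ∑ t ∈ range T, ∑ x, v x ^ 2 := Finset.sum_le_sum fun t _ => h2 t
      _ = _ := by simp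
  have h4 : √S.card ≤ 35 * T := le_of_mul_le_mul_right (by linarith) hpos
  have h5 : (S.card : ℝ) ≤ (35 * T) ^ 2 := by
    rw [← Real.sq_sqrt (Nat.cast_nonneg S.card)]
    exact pow_le_pow_left₀ (Real.sqrt_nonneg _) h4 2
  exact_mod_cast h5

lemma top_eq (f : (ι → Bool) → Bool) (S : Finset ι) (x : ι → Bool) :
    ∑ y, sg (f y) * chi S y * ∏ i ∈ Sᶜ, (1 + sg (x i) * sg (y i)) =
      ∑ A ∈ Sᶜ.powerset, chi A x * hat f (S ∪ A) := by
  simp only [Finset.prod_one_add, Finset.mul_sum, hat]
  rw [Finset.sum_comm]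
  refine Finset.sum_congr rfl fun A hA => Finset.sum_congr rfl fun y _ => ?_
  have hd : Disjoint S A := (disjoint_compl_right (a := S)).mono_right (mem_powerset.1 hA)
  simp only [chi, Finset.prod_union hd, Finset.prod_mul_distrib]
  ring

lemma exists_max {f : (ι → Bool) → Bool} (hf : ∃ x y, f x ≠ f y) :
    ∃ S : Finset ι, hat f S ≠ 0 ∧ ∀ x, ∃ y, f y ≠ f x ∧ ∀ i, i ∉ S → y i = x i := by
  have hne : (univ.filter fun S : Finset ι => S.Nonempty ∧ hat f S ≠ 0).Nonempty := by
    by_contra hc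
    have h0 : ∀ A : Finset ι, A.Nonempty → hat f A = 0 := by
      intro A hA
      by_contra h
      exact hc ⟨A, by simp [hA, h]⟩
    have h1 : ∀ x, sg (f x) * 2 ^ Fintype.card ι = hat f ∅ := by
      intro x
      have := top_eq f ∅ x
      rw [Finset.sum_eq_single x, Finset.sum_eq_single ∅] at this
      · simpa [chi, sg_sq, one_add_one_eq_two] using this
      · intro A _ hA; rw [empty_union, h0 A (nonempty_iff_ne_empty.2 hA), mul_zero]
      · simp
      · intro y _ hy
        obtain ⟨i, hi⟩ := Function.ne_iff.1 hy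
        rw [Finset.prod_eq_zero (i := i) (by simp), mul_zero]
        revert hi
        cases y i <;> cases x i <;> simp
      · simp
    obtain ⟨x, y, hxy⟩ := hf
    have h2 : sg (f x) = sg (f y) := mul_right_cancel₀ (by positivity) ((h1 x).trans (h1 y).symm)
    revert hxy h2
    cases f x <;> cases f y <;> norm_num
  obtain ⟨S, hS, hmax⟩ := Finset.exists_max_image _ Finset.card hne
  simp only [mem_filter, mem_univ, true_and] at hS hmax
  refine ⟨S, hS.2, fun x => ?_⟩
  by_contra hc
  push Not at hc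
  have h1 := top_eq f S x
  rw [Finset.sum_eq_single (∅ : Finset ι)] at h1
  · have h2 : ∑ y, sg (f y) * chi S y * ∏ i ∈ Sᶜ, (1 + sg (x i) * sg (y i)) =
        sg (f x) * ∑ y : ι → Bool, ∏ i, (if i ∈ S then sg (y i) else 1 + sg (x i) * sg (y i)) := by
      rw [Finset.mul_sum]
      refine Finset.sum_congr rfl fun y _ => ?_
      rw [← Finset.prod_mul_prod_compl S, Finset.prod_congr rfl (s₁ := S) (fun i hi => if_pos hi),
        Finset.prod_congr rfl (s₁ := Sᶜ) (fun i hi => if_neg (mem_compl.1 hi))]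
      by_cases h : f y = f x
      · rw [h, chi, mul_assoc]
      · obtain ⟨i, hi, hi2⟩ := hc y h
        have : ∏ i ∈ Sᶜ, (1 + sg (x i) * sg (y i)) = 0 := by
          refine Finset.prod_eq_zero (i := i) (by simpa using hi) ?_
          revert hi2
          cases y i <;> cases x i <;> simp
        rw [this]; simp
    have h3 := Finset.prod_univ_sum (fun _ : ι => (univ : Finset Bool))
      (fun i b => if i ∈ S then sg b else 1 + sg (x i) * sg b)
    rw [Fintype.piFinset_univ] at h3
    obtain ⟨i, hi⟩ := hS.1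
    rw [h2, ← h3, Finset.prod_eq_zero (mem_univ i) (by simp [hi])] at h1
    simp only [chi, mul_zero, prod_empty, union_empty, one_mul] at h1
    exact hS.2 h1.symm
  · intro A hA hA0
    by_contra h
    have hd : Disjoint S A := (disjoint_compl_right (a := S)).mono_right (mem_powerset.1 hA)
    have := hmax (S ∪ A) ⟨hS.1.mono subset_union_left, fun e => h (by rw [e, mul_zero])⟩
    rw [Finset.card_union_of_disjoint hd] at this
    have := (nonempty_iff_ne_empty.2 hA0).card_pos
    omega
  · simp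

/-- `b` disjoint sensitive blocks at `x` -/
def Blocks (f : (ι → Bool) → Bool) (x : ι → Bool) (b : ℕ) : Prop :=
  ∃ y : Fin b → ι → Bool, (∀ j, f (y j) ≠ f x) ∧ ∀ i j j', y j i ≠ x i → y j' i ≠ x i → j = j'

lemma blocks_le {f : (ι → Bool) → Bool} {T : ℕ} (hq : QB f T) {x : ι → Bool} {b : ℕ}
    (hb : Blocks f x b) : b ≤ (35 * (T + 1)) ^ 2 := by
  obtain ⟨β, hβ0, hβ1, hβ⟩ := hq
  obtain ⟨y, hy, hd⟩ := hb
  set c : ℝ := 35 * (T + 1) with hc
  have hc0 : 0 < c := by positivity
  have h1 : ∀ t, ∑ j, (∑ i, if x i = y j i then 0 else β t x i * β t (y j) i) ≤ (c + b / c) / 2 := by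
    intro t
    have e1 : ∑ j, (∑ i, if x i = y j i then 0 else β t x i ^ 2) ≤ 1 := by
      rw [Finset.sum_comm]
      refine le_trans (Finset.sum_le_sum fun i _ => ?_) (hβ1 t x)
      by_cases h : ∃ j, y j i ≠ x i
      · obtain ⟨j, hj⟩ := h
        rw [Finset.sum_eq_single j, if_neg hj.symm]
        · intro j' _ hj'
          rw [if_pos]
          by_contra h2
          exact hj' (hd i _ _ (Ne.symm h2) hj)
        · simp
      · push Not at h
        simp [h, sq_nonneg]
    have e2 : ∑ j : Fin b, (∑ i, β t (y j) i ^ 2) ≤ b := by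
      refine (Finset.sum_le_sum fun j _ => hβ1 t (y j)).trans ?_
      simp
    calc _ ≤ ∑ j, ∑ i, (c * (if x i = y j i then 0 else β t x i ^ 2) + β t (y j) i ^ 2 / c) / 2 := by
          refine Finset.sum_le_sum fun j _ => Finset.sum_le_sum fun i _ => ?_
          split_ifs
          · positivity
          · rw [le_div_iff₀ two_pos, ← sub_nonneg]
            have : c * β t x i ^ 2 + β t (y j) i ^ 2 / c - β t x i * β t (y j) i * 2 =
              (c * β t x i - β t (y j) i) ^ 2 / c := by field_simp; ring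
            rw [this]; positivity
      _ = (c * (∑ j, (∑ i, if x i = y j i then 0 else β t x i ^ 2)) + (∑ j : Fin b, (∑ i, β t (y j) i ^ 2)) / c) / 2 := by
          simp only [← Finset.sum_div, Finset.sum_add_distrib, ← Finset.mul_sum]
      _ ≤ (c * 1 + b / c) / 2 := by gcongr
      _ = _ := by ring
  have h2 : (b : ℝ) / 35 ≤ T * ((c + b / c) / 2) := by
    calc (b : ℝ) / 35 = ∑ j : Fin b, (1 : ℝ) / 35 := by simp; ring
      _ ≤ ∑ j : Fin b, ∑ t ∈ range T, ∑ i, if x i = y j i then 0 else β t x i * β t (y j) i :=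
        Finset.sum_le_sum fun j _ => hβ _ _ (hy j).symm
      _ ≤ ∑ t ∈ range T, (c + b / c) / 2 := by
        rw [Finset.sum_comm]; exact Finset.sum_le_sum fun t _ => h1 t
      _ = _ := by simp
  have h3 : (T : ℝ) * (b / c) ≤ b / 35 := by
    rw [hc, ← mul_div_assoc, div_le_div_iff₀ (by positivity) (by norm_num)]
    have : (0 : ℝ) ≤ b := Nat.cast_nonneg b
    nlinarith
  have h4 : (b : ℝ) ≤ c ^ 2 := by
    have : (T : ℝ) * c * 35 ≤ c ^ 2 := by rw [hc]; nlinarith [Nat.cast_nonneg (α := ℝ) T]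
    nlinarith
  rw [hc] at h4
  exact_mod_cast h4

lemma query_all (S : Finset ι) (d : ℕ) (x0 : ι → Bool) : ∀ k : (ι → Bool) → DT ι, (∀ ρ, (k ρ).depth ≤ d) →
    ∃ T : DT ι, T.depth ≤ S.card + d ∧ ∀ x, T.eval x = (k (S.piecewise x x0)).eval x := by
  induction S using Finset.induction_on with
  | empty => intro k hk; exact ⟨k x0, by simpa using hk x0, fun x => by simp⟩
  | insert i S hi ih =>
    intro k hk
    obtain ⟨T0, h0, e0⟩ := ih (fun ρ => k (Function.update ρ i false)) fun ρ => hk _
    obtain ⟨T1, h1, e1⟩ := ih (fun ρ => k (Function.update ρ i true)) fun ρ => hk _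
    refine ⟨.node i T0 T1, ?_, fun x => ?_⟩
    · rw [DT.depth, card_insert_of_notMem hi]; omega
    · rw [DT.eval, Finset.piecewise_insert, e0, e1]
      cases x i <;> simp

lemma QB.restrict {f : (ι → Bool) → Bool} {T : ℕ} (hq : QB f T) (S : Finset ι) (ρ : ι → Bool) :
    QB (fun y => f (S.piecewise ρ y)) T := by
  obtain ⟨β, hβ0, hβ1, hβ⟩ := hq
  refine ⟨fun t y => β t (S.piecewise ρ y), fun t y i => hβ0 _ _ _, fun t y => hβ1 _ _, fun x y h => ?_⟩
  refine (hβ _ _ h).trans (Finset.sum_le_sum fun t _ => Finset.sum_le_sum fun i _ => ?_)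
  by_cases h1 : x i = y i
  · rw [if_pos h1, if_pos]
    by_cases hi : i ∈ S <;> simp [Finset.piecewise, hi, h1]
  · rw [if_neg h1]
    split_ifs
    · exact mul_nonneg (hβ0 _ _ _) (hβ0 _ _ _)
    · exact le_rfl

lemma tree_of_blocks (T : ℕ) (b : ℕ) : ∀ f : (ι → Bool) → Bool, QB f T → (∀ x, ¬ Blocks f x (b + 1)) →
    ∃ t : DT ι, t.depth ≤ b * (35 * T) ^ 2 ∧ ∀ x, t.eval x = f x := by
  induction b with
  | zero =>
    intro f _ hb
    refine ⟨.leaf (f fun _ => false), by simp [DT.depth], fun x => ?_⟩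
    by_contra h
    exact hb x ⟨fun _ _ => false, fun _ => h, fun _ j j' _ _ => Subsingleton.elim (α := Fin 1) j j'⟩
  | succ b ih =>
    intro f hq hb
    by_cases hf : ∃ x y, f x ≠ f y
    · obtain ⟨S, hS, hbl⟩ := exists_max hf
      have : ∀ ρ, ∃ t : DT ι, t.depth ≤ b * (35 * T) ^ 2 ∧ ∀ x, t.eval x = f (S.piecewise ρ x) := by
        intro ρ
        refine ih _ (hq.restrict S ρ) fun x ⟨y, hy, hd⟩ => ?_
        obtain ⟨y0, h0, h1⟩ := hbl (S.piecewise ρ x)
        refine hb (S.piecewise ρ x) ⟨Fin.cons y0 fun j => S.piecewise ρ (y j), fun j => ?_, fun i j j' => ?_⟩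
        · refine Fin.cases ?_ (fun j => ?_) j
          · simpa using h0
          · simpa using hy j
        · by_cases hi : i ∈ S
          · refine Fin.cases ?_ (fun j => ?_) j <;> refine Fin.cases ?_ (fun j' => ?_) j' <;>
              simp [Finset.piecewise, hi]
          · have := h1 i hi
            refine Fin.cases ?_ (fun j => ?_) j <;> refine Fin.cases ?_ (fun j' => ?_) j' <;>
              simp only [Fin.cons_zero, Fin.cons_succ, this, ne_eq, not_true, IsEmpty.forall_iff,
                implies_true, Finset.piecewise, if_neg hi, Fin.succ_inj]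
            exact hd i j j'
      choose k hk1 hk2 using this
      obtain ⟨t, ht, e⟩ := query_all S _ (fun _ => false) k hk1
      refine ⟨t, ht.trans ?_, fun x => ?_⟩
      · have := huang hq hS
        rw [add_mul]; omega
      · rw [e, hk2]
        congr 1
        ext i
        by_cases hi : i ∈ S <;> simp [Finset.piecewise, hi]
    · push Not at hf
      exact ⟨.leaf (f fun _ => false), by simp [DT.depth], fun x => hf _ _⟩

theorem tree_of_QB {f : (ι → Bool) → Bool} {T : ℕ} (hq : QB f T) :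
    ∃ t : DT ι, t.depth ≤ 35 ^ 4 * (1 + T) ^ 4 ∧ ∀ x, t.eval x = f x := by
  obtain ⟨t, h1, h2⟩ := tree_of_blocks T ((35 * (T + 1)) ^ 2) f hq fun x hx => by
    have := blocks_le hq hx
    omega
  refine ⟨t, h1.trans ?_, h2⟩
  calc (35 * (T + 1)) ^ 2 * (35 * T) ^ 2 ≤ (35 * (T + 1)) ^ 2 * (35 * (T + 1)) ^ 2 := by gcongr; omega
    _ = _ := by ring

lemma rand_of_tree {n : ℕ} {f : (Fin n → Bool) → Bool} {t : DT (Fin n)} {d : ℕ} (h1 : t.depth ≤ d)
    (h2 : ∀ x, t.eval x = f x) : RandComputes f d :=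
  ⟨{t}, fun _ => 1, by simp, by simp, by simpa using h1, fun x => by
    rw [Finset.sum_singleton, if_pos (h2 x)]; norm_num⟩

lemma exists_tree (f : (ι → Bool) → Bool) : ∃ t : DT ι, t.depth ≤ Fintype.card ι ∧ ∀ x, t.eval x = f x := by
  obtain ⟨t, h1, h2⟩ := query_all (univ : Finset ι) 0 (fun _ => false) (fun ρ => .leaf (f ρ)) fun _ => le_rfl
  exact ⟨t, by simpa using h1, fun x => by simp [h2, DT.eval]⟩

theorem R_le_of_quant {n : ℕ} {f : (Fin n → Bool) → Bool} {T : ℕ} (h : QuantComputes f T) :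
    R f ≤ 35 ^ 4 * (1 + T) ^ 4 := by
  obtain ⟨t, h1, h2⟩ := tree_of_QB (QB_of_quant h)
  exact Nat.sInf_le (rand_of_tree h1 h2)

end

end Vale.Agent.P362b
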